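import Vale.Agent.P284.H446.S1
import Vale.Agent.P272.K.Inv.Chart
import Mathlib.Topology.IsLocalHomeomorph

/-!
# P284, theorem K, row K1 (helper35), part a: the quotient of a Galois covering by a subgroup of finite
index as a compact Kähler manifold
-/

open scoped Manifold ContDiff Topology Pointwise ComplexConjugate ComplexOrder
open Filter Set Metric MeasureTheory

noncomputable section

namespace Vale.Agent.P284.H35.K

open Vale.Agent.P272.K Vale.Agent.P284.H248 Vale.Agent.P284.H894 Vale.Agent.P284.H678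
  Vale.Agent.P284.H894.G Vale.Agent.P284.H894.V Vale.Agent.P284.H639 Vale.Agent.P284.H639.V
  Vale.Agent.P284.H465.V17 Vale.Agent.P284.H446.V

variable {X : Type} [TopologicalSpace X]
  {E Γ : Type} [TopologicalSpace E] [Group Γ] [MulAction Γ E] {p : E → X}

/-- the orbit space of the subgroup `N` -/
def Qt (E : Type) {Γ : Type} [Group Γ] [MulAction Γ E] (N : Subgroup Γ) : Type :=
  Quotient (MulAction.orbitRel N E)

instance (N : Subgroup Γ) : TopologicalSpace (Qt E N) :=
  inferInstanceAs (TopologicalSpace (Quotient (MulAction.orbitRel N E)))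

/-- the projection -/
def mkQ (N : Subgroup Γ) (y : E) : Qt E N := Quotient.mk (MulAction.orbitRel N E) y

variable {N : Subgroup Γ}

omit [TopologicalSpace E] in
theorem mkQ_eq {y y' : E} : mkQ N y = mkQ N y' ↔ ∃ g ∈ N, g • y' = y := by
  have h0 : mkQ N y = mkQ N y' ↔ ∃ g : N, g • y' = y := Quotient.eq (r := MulAction.orbitRel N E)
  rw [h0]
  constructor
  · rintro ⟨g, hg⟩
    exact ⟨g, g.2, hg⟩
  · rintro ⟨g, hg, h⟩
    exact ⟨⟨g, hg⟩, h⟩

omit [TopologicalSpace E] in
theorem mkQ_surj : Function.Surjective (mkQ N : E → Qt E N) := Quotient.mk_surjective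

theorem mkQ_cont : Continuous (mkQ N : E → Qt E N) := continuous_quotient_mk'

omit [TopologicalSpace E] in
theorem mkQ_smul {g : Γ} (hg : g ∈ N) (y : E) : mkQ N (g • y) = mkQ N y :=
  mkQ_eq.2 ⟨g, hg, rfl⟩

theorem mkQ_open (hG : IsGalois Γ p) : IsOpenMap (mkQ N : E → Qt E N) := by
  intro U hU
  have h : IsOpen (mkQ N ⁻¹' (mkQ N '' U)) := by
    have h1 : mkQ N ⁻¹' (mkQ N '' U) = ⋃ g : N, (fun y : E => (g : Γ) • y) ⁻¹' U := by
      ext y
      simp only [mem_preimage, mem_image, mem_iUnion]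
      constructor
      · rintro ⟨y', hy', h⟩
        obtain ⟨g, hg, h2⟩ := mkQ_eq.1 h
        exact ⟨⟨g, hg⟩, by rw [h2]; exact hy'⟩
      · rintro ⟨g, hg⟩
        exact ⟨_, hg, mkQ_smul g.2 y⟩
    rw [h1]
    exact isOpen_iUnion fun g => hU.preimage (hG.cont g)
  exact isOpen_coinduced.2 h

theorem mkQ_loc (hG : IsGalois Γ p) : IsLocalHomeomorph (mkQ N : E → Qt E N) := by
  rw [isLocalHomeomorph_iff_isOpenEmbedding_restrict]
  intro y
  obtain ⟨f, hy, hf⟩ := hG.cov.isLocalHomeomorph y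
  refine ⟨f.source, f.open_source.mem_nhds hy, ?_⟩
  refine Topology.IsOpenEmbedding.of_continuous_injective_isOpenMap
    (mkQ_cont.comp continuous_subtype_val) ?_ ((mkQ_open hG).domRestrict f.open_source)
  rintro ⟨a, ha⟩ ⟨b, hb⟩ h
  obtain ⟨g, hg, h2⟩ := mkQ_eq.1 h
  have h3 : p a = p b := by
    have : p a = p (g • b) := congrArg p h2.symm
    rw [this, p_smul hG]
  rw [hf] at h3
  exact Subtype.ext (f.injOn ha hb h3)

/-- the map from the orbit space to the base -/
def prQ (hG : IsGalois Γ p) (N : Subgroup Γ) : Qt E N → X :=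
  Quotient.lift p fun y y' h => by
    obtain ⟨g, -, h2⟩ := (mkQ_eq (N := N) (y := y) (y' := y')).1 (Quotient.sound h)
    rw [← h2, p_smul hG]

theorem prQ_mkQ (hG : IsGalois Γ p) (y : E) : prQ hG N (mkQ N y) = p y := rfl

theorem prQ_cont (hG : IsGalois Γ p) : Continuous (prQ hG N) :=
  hG.cov.continuous.quotient_lift _

theorem prQ_loc (hG : IsGalois Γ p) : IsLocalHomeomorph (prQ hG N) := by
  rw [isLocalHomeomorph_iff_isLocalHomeomorphOn_univ]
  have h1 : IsLocalHomeomorphOn (prQ hG N ∘ mkQ N) univ :=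
    isLocalHomeomorph_iff_isLocalHomeomorphOn_univ.1 hG.cov.isLocalHomeomorph
  have h2 := h1.of_comp_right
    (isLocalHomeomorph_iff_isLocalHomeomorphOn_univ.1 (mkQ_loc (N := N) hG))
  rwa [image_univ, mkQ_surj.range_eq] at h2

theorem qt_t2 [T2Space X] (hG : IsGalois Γ p) : T2Space (Qt E N) := by
  refine ⟨fun a b hab => ?_⟩
  obtain ⟨y, rfl⟩ := mkQ_surj a
  obtain ⟨y', rfl⟩ := mkQ_surj b
  by_cases hp : p y = p y'
  · obtain ⟨γ, rfl⟩ := (hG.orb _ _).1 hp
    obtain ⟨f, hy, hf⟩ := hG.cov.isLocalHomeomorph y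
    refine ⟨mkQ N '' f.source, mkQ N '' ((fun y : E => γ⁻¹ • y) ⁻¹' f.source),
      mkQ_open hG _ f.open_source, mkQ_open hG _ (f.open_source.preimage (hG.cont _)),
      mem_image_of_mem _ hy, mem_image_of_mem _ (by
        show γ⁻¹ • γ • y ∈ f.source
        rw [inv_smul_smul]; exact hy), ?_⟩
    rw [disjoint_left]
    rintro _ ⟨u, hu, rfl⟩ ⟨v, hv, h⟩
    obtain ⟨g, hg, h2⟩ := mkQ_eq.1 h
    apply hab
    have h3 : γ⁻¹ • v = u := by
      refine f.injOn hv hu ?_
      rw [← hf, p_smul hG, ← h2, p_smul hG]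
    have h4 : (γ⁻¹ * g) • u = u := by rw [mul_smul, h2, h3]
    have h5 : γ = g := by
      have := hG.free _ _ h4
      rw [inv_mul_eq_one] at this
      exact this
    rw [h5]
    exact (mkQ_smul hg y).symm
  · obtain ⟨U, V, hU, hV, hyU, hyV, hd⟩ := t2_separation hp
    exact ⟨prQ hG N ⁻¹' U, prQ hG N ⁻¹' V, hU.preimage (prQ_cont hG), hV.preimage (prQ_cont hG),
      hyU, hyV, hd.preimage _⟩

/-- compactness of the orbit space of a subgroup of finite index -/
theorem qt_compact (hG : IsGalois Γ p) [N.FiniteIndex] {D : Set E} (hD : IsCompact D)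
    (hcov : ∀ y : E, ∃ γ : Γ, ∃ x ∈ D, γ • x = y) : CompactSpace (Qt E N) := by
  have hf : Finite (Quotient (QuotientGroup.rightRel N)) := by
    have : Finite (Γ ⧸ N) := Subgroup.finite_quotient_of_finiteIndex
    exact Finite.of_equiv _ (QuotientGroup.quotientRightRelEquivQuotientLeftRel N).symm
  refine ⟨?_⟩
  have h1 : (univ : Set (Qt E N)) =
      ⋃ q : Quotient (QuotientGroup.rightRel N), (fun y : E => mkQ N (q.out • y)) '' D := by
    refine (eq_univ_of_forall fun a => ?_).symm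
    obtain ⟨y, rfl⟩ := mkQ_surj a
    obtain ⟨γ, x, hx, rfl⟩ := hcov y
    refine mem_iUnion.2 ⟨Quotient.mk _ γ, x, hx, ?_⟩
    have h2 : (QuotientGroup.rightRel N) (Quotient.mk (QuotientGroup.rightRel N) γ).out γ :=
      Quotient.exact (Quotient.out_eq _)
    rw [QuotientGroup.rightRel_apply] at h2
    refine (mkQ_eq.2 ⟨_, h2, ?_⟩).symm
    rw [← mul_smul, inv_mul_cancel_right]
  rw [h1]
  exact isCompact_iUnion fun q => hD.image (mkQ_cont.comp (hG.cont _))

section charts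
variable {n : ℕ} [ChartedSpace (Cm n) X]

/-- the charts of the orbit space: local homeomorphisms which are given by charts of the base -/
def IsCh (hG : IsGalois Γ p) (e : OpenPartialHomeomorph (Qt E N) (Cm n)) (c : Chart n X) : Prop :=
  c ∈ atlas (Cm n) X ∧ ∀ y ∈ e.source, prQ hG N y ∈ c.source ∧ e y = c (prQ hG N y)

theorem exists_ch (hG : IsGalois Γ p) (y : Qt E N) (c : Chart n X) (hc : At c (prQ hG N y)) :
    ∃ e : OpenPartialHomeomorph (Qt E N) (Cm n), y ∈ e.source ∧ IsCh hG e c := by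
  obtain ⟨f, hy, hf⟩ := prQ_loc (N := N) hG y
  refine ⟨f.trans c, ?_, hc.1, fun y' hy' => ?_⟩
  · rw [OpenPartialHomeomorph.trans_source]
    refine ⟨hy, ?_⟩
    show f y ∈ c.source
    rw [← hf]
    exact hc.2
  · rw [OpenPartialHomeomorph.trans_source] at hy'
    have h2 : f y' ∈ c.source := hy'.2
    rw [hf]
    exact ⟨h2, rfl⟩

/-- the charted space structure -/
@[reducible] def chQ (n : ℕ) {X : Type} [TopologicalSpace X] [ChartedSpace (Cm n) X]
    {E Γ : Type} [TopologicalSpace E] [Group Γ] [MulAction Γ E] {p : E → X}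
    (hG : IsGalois Γ p) (N : Subgroup Γ) : ChartedSpace (Cm n) (Qt E N) where
  atlas := {e | ∃ c : Chart n X, IsCh hG e c}
  chartAt y := (exists_ch hG y (chartAt (Cm n) (prQ hG N y))
    ⟨chart_mem_atlas _ _, mem_chart_source _ _⟩).choose
  mem_chart_source y := (exists_ch hG y (chartAt (Cm n) (prQ hG N y))
    ⟨chart_mem_atlas _ _, mem_chart_source _ _⟩).choose_spec.1
  chart_mem_atlas y := ⟨_, (exists_ch hG y (chartAt (Cm n) (prQ hG N y))
    ⟨chart_mem_atlas _ _, mem_chart_source _ _⟩).choose_spec.2⟩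

omit [ChartedSpace (Cm n) X] in
theorem ch_symm {hG : IsGalois Γ p} {e : OpenPartialHomeomorph (Qt E N) (Cm n)} {c : Chart n X}
    (h : ∀ y ∈ e.source, prQ hG N y ∈ c.source ∧ e y = c (prQ hG N y)) {z : Cm n}
    (hz : z ∈ e.target) : z ∈ c.target ∧ prQ hG N (e.symm z) = c.symm z := by
  obtain ⟨h1, h2⟩ := h _ (e.map_target hz)
  rw [e.right_inv hz] at h2
  refine ⟨by rw [h2]; exact c.map_source h1, ?_⟩
  conv_rhs => rw [h2]
  rw [c.left_inv h1]

theorem qt_manifold [IsManifold 𝓘(ℂ, Cm n) ω X] (hG : IsGalois Γ p) :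
    @IsManifold ℂ _ (Cm n) _ _ (Cm n) _ 𝓘(ℂ, Cm n) ω (Qt E N) _ (chQ n hG N) := by
  let _ := chQ n hG N
  refine isManifold_of_contDiffOn _ _ _ ?_
  rintro e e' ⟨c, hc, h⟩ ⟨c', hc', h'⟩
  simp only [mfld_simps]
  rintro z ⟨hz, hz'⟩
  refine ContDiffAt.contDiffWithinAt ?_
  obtain ⟨h1, h2⟩ := ch_symm h hz
  have hAt : At c (c.symm z) := ⟨hc, c.map_target h1⟩
  have hAt' : At c' (c.symm z) := ⟨hc', by rw [← h2]; exact (h' _ hz').1⟩
  have h3 := transition hAt hAt'
  rw [c.right_inv h1] at h3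
  refine h3.congr_of_eventuallyEq ?_
  have hopen : IsOpen (e.target ∩ e.symm ⁻¹' e'.source) :=
    e.isOpen_inter_preimage_symm e'.open_source
  filter_upwards [hopen.mem_nhds ⟨hz, hz'⟩] with y hy
  show e' (e.symm y) = c' (c.symm y)
  rw [(h' _ hy.2).2, (ch_symm h hy.1).2]

end charts

end Vale.Agent.P284.H35.K
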