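import Vale.Agent.P284.H35.ExPU
import Vale.Agent.P284.H465.V17
import Vale.Agent.P284.H894.V.V12
import Vale.Agent.P284.H287.V14L

/-!
# P284, S5d: the space of pluriharmonic functions with bounded gradient on the covering given by a
`Coc`: maximum principle, representation of the group, infinite image.
-/

open scoped Manifold ContDiff Topology Pointwise ComplexConjugate ComplexOrder
open Filter Set Metric MeasureTheory

noncomputable section

namespace Vale.Agent.P284.H35.W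

open Vale.Agent.P272.K Vale.Agent.P284.H248 Vale.Agent.P284.H894 Vale.Agent.P284.H894.G
  Vale.Agent.P284.H894.V

variable {n : ℕ} {Γ : Type} [Group Γ]

/-- `LimFam` without `nonconst` -/
structure PHF (C : Coc n Γ) (u : Γ → C.I → Cm n → ℝ) (B : ℝ) : Prop where
  smooth : ∀ γ a, ∀ z ∈ ball (C.c a) (2 * C.r a), ContDiffAt ℝ ∞ (u γ a) z
  hess : ∀ γ a, ∀ z ∈ ball (C.c a) (2 * C.r a), cHess (u γ a) z = 0
  compat : ∀ γ a b z, z ∈ C.O a b → z ∈ ball (C.c a) (2 * C.r a) →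
    C.T a b z ∈ ball (C.c b) (2 * C.r b) → u γ a z = u (γ * C.κ a b z) b (C.T a b z)
  grad : ∀ γ a, ∀ z ∈ ball (C.c a) (2 * C.r a), ‖fderiv ℝ (u γ a) z‖ ≤ B

theorem _root_.Vale.Agent.P284.H894.V.LimFam.phf {C : Coc n Γ} {u : Γ → C.I → Cm n → ℝ} {B : ℝ}
    (h : LimFam C u B) : PHF C u B :=
  ⟨h.smooth, h.hess, h.compat, h.grad⟩

namespace PHF

variable {C : Coc n Γ} {u v : Γ → C.I → Cm n → ℝ} {B B' : ℝ}

/-- every value is taken on a ball of radius `r` -/
theorem reach (h : PHF C u B) (γ : Γ) (a : C.I) (z : Cm n) (hz : z ∈ ball (C.c a) (2 * C.r a)) :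
    ∃ b, z ∈ C.O a b ∧ C.T a b z ∈ ball (C.c b) (C.r b) ∧
      u γ a z = u (γ * C.κ a b z) b (C.T a b z) := by
  obtain ⟨b, hb, hw⟩ := C.cover a z (ball_subset_ball (by linarith [C.r_pos a]) hz)
  exact ⟨b, hb, hw, h.compat γ a b z hb hz (ball_subset_ball (by linarith [C.r_pos b]) hw)⟩

/-- strong maximum principle -/
theorem const_of_max (h : PHF C u B) (γ₀ : Γ) (a₀ : C.I) (z₀ : Cm n)
    (hz₀ : z₀ ∈ ball (C.c a₀) (2 * C.r a₀))
    (hmax : ∀ γ a, ∀ z ∈ ball (C.c a) (2 * C.r a), u γ a z ≤ u γ₀ a₀ z₀) :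
    ∀ γ a, ∀ z ∈ ball (C.c a) (2 * C.r a), u γ a z = u γ₀ a₀ z₀ := by
  have key : ∀ γ a, (∃ z ∈ ball (C.c a) (2 * C.r a), u γ a z = u γ₀ a₀ z₀) →
      ∀ z ∈ ball (C.c a) (2 * C.r a), u γ a z = u γ₀ a₀ z₀ := by
    rintro γ a ⟨z₁, hz₁, h1⟩ z hz
    have h2 := Vale.Agent.P284.H465.V17.eq_of_max (g := u γ a) isOpen_ball (convex_ball _ _)
      (fun y hy => (h.smooth γ a y hy).of_le
        (show ((2 : ℕ∞) : WithTop ℕ∞) ≤ ((⊤ : ℕ∞) : WithTop ℕ∞) from WithTop.coe_le_coe.2 le_top))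
      (h.hess γ a) hz₁ (fun y hy => by rw [h1]; exact hmax γ a y hy) z hz
    rw [h2, h1]
  have hV : ∀ γ a, ∀ z ∈ ball (C.c a) (2 * C.r a), u γ a z = u γ₀ a₀ z₀ := by
    intro γ a
    refine v12Stmt n Γ C (fun γ a => ∀ z ∈ ball (C.c a) (2 * C.r a), u γ a z = u γ₀ a₀ z₀) ?_
      γ₀ a₀ γ a (key γ₀ a₀ ⟨z₀, hz₀, rfl⟩)
    intro γ a b z hO hz hT hQ
    refine key _ b ⟨C.T a b z, hT, ?_⟩
    rw [← h.compat γ a b z hO hz hT]
    exact hQ z hz
  exact hV

/-- translation by an element of the group -/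
theorem shift (h : PHF C u B) (g : Γ) : PHF C (fun γ a z => u (g * γ) a z) B where
  smooth := fun γ a z hz => h.smooth (g * γ) a z hz
  hess := fun γ a z hz => h.hess (g * γ) a z hz
  compat := fun γ a b z h1 h2 h3 => by rw [h.compat (g * γ) a b z h1 h2 h3, mul_assoc]
  grad := fun γ a z hz => h.grad (g * γ) a z hz

/-- a function invariant under a subgroup of finite index is constant -/
theorem const_of_fi (h : PHF C u B) (H : Subgroup Γ) [H.FiniteIndex]
    (hinv : ∀ g ∈ H, ∀ γ a, ∀ z ∈ ball (C.c a) (2 * C.r a), u (g * γ) a z = u γ a z) :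
    ∃ c : ℝ, ∀ γ a, ∀ z ∈ ball (C.c a) (2 * C.r a), u γ a z = c := by
  classical
  have hr := C.r_pos
  have : Finite (Γ ⧸ H) := Subgroup.finite_quotient_of_finiteIndex
  have hcb : ∀ a, closedBall (C.c a) (C.r a) ⊆ ball (C.c a) (2 * C.r a) := fun a =>
    closedBall_subset_ball (by linarith [hr a])
  have hex : ∀ q : (Γ ⧸ H) × C.I, ∃ z ∈ closedBall (C.c q.2) (C.r q.2),
      ∀ y ∈ closedBall (C.c q.2) (C.r q.2), u q.1.out⁻¹ q.2 y ≤ u q.1.out⁻¹ q.2 z := by
    intro q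
    obtain ⟨z, hz, hz2⟩ := (isCompact_closedBall (C.c q.2) (C.r q.2)).exists_isMaxOn
      ⟨C.c q.2, mem_closedBall_self (hr q.2).le⟩ (f := u q.1.out⁻¹ q.2)
      (fun y hy => (h.smooth _ _ y (hcb _ hy)).continuousAt.continuousWithinAt)
    exact ⟨z, hz, hz2⟩
  choose zz hzz hzz2 using hex
  have : Nonempty ((Γ ⧸ H) × C.I) := inferInstance
  obtain ⟨q₀, hq₀⟩ := Finite.exists_max fun q : (Γ ⧸ H) × C.I => u q.1.out⁻¹ q.2 (zz q)
  have hmax : ∀ γ a, ∀ z ∈ ball (C.c a) (2 * C.r a), u γ a z ≤ u q₀.1.out⁻¹ q₀.2 (zz q₀) := by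
    intro γ a z hz
    obtain ⟨b, hb, hw, he⟩ := h.reach γ a z hz
    set γ' := γ * C.κ a b z with hγ'
    set s : Γ := (QuotientGroup.mk (s := H) γ'⁻¹).out with hs
    have h1 : γ' * s ∈ H := by
      have h2 : (QuotientGroup.mk (s := H) s) = QuotientGroup.mk γ'⁻¹ := by
        rw [hs]; exact Quotient.out_eq' _
      have h3 := QuotientGroup.eq.1 h2
      have h4 := H.inv_mem h3
      simpa using h4
    have h5 : u γ' b (C.T a b z) = u s⁻¹ b (C.T a b z) := by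
      rw [← hinv _ h1 s⁻¹ b _ (hcb b (ball_subset_closedBall hw)), mul_inv_cancel_right]
    rw [he, h5]
    exact (hzz2 (QuotientGroup.mk γ'⁻¹, b) _ (ball_subset_closedBall hw)).trans
      (hq₀ (QuotientGroup.mk γ'⁻¹, b))
  exact ⟨_, h.const_of_max _ _ _ (hcb _ (hzz q₀)) hmax⟩

/-- a function with finitely many translates is constant -/
theorem const_of_finite_orbit (h : PHF C u B) (s : Set (Γ → C.I → Cm n → ℝ)) (hs : s.Finite)
    (hmem : ∀ g, ∃ v ∈ s, ∀ γ a, ∀ z ∈ ball (C.c a) (2 * C.r a), u (g * γ) a z = v γ a z) :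
    ∃ c : ℝ, ∀ γ a, ∀ z ∈ ball (C.c a) (2 * C.r a), u γ a z = c := by
  classical
  let H : Subgroup Γ :=
    { carrier := {g | ∀ γ a, ∀ z ∈ ball (C.c a) (2 * C.r a), u (g * γ) a z = u γ a z}
      one_mem' := fun γ a z _ => by rw [one_mul]
      mul_mem' := fun {g g'} hg hg' γ a z hz => by
        rw [mul_assoc, hg _ a z hz, hg' _ a z hz]
      inv_mem' := fun {g} hg γ a z hz => by
        have := hg (g⁻¹ * γ) a z hz
        rw [mul_inv_cancel_left] at this
        exact this.symm }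
  have hH : ∀ g, g ∈ H ↔ ∀ γ a, ∀ z ∈ ball (C.c a) (2 * C.r a), u (g * γ) a z = u γ a z :=
    fun _ => Iff.rfl
  choose f hf1 hf2 using hmem
  have : Finite s := hs
  -- right cosets: `g⁻¹ ↦ f g` is injective on the quotient
  have hfi : H.FiniteIndex := by
    have : Finite (Γ ⧸ H) := by
      refine Finite.of_injective
        (fun q : Γ ⧸ H => (⟨f q.out⁻¹, hf1 _⟩ : s)) ?_
      intro q q' hqq
      have h1 : f q.out⁻¹ = f q'.out⁻¹ := congrArg Subtype.val hqq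
      rw [← q.out_eq', ← q'.out_eq']
      refine QuotientGroup.eq.2 ?_
      rw [hH]
      intro γ a z hz
      have h2 := hf2 q.out⁻¹ (q'.out * γ) a z hz
      have h3 := hf2 q'.out⁻¹ (q'.out * γ) a z hz
      rw [inv_mul_cancel_left] at h3
      rw [mul_assoc, h2, h1, ← h3]
    exact Subgroup.finiteIndex_of_finite_quotient
  exact h.const_of_fi H fun g hg => (hH g).1 hg

theorem comb (h : PHF C u B) (h' : PHF C v B') (s t : ℝ) :
    PHF C (fun γ a z => s * u γ a z + t * v γ a z) (|s| * B + |t| * B') where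
  smooth := fun γ a z hz =>
    (contDiffAt_const.mul (h.smooth γ a z hz)).add (contDiffAt_const.mul (h'.smooth γ a z hz))
  hess := fun γ a z hz => by
    ext j k
    have h1 := Vale.Agent.P284.H287.V.cHess_comb Finset.univ (![s, t] : Fin 2 → ℝ)
      (![u γ a, v γ a] : Fin 2 → Cm n → ℝ) z (by
        intro i _
        fin_cases i
        · exact h.smooth γ a z hz
        · exact h'.smooth γ a z hz) j k
    simp only [Fin.sum_univ_two, Matrix.cons_val_zero, Matrix.cons_val_one] at h1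
    rw [h1, h.hess γ a z hz, h'.hess γ a z hz]
    simp
  compat := fun γ a b z h1 h2 h3 => by
    rw [h.compat γ a b z h1 h2 h3, h'.compat γ a b z h1 h2 h3]
  grad := fun γ a z hz => by
    have d1 : DifferentiableAt ℝ (u γ a) z := (h.smooth γ a z hz).differentiableAt (by simp)
    have d2 : DifferentiableAt ℝ (v γ a) z := (h'.smooth γ a z hz).differentiableAt (by simp)
    rw [fderiv_fun_add (d1.const_mul s) (d2.const_mul t), fderiv_const_mul d1,
      fderiv_const_mul d2]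
    refine (norm_add_le _ _).trans (add_le_add ?_ ?_)
    · rw [norm_smul, Real.norm_eq_abs]
      exact mul_le_mul_of_nonneg_left (h.grad γ a z hz) (abs_nonneg _)
    · rw [norm_smul, Real.norm_eq_abs]
      exact mul_le_mul_of_nonneg_left (h'.grad γ a z hz) (abs_nonneg _)

theorem congr (h : PHF C u B)
    (he : ∀ γ a, ∀ z ∈ ball (C.c a) (2 * C.r a), v γ a z = u γ a z) : PHF C v B := by
  have hev : ∀ γ a, ∀ z ∈ ball (C.c a) (2 * C.r a), v γ a =ᶠ[𝓝 z] u γ a := fun γ a z hz => by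
    filter_upwards [isOpen_ball.mem_nhds hz] with y hy using he γ a y hy
  refine ⟨fun γ a z hz => (h.smooth γ a z hz).congr_of_eventuallyEq (hev γ a z hz), ?_, ?_, ?_⟩
  · intro γ a z hz
    rw [cHess_congr (hev γ a z hz)]
    exact h.hess γ a z hz
  · intro γ a b z h1 h2 h3
    rw [he γ a z h2, he _ b _ h3]
    exact h.compat γ a b z h1 h2 h3
  · intro γ a z hz
    rw [(hev γ a z hz).fderiv_eq]
    exact h.grad γ a z hz

theorem mono (h : PHF C u B) (hB : B ≤ B') : PHF C u B' :=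
  ⟨h.smooth, h.hess, h.compat, fun γ a z hz => (h.grad γ a z hz).trans hB⟩

end PHF

theorem phf_zero (C : Coc n Γ) : PHF C (fun _ _ _ => 0) 0 where
  smooth := fun _ _ _ _ => contDiffAt_const
  hess := fun _ _ z _ => Vale.Agent.P284.H287.V.cHess_zero z
  compat := fun _ _ _ _ _ _ _ => rfl
  grad := fun _ _ z _ => by simp

theorem phf_const (C : Coc n Γ) (c : ℝ) : PHF C (fun _ _ _ => c) 0 where
  smooth := fun _ _ _ _ => contDiffAt_const
  hess := fun _ _ z _ => by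
    ext j k
    rw [cHess_apply]
    have : (dzb k fun _ : Cm n => ((c : ℝ) : ℂ)) = fun _ => 0 := by
      funext y; exact dzb_const _
    rw [this, dz_const]; rfl
  compat := fun _ _ _ _ _ _ _ => rfl
  grad := fun _ _ z _ => by simp

/-- the space of pluriharmonic functions with bounded gradient (extended by `0` outside the balls of
radius `2 r`) -/
def PHBc (C : Coc n Γ) : Submodule ℝ (Γ → C.I → Cm n → ℝ) where
  carrier := {u | (∃ B, PHF C u B) ∧ ∀ γ a z, z ∉ ball (C.c a) (2 * C.r a) → u γ a z = 0}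
  add_mem' := by
    rintro u v ⟨⟨B, hu⟩, hu0⟩ ⟨⟨B', hv⟩, hv0⟩
    refine ⟨⟨_, (hu.comb hv 1 1).congr fun γ a z _ => by simp⟩, fun γ a z hz => ?_⟩
    simp [hu0 γ a z hz, hv0 γ a z hz]
  zero_mem' := ⟨⟨0, phf_zero C⟩, fun _ _ _ _ => rfl⟩
  smul_mem' := by
    rintro s u ⟨⟨B, hu⟩, hu0⟩
    refine ⟨⟨_, (hu.comb hu s 0).congr fun γ a z _ => by simp⟩, fun γ a z hz => ?_⟩
    simp [hu0 γ a z hz]

theorem mem_PHBc {C : Coc n Γ} {u : Γ → C.I → Cm n → ℝ} :
    u ∈ PHBc C ↔ (∃ B, PHF C u B) ∧ ∀ γ a z, z ∉ ball (C.c a) (2 * C.r a) → u γ a z = 0 :=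
  Iff.rfl

open Classical in
/-- extension by `0` -/
def cut (C : Coc n Γ) (u : Γ → C.I → Cm n → ℝ) (γ : Γ) (a : C.I) (z : Cm n) : ℝ :=
  if z ∈ ball (C.c a) (2 * C.r a) then u γ a z else 0

theorem cut_eq {C : Coc n Γ} {u : Γ → C.I → Cm n → ℝ} {γ : Γ} {a : C.I} {z : Cm n}
    (hz : z ∈ ball (C.c a) (2 * C.r a)) : cut C u γ a z = u γ a z := if_pos hz

theorem PHF.cut_mem {C : Coc n Γ} {u : Γ → C.I → Cm n → ℝ} {B : ℝ} (h : PHF C u B) :
    cut C u ∈ PHBc C :=
  ⟨⟨B, h.congr fun _ _ _ hz => cut_eq hz⟩, fun _ _ _ hz => if_neg hz⟩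

/-- the representation of the group -/
def rep (C : Coc n Γ) : Γ →* (PHBc C →ₗ[ℝ] PHBc C) where
  toFun := fun g =>
    { toFun := fun u => ⟨fun γ a z => (u : Γ → C.I → Cm n → ℝ) (g⁻¹ * γ) a z, by
        obtain ⟨⟨B, hB⟩, h0⟩ := u.2
        exact ⟨⟨B, hB.shift g⁻¹⟩, fun γ a z hz => h0 _ a z hz⟩⟩
      map_add' := fun u v => rfl
      map_smul' := fun s u => rfl }
  map_one' := by
    ext u γ a z
    simp
  map_mul' := fun g g' => by
    ext u γ a z
    simp [mul_assoc]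

theorem rep_apply (C : Coc n Γ) (g : Γ) (u : PHBc C) (γ : Γ) (a : C.I) (z : Cm n) :
    (rep C g u : Γ → C.I → Cm n → ℝ) γ a z = (u : Γ → C.I → Cm n → ℝ) (g⁻¹ * γ) a z := rfl

/-- infinite image -/
theorem const_of_finite_range (C : Coc n Γ) (hfin : (Set.range (rep C)).Finite) (u : PHBc C) :
    ∃ c : ℝ, ∀ γ a, ∀ z ∈ ball (C.c a) (2 * C.r a), (u : Γ → C.I → Cm n → ℝ) γ a z = c := by
  obtain ⟨⟨B, hB⟩, h0⟩ := u.2
  refine hB.const_of_finite_orbit
    ((fun T : PHBc C →ₗ[ℝ] PHBc C => (T u : Γ → C.I → Cm n → ℝ)) '' Set.range (rep C))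
    (hfin.image _) fun g => ⟨_, ⟨_, ⟨g⁻¹, rfl⟩, rfl⟩, fun γ a z hz => ?_⟩
  show _ = (rep C g⁻¹ u : Γ → C.I → Cm n → ℝ) γ a z
  rw [rep_apply, inv_inv]

/-- the group of a `Coc` is finitely generated -/
theorem coc_fg (C : Coc n Γ) : Group.FG Γ := by
  classical
  obtain ⟨a₀⟩ := C.ne
  refine ⟨⟨C.N, ?_⟩⟩
  rw [eq_top_iff]
  intro g _
  refine C.conn (fun γ _ => γ ∈ Subgroup.closure (C.N : Set Γ)) ?_ 1 a₀ g a₀ (Subgroup.one_mem _)
  intro γ a b z h1 h2 h3 h4
  exact Subgroup.mul_mem _ h4 (Subgroup.subset_closure (C.κ_mem a b z h1 h2 h3))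

/-- assembly: amenable, infinite, and the space of pluriharmonic functions with bounded gradient is
finite dimensional; then the group is virtually indicable -/
theorem virtIndicable_of_finDim (hE : ExConcl) (h14 : V14Concl) (h18 : V18Stmt)
    (C : Coc n Γ) (K : KM C) [Infinite Γ] (hF : Folner Γ) (hV : FiniteDimensional ℝ (PHBc C)) :
    VirtIndicable Γ := by
  obtain ⟨P⟩ := exists_PU C
  obtain ⟨u, B, hu⟩ := h14 n Γ C P K (hE n Γ C P K hF)
  refine h18 Γ (coc_fg C) hF (PHBc C) (rep C) ?_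
  intro hfin
  obtain ⟨c, hc⟩ := const_of_finite_range C hfin ⟨cut C u, hu.phf.cut_mem⟩
  obtain ⟨γ, a, z, hz, hne⟩ := hu.nonconst
  apply hne
  have h1 : u γ a =ᶠ[𝓝 z] fun _ => c := by
    filter_upwards [isOpen_ball.mem_nhds hz] with y hy
    rw [← hc γ a y hy]
    exact (cut_eq hy).symm
  rw [h1.fderiv_eq]
  simp

end Vale.Agent.P284.H35.W
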