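import Vale.Agent.P284.H35.S4bAbs
import Vale.Agent.P284.H894.W.Spec2
import Vale.Agent.P284.H446.Sheets
import Vale.Agent.P284.H446.CocSub

/-!
# P284, theorem W, S4b: boxes
-/

open scoped Manifold ContDiff Topology Pointwise ComplexConjugate ComplexOrder
open Filter Set Metric MeasureTheory

noncomputable section

namespace Vale.Agent.P284.H35.S4

open Vale.Agent.P272.K Vale.Agent.P284.H248 Vale.Agent.P284.H894 Vale.Agent.P284.H678
  Vale.Agent.P284.H894.G Vale.Agent.P284.H894.V Vale.Agent.P284.H639 Vale.Agent.P284.H639.V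
  Vale.Agent.P284.H446.V Vale.Agent.P284.H894.W

/-- local product structure -/
theorem box_local {n N : ℕ} {f : Cm n → Cm N} {z : Cm n} (hf : ContDiffAt ℂ ω f z)
    (hs : Function.Surjective (fderiv ℂ f z)) (O : Set (Cm n)) (hO : O ∈ 𝓝 z) :
    ∃ W, IsOpen W ∧ z ∈ W ∧ W ⊆ O ∧ ∀ v, IsPreconnected (W ∩ f ⁻¹' {v}) := by
  have hst : HasStrictFDerivAt f (fderiv ℂ f z) z := hf.hasStrictFDerivAt (by simp)
  have hr : (fderiv ℂ f z).range = ⊤ := LinearMap.range_eq_top.2 hs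
  set e := hst.implicitToOpenPartialHomeomorph f _ hr with he
  have hz : z ∈ e.source := hst.mem_implicitToOpenPartialHomeomorph_source hr
  have h1 : e.target ∩ e.symm ⁻¹' O ∈ 𝓝 (e z) := by
    refine inter_mem (e.open_target.mem_nhds (e.map_source hz)) ?_
    refine (e.symm.continuousAt (e.map_source hz)).preimage_mem_nhds ?_
    rwa [e.left_inv hz]
  obtain ⟨ε, hε, hb⟩ := Metric.mem_nhds_iff.1 h1
  refine ⟨e.source ∩ e ⁻¹' ball (e z) ε, e.isOpen_inter_preimage isOpen_ball,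
    ⟨hz, mem_ball_self hε⟩, ?_, ?_⟩
  · rintro x ⟨hx1, hx2⟩
    have := (hb hx2).2
    rwa [mem_preimage, e.left_inv hx1] at this
  · intro v
    have h2 : (e.source ∩ e ⁻¹' ball (e z) ε) ∩ f ⁻¹' {v} =
        e.symm '' (ball (e z) ε ∩ ({v} ×ˢ univ)) := by
      ext x
      constructor
      · rintro ⟨⟨hx1, hx2⟩, hx3⟩
        refine ⟨e x, ⟨hx2, ?_, mem_univ _⟩, e.left_inv hx1⟩
        exact hx3
      · rintro ⟨y, ⟨hy1, hy2, -⟩, rfl⟩
        have hyt := (hb hy1).1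
        refine ⟨⟨e.map_target hyt, ?_⟩, ?_⟩
        · rw [mem_preimage, e.right_inv hyt]; exact hy1
        · have h3 : (e (e.symm y)).1 = f (e.symm y) := rfl
          rw [e.right_inv hyt] at h3
          show f (e.symm y) = v
          rw [← h3]
          exact hy2
    rw [h2]
    refine IsPreconnected.image ?_ _ (e.continuousOn_symm.mono fun y hy => (hb hy.1).1)
    exact ((convex_ball (e z) ε).inter ((convex_singleton v).prod convex_univ)).isPreconnected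

section
variable {n : ℕ} {X : Type} [TopologicalSpace X] [ChartedSpace (Cm n) X]
  {E : Type} [TopologicalSpace E] {p : E → X}

/-- the chart of the covering space at a point -/
theorem exists_chart (hp : IsCoveringMap p) (y : E) : ∃ φ : OpenPartialHomeomorph E (Cm n),
    y ∈ φ.source ∧ ∀ y' ∈ φ.source, φ y' = chartAt (Cm n) (p y) (p y') := by
  obtain ⟨q, hq1, hq2⟩ := hp.isLocalHomeomorph y
  refine ⟨q.trans (chartAt (Cm n) (p y)), ?_, fun y' _ => ?_⟩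
  · rw [OpenPartialHomeomorph.trans_source]
    refine ⟨hq1, ?_⟩
    rw [mem_preimage, ← hq2]
    exact mem_chart_source _ _
  · rw [OpenPartialHomeomorph.coe_trans, Function.comp_apply, ← hq2]

/-- local compactness -/
theorem exists_cpt (n : ℕ) [ChartedSpace (Cm n) X] (hp : IsCoveringMap p) (y : E) (O : Set E)
    (hO : O ∈ 𝓝 y) : ∃ A, IsCompact A ∧ A ∈ 𝓝 y ∧ A ⊆ O := by
  obtain ⟨φ, hy, -⟩ := exists_chart (n := n) hp y
  have h1 : φ.target ∩ φ.symm ⁻¹' O ∈ 𝓝 (φ y) := by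
    refine inter_mem (φ.open_target.mem_nhds (φ.map_source hy)) ?_
    refine (φ.symm.continuousAt (φ.map_source hy)).preimage_mem_nhds ?_
    rwa [φ.left_inv hy]
  obtain ⟨ε, hε, hb⟩ := Metric.nhds_basis_closedBall.mem_iff.1 h1
  refine ⟨φ.symm '' closedBall (φ y) ε, (isCompact_closedBall _ _).image_of_continuousOn
    (φ.continuousOn_symm.mono fun z hz => (hb hz).1), ?_, ?_⟩
  · have h2 : φ.source ∩ φ ⁻¹' ball (φ y) ε ∈ 𝓝 y :=
      (φ.isOpen_inter_preimage isOpen_ball).mem_nhds ⟨hy, mem_ball_self hε⟩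
    refine mem_of_superset h2 fun x hx => ⟨φ x, ball_subset_closedBall hx.2, φ.left_inv hx.1⟩
  · rintro _ ⟨z, hz, rfl⟩
    exact (hb hz).2

theorem t2_of_cov [T2Space X] (hp : IsCoveringMap p) : T2Space E := by
  refine ⟨fun x y hxy => ?_⟩
  by_cases h : p x = p y
  · exact hp.isSeparatedMap x y h hxy
  · obtain ⟨U, V, hU, hV, hx, hy, hd⟩ := t2_separation h
    exact ⟨p ⁻¹' U, p ⁻¹' V, hU.preimage hp.continuous, hV.preimage hp.continuous, hx, hy,
      hd.preimage p⟩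

variable {w : Chart n X → Cm n → Matrix (Fin n) (Fin n) ℂ} {N : ℕ} {F : E → Cm N} {B : ℝ}

/-- the local form of `F` -/
theorem exists_loc (hp : IsCoveringMap p) (hF : HolB p w F B) (y : E) :
    ∃ (φ : OpenPartialHomeomorph E (Cm n)) (f : Cm n → Cm N), y ∈ φ.source ∧
      (∀ᶠ y' in 𝓝 y, F y' = f (φ y')) ∧ ContDiffAt ℂ ω f (φ y) ∧
      (Reg (n := n) p F y → Function.Surjective (fderiv ℂ f (φ y))) := by
  obtain ⟨φ, hy, hφ⟩ := exists_chart (n := n) hp y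
  have hAt : At (chartAt (Cm n) (p y)) (p y) := ⟨chart_mem_atlas _ _, mem_chart_source _ _⟩
  obtain ⟨f, h1, h2, -⟩ := hF y _ hAt
  refine ⟨φ, f, hy, ?_, ?_, fun hreg => ?_⟩
  · filter_upwards [h1, φ.open_source.mem_nhds hy] with y' h3 h4
    rw [h3, hφ y' h4]
  · rw [hφ y hy]
    exact Vale.Agent.P299.H720.contDiffAt_of_eventually h2
  · rw [hφ y hy]
    exact hreg _ f hAt h1

theorem holB_continuous (hp : IsCoveringMap p) (hF : HolB p w F B) : Continuous F := by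
  rw [continuous_iff_continuousAt]
  intro y
  obtain ⟨φ, f, hy, h1, h2, -⟩ := exists_loc hp hF y
  have h3 : ContinuousAt (fun y' => f (φ y')) y :=
    ContinuousAt.comp (g := f) h2.continuousAt (φ.continuousAt hy)
  exact h3.congr (h1.mono fun y' h => h.symm)

/-- boxes in the covering space -/
theorem box_E (hp : IsCoveringMap p) (hF : HolB p w F B) {y : E} (hreg : Reg (n := n) p F y)
    (O : Set E) (hO : O ∈ 𝓝 y) :
    ∃ W, IsOpen W ∧ y ∈ W ∧ W ⊆ O ∧ ∀ v, IsPreconnected (W ∩ F ⁻¹' {v}) := by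
  obtain ⟨φ, f, hy, h1, h2, h3⟩ := exists_loc hp hF y
  have hO1 : φ.target ∩ φ.symm ⁻¹' (O ∩ {y' | F y' = f (φ y')}) ∈ 𝓝 (φ y) := by
    refine inter_mem (φ.open_target.mem_nhds (φ.map_source hy)) ?_
    refine (φ.symm.continuousAt (φ.map_source hy)).preimage_mem_nhds ?_
    rw [φ.left_inv hy]
    exact inter_mem hO h1
  obtain ⟨W₀, hW₀, hyW₀, hWO, hWc⟩ := box_local h2 (h3 hreg) _ hO1
  refine ⟨φ.source ∩ φ ⁻¹' W₀, φ.isOpen_inter_preimage hW₀, ⟨hy, hyW₀⟩, ?_, ?_⟩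
  · rintro x ⟨hx1, hx2⟩
    have := (hWO hx2).2.1
    rwa [φ.left_inv hx1] at this
  · intro v
    have h4 : (φ.source ∩ φ ⁻¹' W₀) ∩ F ⁻¹' {v} = φ.symm '' (W₀ ∩ f ⁻¹' {v}) := by
      ext x
      constructor
      · rintro ⟨⟨hx1, hx2⟩, hx3⟩
        have h5 := (hWO hx2).2.2
        simp only [mem_ofPred_eq, φ.left_inv hx1] at h5
        refine ⟨φ x, ⟨hx2, ?_⟩, φ.left_inv hx1⟩
        show f (φ x) = v
        rw [← h5]
        exact hx3
      · rintro ⟨z, ⟨hz1, hz2⟩, rfl⟩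
        have hzt := (hWO hz1).1
        have h5 := (hWO hz1).2.2
        simp only [mem_ofPred_eq, φ.right_inv hzt] at h5
        refine ⟨⟨φ.map_target hzt, ?_⟩, ?_⟩
        · rw [mem_preimage, φ.right_inv hzt]; exact hz1
        · show F (φ.symm z) = v
          rw [h5]
          exact hz2
    rw [h4]
    exact (hWc v).image _ (φ.continuousOn_symm.mono fun z hz => (hWO hz.1).1)

/-- `F` is open at regular points -/
theorem open_E (hp : IsCoveringMap p) (hF : HolB p w F B) {y : E} (hreg : Reg (n := n) p F y)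
    (U : Set E) (hU : U ∈ 𝓝 y) : F '' U ∈ 𝓝 (F y) := by
  obtain ⟨φ, f, hy, h1, h2, h3⟩ := exists_loc hp hF y
  have hst : HasStrictFDerivAt f (fderiv ℂ f (φ y)) (φ y) := h2.hasStrictFDerivAt (by simp)
  have hm : Filter.map F (𝓝 y) = 𝓝 (F y) := by
    rw [Filter.map_congr h1, h1.self_of_nhds]
    have : Filter.map (fun y' => f (φ y')) (𝓝 y) = Filter.map f (Filter.map φ (𝓝 y)) := by
      rw [Filter.map_map]; rfl
    rw [this, φ.map_nhds_eq hy]
    exact hst.map_nhds_eq_of_surj (LinearMap.range_eq_top.2 (h3 hreg))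
  rw [← hm]
  exact Filter.image_mem_map hU

end

section
variable {X : Type} [TopologicalSpace X] {E : Type} [TopologicalSpace E] {p : E → X}
  {Γ : Type} [Group Γ] [MulAction Γ E]

/-- the action is properly discontinuous -/
theorem proper_disc [T2Space X] (hG : IsGalois Γ p) (A : Set E) (hA : IsCompact A) :
    {k : Γ | ∃ x ∈ A, k • x ∈ A}.Finite := by
  by_contra hinf
  set S : Set Γ := {k : Γ | ∃ x ∈ A, k • x ∈ A} with hS
  have hinf' : S.Infinite := hinf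
  have hne : (Filter.cofinite ⊓ 𝓟 S : Filter Γ).NeBot := by
    rw [Filter.inf_principal_neBot_iff]
    intro U hU
    rw [Filter.mem_cofinite] at hU
    by_contra hcon
    rw [not_nonempty_iff_eq_empty] at hcon
    refine hinf' (hU.subset fun x hx hxU => ?_)
    have : x ∈ U ∩ S := ⟨hxU, hx⟩
    rw [hcon] at this
    exact this
  obtain ⟨𝒰, h𝒰⟩ := Ultrafilter.exists_le (Filter.cofinite ⊓ 𝓟 S : Filter Γ)
  have hSU : S ∈ (𝒰 : Filter Γ) := h𝒰 (Filter.mem_inf_of_right (Filter.mem_principal_self S))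
  have hcof : ∀ γ : Γ, {γ}ᶜ ∈ (𝒰 : Filter Γ) := fun γ =>
    h𝒰 (Filter.mem_inf_of_left ((finite_singleton γ).compl_mem_cofinite))
  have hex : ∀ k : Γ, ∃ x : E, k ∈ S → x ∈ A ∧ k • x ∈ A := by
    intro k
    by_cases hk : k ∈ S
    · obtain ⟨x, h1, h2⟩ := hk
      exact ⟨x, fun _ => ⟨h1, h2⟩⟩
    · obtain ⟨x0, hx0, -⟩ : ∃ x0 ∈ A, True := by
        obtain ⟨k, x, hx, -⟩ := hinf'.nonempty
        exact ⟨x, hx, trivial⟩
      exact ⟨x0, fun h => absurd h hk⟩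
  choose x hx using hex
  -- limits
  have hl1 : (𝒰.map x : Filter E) ≤ 𝓟 A := by
    rw [Filter.le_principal_iff]
    exact Filter.mem_map.2 (mem_of_superset hSU fun k hk => (hx k hk).1)
  have hl2 : (𝒰.map fun k => k • x k : Filter E) ≤ 𝓟 A := by
    rw [Filter.le_principal_iff]
    exact Filter.mem_map.2 (mem_of_superset hSU fun k hk => (hx k hk).2)
  obtain ⟨b, -, hb⟩ := hA.ultrafilter_le_nhds (𝒰.map x) hl1
  obtain ⟨a, -, ha⟩ := hA.ultrafilter_le_nhds (𝒰.map fun k => k • x k) hl2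
  have hb' : Tendsto x 𝒰 (𝓝 b) := hb
  have ha' : Tendsto (fun k => k • x k) 𝒰 (𝓝 a) := ha
  have hpp : ∀ (k : Γ) (y : E), p (k • y) = p y := fun k y => ((hG.orb _ _).2 ⟨k, rfl⟩).symm
  have hpab : p b = p a := by
    have h1 : Tendsto (fun k => p (x k)) 𝒰 (𝓝 (p b)) :=
      hG.cov.continuous.continuousAt.tendsto.comp hb'
    have h2 : Tendsto (fun k => p (k • x k)) 𝒰 (𝓝 (p a)) :=
      hG.cov.continuous.continuousAt.tendsto.comp ha'
    simp only [hpp] at h2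
    exact tendsto_nhds_unique h1 h2
  obtain ⟨γ, hγ⟩ := (hG.orb _ _).1 hpab
  have h3 : Tendsto (fun k => γ • x k) 𝒰 (𝓝 a) := by
    rw [← hγ]
    exact (hG.cont γ).continuousAt.tendsto.comp hb'
  -- `p` is injective near `a`
  obtain ⟨q, hq1, hq2⟩ := hG.cov.isLocalHomeomorph a
  have h4 := ha'.eventually (q.open_source.mem_nhds hq1)
  have h5 := h3.eventually (q.open_source.mem_nhds hq1)
  have h6 : ∀ᶠ k in (𝒰 : Filter Γ), k = γ := by
    filter_upwards [h4, h5] with k h7 h8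
    have h9 : k • x k = γ • x k := q.injOn h7 h8 (by
      rw [← hq2, hpp, hpp])
    have h10 : (γ⁻¹ * k) • x k = x k := by
      rw [mul_smul, h9, inv_smul_smul]
    have h11 := hG.free _ _ h10
    exact (inv_mul_eq_one.1 h11).symm
  have h7 : (∅ : Set Γ) ∈ (𝒰 : Filter Γ) := by
    refine mem_of_superset (inter_mem h6 (hcof γ)) ?_
    rintro k ⟨hk1, hk2⟩
    exact absurd hk1 hk2
  exact 𝒰.neBot.ne (Filter.empty_mem_iff_bot.1 h7)

end

/-- **S4b** -/
theorem s4bStmt : S4bStmt := by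
  intro n X _ _ _ _ _ _ w hw E Γ _ _ _ _ p hG G K N F c hAl y₀ hreg
  have hT2 : T2Space E := t2_of_cov hG.cov
  obtain ⟨B, hB⟩ := hAl.hol
  have hFc : Continuous F := holB_continuous hG.cov hB
  have hfi := hAl.fi
  have hadd := alb_add hAl
  have hKF : ∀ k ∈ K, ∀ y, F (k • y) = F y := fun k hk y => by
    obtain ⟨h1, h2⟩ := (hAl.mem k).1 hk
    rw [hAl.equiv k h1, h2, add_zero]
  have h1 : ∀ y, F y = y₀ → ∀ O ∈ 𝓝 y, ∃ W, IsOpen W ∧ y ∈ W ∧ W ⊆ O ∧
      ∀ v, IsPreconnected (W ∩ F ⁻¹' {v}) := fun y hy O hO => box_E hG.cov hB (hreg y hy) O hO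
  have h2 : ∀ y, F y = y₀ → ∀ U ∈ 𝓝 y, F '' U ∈ 𝓝 y₀ := fun y hy U hU => by
    rw [← hy]
    exact open_E hG.cov hB (hreg y hy) U hU
  have h3 := exists_cpt (p := p) n hG.cov
  have h5 := proper_disc (Γ := Γ) hG
  -- cocompactness
  obtain ⟨C, -, -, ⟨S⟩⟩ := exists_sheets n X w hw E Γ p hG
  obtain ⟨Q₀, hQ₀, hcov⟩ : ∃ Q₀ : Set E, IsCompact Q₀ ∧ ∀ y, ∃ g ∈ G, g • y ∈ Q₀ := by
    have hfin : Finite (Γ ⧸ G) := Subgroup.finite_quotient_of_finiteIndex
    refine ⟨⋃ i : (Γ ⧸ G) × C.I, (fun y => rp G i.1 • y) ''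
      (S.σ i.2 '' closedBall (C.c i.2) (2 * C.r i.2)), ?_, fun y => ?_⟩
    · refine isCompact_iUnion fun i => ?_
      refine IsCompact.image ?_ (hG.cont _)
      refine (isCompact_closedBall _ _).image_of_continuousOn ((S.cont i.2).mono ?_)
      exact closedBall_subset_ball (by linarith [C.r_pos i.2])
    · obtain ⟨γ, a, z, hz, hy⟩ := S.cover y
      refine ⟨(hp G γ : Γ)⁻¹, G.inv_mem (hp G γ).2, mem_iUnion.2 ⟨(cl G γ, a), ?_⟩⟩
      refine ⟨S.σ a z, ⟨z, ball_subset_closedBall hz, rfl⟩, ?_⟩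
      show rp G (cl G γ) • S.σ a z = (hp G γ : Γ)⁻¹ • y
      rw [← hy, smul_smul]
      congr 1
      rw [eq_inv_mul_iff_mul_eq, hp_mul_rp]
  have hc1 : c 1 = 0 := by
    have := hadd 1 G.one_mem 1 G.one_mem
    rw [mul_one] at this
    simpa using this
  have hcinv : ∀ g ∈ G, c g⁻¹ = -c g := fun g hg => by
    have := hadd g hg g⁻¹ (G.inv_mem hg)
    rw [mul_inv_cancel, hc1] at this
    exact (neg_eq_of_add_eq_zero_right this.symm).symm
  have h4 : ∃ B ∈ 𝓝 y₀, ∃ Q : Set E, IsCompact Q ∧ ∀ y, F y ∈ B → ∃ k ∈ K, k • y ∈ Q := by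
    obtain ⟨M, hM⟩ := hQ₀.exists_bound_of_continuousOn hFc.continuousOn
    have hfin := hAl.disc (‖y₀‖ + 1 + M)
    set D : Set (Cm N) := {v | (∃ g ∈ G, c g = v) ∧ ‖v‖ ≤ ‖y₀‖ + 1 + M} with hD
    have hch : ∀ v : Cm N, ∃ g : Γ, v ∈ D → g ∈ G ∧ c g = v := by
      intro v
      by_cases hv : v ∈ D
      · obtain ⟨⟨g, hg, hgv⟩, -⟩ := hv
        exact ⟨g, fun _ => ⟨hg, hgv⟩⟩
      · exact ⟨1, fun h => absurd h hv⟩
    choose gg hgg using hch
    refine ⟨ball y₀ 1, ball_mem_nhds _ one_pos, ⋃ v ∈ D, (fun y => gg v • y) '' Q₀,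
      hfin.isCompact_biUnion fun v _ => hQ₀.image (hG.cont _), fun y hy => ?_⟩
    obtain ⟨g, hg, hgy⟩ := hcov y
    -- `y = g⁻¹ q`
    have hF : F (g • y) = F y + c g := hAl.equiv g hg y
    set v : Cm N := c g⁻¹ with hv
    have hvD : v ∈ D := by
      refine ⟨⟨g⁻¹, G.inv_mem hg, rfl⟩, ?_⟩
      have h6 : v = F y - F (g • y) := by rw [hF, hv, hcinv g hg]; abel
      have h7 := hM _ hgy
      have h8 : ‖F y‖ ≤ ‖y₀‖ + 1 := by
        have := mem_ball_iff_norm.1 hy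
        calc ‖F y‖ = ‖y₀ + (F y - y₀)‖ := by congr 1; abel
          _ ≤ ‖y₀‖ + ‖F y - y₀‖ := norm_add_le _ _
          _ ≤ _ := by linarith
      calc ‖v‖ = ‖F y - F (g • y)‖ := by rw [h6]
        _ ≤ ‖F y‖ + ‖F (g • y)‖ := norm_sub_le _ _
        _ ≤ _ := by linarith
    obtain ⟨h6, h7⟩ := hgg v hvD
    refine ⟨gg v * g, (hAl.mem _).2 ⟨G.mul_mem h6 hg, ?_⟩, ?_⟩
    · rw [hadd _ h6 _ hg, h7, hv, hcinv g hg, neg_add_cancel]
    · refine mem_iUnion₂.2 ⟨v, hvD, g • y, hgy, ?_⟩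
      show gg v • g • y = (gg v * g) • y
      rw [mul_smul]
  refine ⟨fun y y' hy hy' => ?_, fun x hx => comp_open h1 hx, ?_⟩
  · by_cases hs : Same F y y'
    · obtain ⟨U, hU, U', hU', h⟩ := fwd hFc h1 h2 hy hs
      exact ⟨U, hU, U', hU', fun x hx x' hx' he => ⟨fun _ => hs, fun _ => h x hx x' hx' he⟩⟩
    · obtain ⟨U, hU, U', hU', h⟩ := bwd hFc hG.cont hKF h1 h3 h4 h5 hy hy'
      exact ⟨U, hU, U', hU', fun x hx x' hx' he => ⟨fun h' => h x hx x' hx' h', fun h' => absurd h' hs⟩⟩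
  · obtain ⟨B, hB, Q, hQ, hQK⟩ := h4
    exact ⟨Q, hQ, fun y hy => hQK y (by rw [hy]; exact mem_of_mem_nhds hB)⟩

end Vale.Agent.P284.H35.S4
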