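import Mathlib

/-!
# P284, S4b: the components of the fibres are locally constant (abstract topological part)
-/

open scoped Topology Pointwise
open Filter Set

noncomputable section

namespace Vale.Agent.P284.H35.S4

variable {E Y : Type*} [TopologicalSpace E]

/-- `y` and `y'` lie in the same component of a fibre -/
def Sm (F : E → Y) (y y' : E) : Prop := y' ∈ connectedComponentIn (F ⁻¹' {F y}) y

variable {F : E → Y}

theorem sm_iff {y y' : E} : Sm F y y' ↔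
    ∃ C : Set E, IsPreconnected C ∧ y ∈ C ∧ y' ∈ C ∧ ∀ x ∈ C, F x = F y := by
  constructor
  · intro h
    refine ⟨connectedComponentIn (F ⁻¹' {F y}) y, isPreconnected_connectedComponentIn,
      mem_connectedComponentIn rfl, h, fun x hx => ?_⟩
    exact (connectedComponentIn_subset (F ⁻¹' {F y}) y hx : x ∈ F ⁻¹' {F y})
  · rintro ⟨C, hC, h1, h2, h3⟩
    exact hC.subset_connectedComponentIn h1 (fun x hx => h3 x hx) h2

theorem Sm.refl (y : E) : Sm F y y := mem_connectedComponentIn rfl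

theorem Sm.eq {y y' : E} (h : Sm F y y') : F y' = F y :=
  (connectedComponentIn_subset (F ⁻¹' {F y}) y h : y' ∈ F ⁻¹' {F y})

theorem Sm.symm {y y' : E} (h : Sm F y y') : Sm F y' y := by
  obtain ⟨C, hC, h1, h2, h3⟩ := sm_iff.1 h
  exact sm_iff.2 ⟨C, hC, h2, h1, fun x hx => by rw [h3 x hx, h3 y' h2]⟩

theorem Sm.trans {y y' y'' : E} (h : Sm F y y') (h' : Sm F y' y'') : Sm F y y'' := by
  obtain ⟨C, hC, h1, h2, h3⟩ := sm_iff.1 h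
  obtain ⟨C', hC', h1', h2', h3'⟩ := sm_iff.1 h'
  refine sm_iff.2 ⟨C ∪ C', hC.union y' h2 h1' hC', Or.inl h1, Or.inr h2', ?_⟩
  rintro x (hx | hx)
  · exact h3 x hx
  · rw [h3' x hx, h3 y' h2]

theorem sm_of {W : Set E} {v : Y} (hW : IsPreconnected (W ∩ F ⁻¹' {v})) {y y' : E} (hy : y ∈ W)
    (hy' : y' ∈ W) (h : F y = v) (h' : F y' = v) : Sm F y y' :=
  sm_iff.2 ⟨_, hW, ⟨hy, h⟩, ⟨hy', h'⟩, fun x hx => by rw [h]; exact hx.2⟩

/-- two points in the same component of the regular fibre: nearby points of one fibre lie in the same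
component -/
theorem fwd [TopologicalSpace Y] (hFc : Continuous F) {y₀ : Y}
    (h1 : ∀ y, F y = y₀ → ∀ O ∈ 𝓝 y, ∃ W, IsOpen W ∧ y ∈ W ∧ W ⊆ O ∧
      ∀ v, IsPreconnected (W ∩ F ⁻¹' {v}))
    (h2 : ∀ y, F y = y₀ → ∀ U ∈ 𝓝 y, F '' U ∈ 𝓝 y₀) {y y' : E} (hy : F y = y₀)
    (hs : Sm F y y') :
    ∃ U ∈ 𝓝 y, ∃ U' ∈ 𝓝 y', ∀ x ∈ U, ∀ x' ∈ U', F x = F x' → Sm F x x' := by
  obtain ⟨C, hC, hyC, hyC', hCF⟩ := sm_iff.1 hs
  have hCF' : ∀ x ∈ C, F x = y₀ := fun x hx => by rw [hCF x hx, hy]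
  refine hC.induction₂' (fun y y' => ∃ U ∈ 𝓝 y, ∃ U' ∈ 𝓝 y', ∀ x ∈ U, ∀ x' ∈ U', F x = F x' →
    Sm F x x') ?_ ?_ hyC hyC'
  · intro x hx
    obtain ⟨W, hW, hxW, -, hWc⟩ := h1 x (hCF' x hx) univ univ_mem
    have : ∀ᶠ z in 𝓝[C] x, z ∈ W := eventually_nhdsWithin_of_eventually_nhds (hW.mem_nhds hxW)
    filter_upwards [this] with z hz
    refine ⟨⟨W, hW.mem_nhds hxW, W, hW.mem_nhds hz, ?_⟩, ⟨W, hW.mem_nhds hz, W, hW.mem_nhds hxW, ?_⟩⟩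
    · intro a ha b hb hab
      exact sm_of (hWc (F a)) ha hb rfl hab.symm
    · intro a ha b hb hab
      exact sm_of (hWc (F a)) ha hb rfl hab.symm
  · rintro a b c ha hb hc ⟨U, hU, U1, hU1, hab⟩ ⟨U2, hU2, U3, hU3, hbc⟩
    have h3 : F '' (U1 ∩ U2) ∈ 𝓝 (F a) := by
      rw [hCF' a ha]
      exact h2 b (hCF' b hb) _ (inter_mem hU1 hU2)
    refine ⟨U ∩ F ⁻¹' (F '' (U1 ∩ U2)), inter_mem hU (hFc.continuousAt h3), U3, hU3, ?_⟩
    rintro x ⟨hx, x1, ⟨hx1, hx2⟩, hx3⟩ x' hx' hxx'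
    exact (hab x hx x1 hx1 hx3.symm).trans (hbc x1 hx2 x' hx' (by rw [hx3, hxx']))

section bwd

variable {Γ : Type*} [Group Γ] [MulAction Γ E]

theorem Sm.smul {K : Subgroup Γ} (hcont : ∀ k : Γ, Continuous fun y : E => k • y)
    (hK : ∀ k ∈ K, ∀ y, F (k • y) = F y) {k : Γ} (hk : k ∈ K) {y y' : E} (h : Sm F y y') :
    Sm F (k • y) (k • y') := by
  obtain ⟨C, hC, h1, h2, h3⟩ := sm_iff.1 h
  refine sm_iff.2 ⟨(fun y => k • y) '' C, hC.image _ (hcont k).continuousOn, ⟨y, h1, rfl⟩,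
    ⟨y', h2, rfl⟩, ?_⟩
  rintro _ ⟨x, hx, rfl⟩
  show F (k • x) = F (k • y)
  rw [hK k hk, hK k hk, h3 x hx]

/-- if two points near the regular fibre lie in the same component of a fibre, so do the points of the
regular fibre nearby -/
theorem bwd [T2Space E] [TopologicalSpace Y] [T2Space Y] {K : Subgroup Γ} (hFc : Continuous F) (hcont : ∀ k : Γ, Continuous fun y : E => k • y)
    (hK : ∀ k ∈ K, ∀ y, F (k • y) = F y) {y₀ : Y}
    (h1 : ∀ y, F y = y₀ → ∀ O ∈ 𝓝 y, ∃ W, IsOpen W ∧ y ∈ W ∧ W ⊆ O ∧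
      ∀ v, IsPreconnected (W ∩ F ⁻¹' {v}))
    (h3 : ∀ y : E, ∀ O ∈ 𝓝 y, ∃ A, IsCompact A ∧ A ∈ 𝓝 y ∧ A ⊆ O)
    (h4 : ∃ B ∈ 𝓝 y₀, ∃ Q : Set E, IsCompact Q ∧ ∀ y, F y ∈ B → ∃ k ∈ K, k • y ∈ Q)
    (h5 : ∀ A : Set E, IsCompact A → {k : Γ | ∃ x ∈ A, k • x ∈ A}.Finite)
    {y y' : E} (hy : F y = y₀) (hy' : F y' = y₀) :
    ∃ U ∈ 𝓝 y, ∃ U' ∈ 𝓝 y', ∀ x ∈ U, ∀ x' ∈ U', Sm F x x' → Sm F y y' := by
  classical
  obtain ⟨B₁, hB₁, Q₁, hQ₁, hQK⟩ := h4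
  set V : Set E := F ⁻¹' {y₀} with hV
  have hVc : IsClosed V := isClosed_singleton.preimage hFc
  -- the compact set
  set Q : Set E := Q₁ ∪ {y, y'} with hQdef
  have hQ : IsCompact Q := hQ₁.union (Set.toFinite _).isCompact
  -- boxes
  have hbox : ∀ q : E, ∃ A W : Set E, F q = y₀ → IsCompact A ∧ A ∈ 𝓝 q ∧ A ⊆ W ∧ IsOpen W ∧
      IsPreconnected (W ∩ V) := by
    intro q
    by_cases hq : F q = y₀
    · obtain ⟨W, hW, hqW, -, hWc⟩ := h1 q hq univ univ_mem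
      obtain ⟨A, hA1, hA2, hA3⟩ := h3 q W (hW.mem_nhds hqW)
      exact ⟨A, W, fun _ => ⟨hA1, hA2, hA3, hW, hWc y₀⟩⟩
    · exact ⟨∅, ∅, fun h => absurd h hq⟩
  choose A W hAW using hbox
  have hQV : IsCompact (Q ∩ V) := hQ.inter_right hVc
  obtain ⟨t, ht, htc⟩ := hQV.elim_nhds_subcover (fun q => interior (A q)) fun q hq =>
    interior_mem_nhds.2 (hAW q hq.2).2.1
  have htV : ∀ q ∈ t, F q = y₀ := fun q hq => (ht q hq).2
  -- the union of the compact sets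
  set AA : Set E := ⋃ q ∈ t, A q with hAA
  have hAAc : IsCompact AA := t.isCompact_biUnion fun q hq => (hAW q (htV q hq)).1
  have hfin := h5 AA hAAc
  -- step 1
  set B₂ : Set Y := B₁ ∩ (F '' (Q \ ⋃ q ∈ t, interior (A q)))ᶜ with hB₂
  have hB₂n : B₂ ∈ 𝓝 y₀ := by
    refine inter_mem hB₁ ?_
    have hc : IsCompact (Q \ ⋃ q ∈ t, interior (A q)) :=
      hQ.diff (isOpen_biUnion fun q _ => isOpen_interior)
    refine (hc.image hFc).isClosed.isOpen_compl.mem_nhds ?_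
    rintro ⟨x, ⟨hx1, hx2⟩, hx3⟩
    exact hx2 (htc ⟨hx1, hx3⟩)
  have hstep1 : ∀ x, F x ∈ B₂ → ∃ k ∈ K, ∃ q ∈ t, k • x ∈ interior (A q) := by
    rintro x ⟨hx1, hx2⟩
    obtain ⟨k, hk, hkx⟩ := hQK x hx1
    refine ⟨k, hk, ?_⟩
    by_contra hcon
    push Not at hcon
    refine hx2 ⟨k • x, ⟨Or.inl hkx, fun h => ?_⟩, hK k hk x⟩
    obtain ⟨q, hq, hq2⟩ := mem_iUnion₂.1 h
    exact hcon q hq hq2
  -- step 2
  set D : E × E × Γ → Set E := fun j => A j.1 ∩ (fun x => j.2.2⁻¹ • x) ⁻¹' A j.2.1 with hD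
  set J : Set (E × E × Γ) := {j | j.1 ∈ t ∧ j.2.1 ∈ t ∧ j.2.2 ∈ {k : Γ | ∃ x ∈ AA, k • x ∈ AA}} with hJ
  have hJf : J.Finite := by
    have : J ⊆ (t : Set E) ×ˢ ((t : Set E) ×ˢ {k : Γ | ∃ x ∈ AA, k • x ∈ AA}) := by
      rintro ⟨a, b, k⟩ ⟨h1, h2, h3⟩
      exact ⟨h1, h2, h3⟩
    exact (t.finite_toSet.prod (t.finite_toSet.prod hfin)).subset this
  have hDc : ∀ j ∈ J, IsCompact (D j) := by
    rintro ⟨a, b, k⟩ ⟨h1, h2, h3⟩
    refine ((hAW a (htV a h1)).1).inter_right ?_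
    exact ((hAW b (htV b h2)).1.isClosed).preimage (hcont _)
  set B₃ : Set Y := ⋂ j ∈ J, {v | (D j ∩ V).Nonempty ∨ v ∉ F '' D j} with hB₃
  have hB₃n : B₃ ∈ 𝓝 y₀ := by
    refine (biInter_mem hJf).2 fun j hj => ?_
    by_cases hne : (D j ∩ V).Nonempty
    · exact Filter.mem_of_superset univ_mem fun v _ => Or.inl hne
    · refine Filter.mem_of_superset (((hDc j hj).image hFc).isClosed.isOpen_compl.mem_nhds ?_)
        fun v hv => Or.inr hv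
      rintro ⟨x, hx1, hx2⟩
      exact hne ⟨x, hx1, hx2⟩
  -- the link
  have hlink : ∀ x, F x ∈ B₃ → ∀ k ∈ K, ∀ k' ∈ K, ∀ q ∈ t, ∀ q' ∈ t, k • x ∈ A q → k' • x ∈ A q' →
      Sm F (k⁻¹ • q) (k'⁻¹ • q') := by
    intro x hx k hk k' hk' q hq q' hq' h6 h7
    have hjJ : ((q, q', k * k'⁻¹) : E × E × Γ) ∈ J := by
      refine ⟨hq, hq', k' • x, mem_iUnion₂.2 ⟨q', hq', h7⟩, ?_⟩
      rw [smul_smul, inv_mul_cancel_right]
      exact mem_iUnion₂.2 ⟨q, hq, h6⟩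
    have h8 := mem_iInter₂.1 hx _ hjJ
    have h9 : (D (q, q', k * k'⁻¹) ∩ V).Nonempty := by
      rcases h8 with h8 | h8
      · exact h8
      · refine absurd ⟨k • x, ⟨h6, ?_⟩, hK k hk x⟩ h8
        show (k * k'⁻¹)⁻¹ • k • x ∈ A q'
        rw [smul_smul, mul_inv_rev, inv_inv, inv_mul_cancel_right]
        exact h7
    obtain ⟨y₁, ⟨h10, h11⟩, h12⟩ := h9
    have h11' : (k * k'⁻¹)⁻¹ • y₁ ∈ A q' := h11
    have hkk : (k * k'⁻¹)⁻¹ ∈ K := K.inv_mem (K.mul_mem hk (K.inv_mem hk'))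
    have e1 : Sm F q y₁ := sm_of (hAW q (htV q hq)).2.2.2.2
      ((hAW q (htV q hq)).2.2.1 (mem_of_mem_nhds (hAW q (htV q hq)).2.1))
      ((hAW q (htV q hq)).2.2.1 h10) (htV q hq) h12
    have e2 : Sm F ((k * k'⁻¹)⁻¹ • y₁) q' := sm_of (hAW q' (htV q' hq')).2.2.2.2
      ((hAW q' (htV q' hq')).2.2.1 h11')
      ((hAW q' (htV q' hq')).2.2.1 (mem_of_mem_nhds (hAW q' (htV q' hq')).2.1))
      (by rw [hK _ hkk]; exact h12) (htV q' hq')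
    have e3 := e1.smul hcont hK (K.inv_mem hk)
    have e4 := e2.smul hcont hK (K.inv_mem hk')
    rw [smul_smul, mul_inv_rev, inv_inv, inv_mul_cancel_left] at e4
    exact e3.trans e4
  -- the boxes of `y` and `y'`
  have hyt : ∃ q ∈ t, y ∈ interior (A q) := by
    obtain ⟨q, hq, h⟩ := mem_iUnion₂.1 (htc ⟨Or.inr (Or.inl rfl), hy⟩)
    exact ⟨q, hq, h⟩
  have hyt' : ∃ q ∈ t, y' ∈ interior (A q) := by
    obtain ⟨q, hq, h⟩ := mem_iUnion₂.1 (htc ⟨Or.inr (Or.inr rfl), hy'⟩)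
    exact ⟨q, hq, h⟩
  obtain ⟨q, hq, hyq⟩ := hyt
  obtain ⟨q', hq', hyq'⟩ := hyt'
  have eq1 : Sm F y q := sm_of (hAW q (htV q hq)).2.2.2.2
      ((hAW q (htV q hq)).2.2.1 (interior_subset hyq))
      ((hAW q (htV q hq)).2.2.1 (mem_of_mem_nhds (hAW q (htV q hq)).2.1)) hy (htV q hq)
  have eq2 : Sm F q' y' := sm_of (hAW q' (htV q' hq')).2.2.2.2
      ((hAW q' (htV q' hq')).2.2.1 (mem_of_mem_nhds (hAW q' (htV q' hq')).2.1))
      ((hAW q' (htV q' hq')).2.2.1 (interior_subset hyq')) (htV q' hq') hy'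
  refine ⟨interior (A q) ∩ F ⁻¹' (B₂ ∩ B₃), inter_mem (isOpen_interior.mem_nhds hyq)
    (hFc.continuousAt (by rw [hy]; exact inter_mem hB₂n hB₃n)), interior (A q'),
    isOpen_interior.mem_nhds hyq', ?_⟩
  rintro x ⟨hx1, hx2, hx3⟩ x' hx' hxx'
  obtain ⟨C, hC, hxC, hxC', hCF⟩ := sm_iff.1 hxx'
  -- the class is constant on `C`
  have key : ∃ k ∈ K, ∃ q₁ ∈ t, k • x' ∈ A q₁ ∧ Sm F q (k⁻¹ • q₁) := by
    have := hC.induction₂' (fun a b => ∀ k ∈ K, ∀ q₁ ∈ t, k • a ∈ A q₁ → Sm F q (k⁻¹ • q₁) →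
      ∃ k' ∈ K, ∃ q₂ ∈ t, k' • b ∈ A q₂ ∧ Sm F q (k'⁻¹ • q₂)) ?_ ?_ hxC hxC'
    · exact this 1 K.one_mem q hq (by rw [one_smul]; exact interior_subset hx1)
        (by rw [inv_one, one_smul]; exact Sm.refl q)
    · intro a ha
      have hFa : F a ∈ B₂ := by rw [hCF a ha]; exact hx2
      have hFa3 : F a ∈ B₃ := by rw [hCF a ha]; exact hx3
      obtain ⟨k₀, hk₀, q₀, hq₀, h6⟩ := hstep1 a hFa
      have h7 : ∀ᶠ b in 𝓝[C] a, k₀ • b ∈ interior (A q₀) :=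
        eventually_nhdsWithin_of_eventually_nhds
          ((hcont k₀).continuousAt.eventually (isOpen_interior.mem_nhds h6))
      filter_upwards [h7, self_mem_nhdsWithin] with b hb hbC
      have hFb3 : F b ∈ B₃ := by rw [hCF b hbC]; exact hx3
      refine ⟨fun k hk q₁ hq₁ h8 h9 => ⟨k₀, hk₀, q₀, hq₀, interior_subset hb, ?_⟩,
        fun k hk q₁ hq₁ h8 h9 => ⟨k₀, hk₀, q₀, hq₀, interior_subset h6, ?_⟩⟩
      · exact h9.trans (hlink a hFa3 k hk k₀ hk₀ q₁ hq₁ q₀ hq₀ h8 (interior_subset h6))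
      · exact h9.trans (hlink b hFb3 k hk k₀ hk₀ q₁ hq₁ q₀ hq₀ h8 (interior_subset hb))
    · intro a b c ha hb hc hab hbc k hk q₁ hq₁ h8 h9
      obtain ⟨k', hk', q₂, hq₂, h10, h11⟩ := hab k hk q₁ hq₁ h8 h9
      exact hbc k' hk' q₂ hq₂ h10 h11
  obtain ⟨k, hk, q₁, hq₁, h6, h7⟩ := key
  have h8 : F x' ∈ B₃ := by rw [hCF x' hxC']; exact hx3
  have h9 := hlink x' h8 k hk 1 K.one_mem q₁ hq₁ q' hq' h6
    (by rw [one_smul]; exact interior_subset hx')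
  rw [inv_one, one_smul] at h9
  exact ((eq1.trans h7).trans h9).trans eq2

end bwd

/-- the components of the regular fibre are relatively open -/
theorem comp_open {y₀ : Y} (h1 : ∀ y, F y = y₀ → ∀ O ∈ 𝓝 y, ∃ W, IsOpen W ∧ y ∈ W ∧ W ⊆ O ∧
      ∀ v, IsPreconnected (W ∩ F ⁻¹' {v})) {x : E} (hx : F x = y₀) :
    ∃ O : Set E, IsOpen O ∧ connectedComponentIn (F ⁻¹' {F x}) x = F ⁻¹' {F x} ∩ O := by
  have hbox : ∀ y : E, ∃ W : Set E, F y = y₀ → IsOpen W ∧ y ∈ W ∧ IsPreconnected (W ∩ F ⁻¹' {y₀}) := by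
    intro y
    by_cases hy : F y = y₀
    · obtain ⟨W, hW, hyW, -, hWc⟩ := h1 y hy univ univ_mem
      exact ⟨W, fun _ => ⟨hW, hyW, hWc y₀⟩⟩
    · exact ⟨∅, fun h => absurd h hy⟩
  choose W hW using hbox
  have hCF : ∀ y ∈ connectedComponentIn (F ⁻¹' {F x}) x, F y = y₀ := fun y hy => by
    have : F y = F x := Sm.eq hy
    rw [this, hx]
  refine ⟨⋃ y ∈ connectedComponentIn (F ⁻¹' {F x}) x, W y,
    isOpen_biUnion fun y hy => (hW y (hCF y hy)).1, ?_⟩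
  ext z
  constructor
  · intro hz
    exact ⟨connectedComponentIn_subset _ _ hz, mem_iUnion₂.2 ⟨z, hz, (hW z (hCF z hz)).2.1⟩⟩
  · rintro ⟨hz1, hz2⟩
    obtain ⟨y, hy, hzy⟩ := mem_iUnion₂.1 hz2
    have hy' : Sm F x y := hy
    have hz1' : F z = F x := hz1
    have h3 : Sm F y z := sm_of (hW y (hCF y hy)).2.2 (hW y (hCF y hy)).2.1 hzy (hCF y hy)
      (by rw [hz1', hx])
    exact hy'.trans h3

end Vale.Agent.P284.H35.S4
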