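import Vale.Agent.P284.H35.LimLoc
import Mathlib.Order.Filter.Ultrafilter.Basic
import Mathlib.Analysis.SpecificLimits.Basic

/-!
# P284, theorem V, block V14B: the limit (helper35)
-/

open scoped Manifold ContDiff Topology Pointwise ComplexConjugate ComplexOrder
open Filter Set Metric MeasureTheory

noncomputable section

namespace Vale.Agent.P284.H35.V

open Vale.Agent.P272.K Vale.Agent.P284.H894 Vale.Agent.P284.H894.V

section
variable {n : ℕ} {Γ : Type} [Group Γ] {C : Coc n Γ} {δ : ℝ} {η : Cm n → ℝ} {B C₁ : ℝ}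

/-- the sequence is eventually bounded on every ball -/
lemma ev_bdd (h12 : V12Stmt) (hM : MolP n δ η B) (hδ : ∀ a, 4 * δ ≤ C.r a)
    {v : ℕ → Γ → C.I → Cm n → ℝ} {ε : ℕ → ℝ} (hv : ∀ k, App C η C₁ (ε k) (v k))
    {𝒰 : Filter ℕ} [𝒰.NeBot] (hε : Tendsto ε 𝒰 (𝓝 0)) (b₀ : C.I) (γ : Γ) (a : C.I) :
    ∃ M : ℝ, ∀ᶠ k in 𝒰, ∀ z ∈ ball (C.c a) (11 / 4 * C.r a),
      |mo η (v k γ a) z - mo η (v k 1 b₀) (C.c b₀)| ≤ M := by
  set L := √(B * C₁) with hL
  have hL0 : 0 ≤ L := Real.sqrt_nonneg _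
  have hball : ∀ (γ : Γ) (a : C.I) (k : ℕ) (y : Cm n), y ∈ ball (C.c a) (11 / 4 * C.r a) →
      ∀ z ∈ ball (C.c a) (11 / 4 * C.r a),
      |mo η (v k γ a) z - mo η (v k γ a) y| ≤ L * (2 * (11 / 4 * C.r a)) := by
    intro γ a k y hy z hz
    refine ((hv k).lip hM hδ γ a z hz y hy).trans (mul_le_mul_of_nonneg_left ?_ hL0)
    rw [← dist_eq_norm]
    have h1 := mem_ball.1 hy
    have h2 := mem_ball.1 hz
    have h3 := dist_triangle_right z y (C.c a)
    linarith
  refine h12 n Γ C (fun γ a => ∃ M : ℝ, ∀ᶠ k in 𝒰, ∀ z ∈ ball (C.c a) (11 / 4 * C.r a),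
      |mo η (v k γ a) z - mo η (v k 1 b₀) (C.c b₀)| ≤ M) ?_ 1 b₀ γ a ?_
  · rintro γ a b z hz h1 h2 ⟨M, hMM⟩
    obtain ⟨ε₀, hε₀, hcl⟩ := close hM hδ C₁ hz h1 h2 one_pos
    refine ⟨M + 1 + L * (2 * (11 / 4 * C.r b)), ?_⟩
    filter_upwards [hMM, hε.eventually (ge_mem_nhds hε₀)] with k hk hk2 y hy
    have e1 := hk z (ball_subset_ball (by linarith [C.r_pos a]) h1)
    have e2 := hcl (ε k) hk2 (v k) (hv k) γ
    have e3 := hball (γ * C.κ a b z) b k (C.T a b z)
      (ball_subset_ball (by linarith [C.r_pos b]) h2) y hy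
    rw [abs_le] at e1 e2 e3 ⊢
    constructor <;> linarith
  · refine ⟨L * (2 * (11 / 4 * C.r b₀)), Eventually.of_forall fun k z hz => ?_⟩
    exact hball 1 b₀ k (C.c b₀) (mem_ball_self (by linarith [C.r_pos b₀])) z hz

lemma D2_sub_const {f : Cm n → ℝ} {z : Cm n} (k : ℝ) : D2 (fun y => f y - k) z = D2 f z := by
  have h1 : ∀ y : Cm n, fderiv ℝ (fun y => (((f y - k : ℝ)) : ℂ)) y =
      fderiv ℝ (fun y => ((f y : ℝ) : ℂ)) y := by
    intro y
    have : (fun y => (((f y - k : ℝ)) : ℂ)) = fun y => ((f y : ℝ) : ℂ) - (k : ℂ) := by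
      funext y; push_cast; rfl
    rw [this, fderiv_sub_const]
  have h2 : ∀ j, (fun y => dzb j (fun y => (((f y - k : ℝ)) : ℂ)) y) =
      fun y => dzb j (fun y => ((f y : ℝ) : ℂ)) y := by
    intro j
    funext y
    simp only [dzb, h1]
  unfold D2
  refine Finset.sum_congr rfl fun i _ => Finset.sum_congr rfl fun j _ => ?_
  have h3 : cHess (fun y => f y - k) z i j = cHess f z i j := by
    show dz i (fun y => dzb j (fun y => (((f y - k : ℝ)) : ℂ)) y) z =
      dz i (fun y => dzb j (fun y => ((f y : ℝ) : ℂ)) y) z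
    rw [h2]
  rw [h3]

end

theorem v14BStmt : V14BStmt := by
  intro h12 n Γ _ C δ η B hδ0 hδ hM C₁ hex
  classical
  have h1 : ∀ k : ℕ, ∃ u, App C η C₁ (1 / ((k : ℝ) + 1)) u := fun k => hex _ (by positivity)
  choose v hv using h1
  set 𝒰 : Ultrafilter ℕ := hyperfilter ℕ with h𝒰
  have h𝒰top : (𝒰 : Filter ℕ) ≤ atTop := Nat.hyperfilter_le_atTop
  have hε : Tendsto (fun k : ℕ => 1 / ((k : ℝ) + 1)) (𝒰 : Filter ℕ) (𝓝 0) :=
    tendsto_one_div_add_atTop_nhds_zero_nat.mono_left h𝒰top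
  set b₀ : C.I := Classical.arbitrary C.I with hb₀
  set L := √(B * C₁) with hL
  have hL0 : 0 ≤ L := Real.sqrt_nonneg _
  set m : ℕ → Γ → C.I → Cm n → ℝ := fun k γ a z =>
    mo η (v k γ a) z - mo η (v k 1 b₀) (C.c b₀) with hm
  -- pointwise limits
  have hlim0 : ∀ γ a z, ∃ x : ℝ, z ∈ ball (C.c a) (11 / 4 * C.r a) →
      Tendsto (fun k => m k γ a z) (𝒰 : Filter ℕ) (𝓝 x) := by
    intro γ a z
    by_cases hz : z ∈ ball (C.c a) (11 / 4 * C.r a)
    · obtain ⟨M, hMM⟩ := ev_bdd h12 hM hδ hv hε b₀ γ a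
      have h2 : ∀ᶠ k in (𝒰 : Filter ℕ), m k γ a z ∈ Icc (-M) M := by
        filter_upwards [hMM] with k hk
        exact abs_le.1 (hk z hz)
      obtain ⟨x, -, hx⟩ := isCompact_Icc.ultrafilter_le_nhds (𝒰.map fun k => m k γ a z)
        (le_principal_iff.2 h2)
      exact ⟨x, fun _ => hx⟩
    · exact ⟨0, fun h => absurd h hz⟩
  choose Φ hΦ using hlim0
  -- properties of the sequence
  have hs : ∀ k γ a, ∀ z ∈ ball (C.c a) (11 / 4 * C.r a), ContDiffAt ℝ ∞ (m k γ a) z :=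
    fun k γ a z hz => ((hv k).smooth_mo hM hδ γ a z hz).sub contDiffAt_const
  have hlip : ∀ k γ a, ∀ z ∈ ball (C.c a) (11 / 4 * C.r a),
      ∀ z' ∈ ball (C.c a) (11 / 4 * C.r a), |m k γ a z - m k γ a z'| ≤ L * ‖z - z'‖ := by
    intro k γ a z hz z' hz'
    have := (hv k).lip hM hδ γ a z hz z' hz'
    simpa [hm] using this
  have hD2 : ∀ k γ a, ∀ z ∈ ball (C.c a) (11 / 4 * C.r a),
      D2 (m k γ a) z ≤ B * (1 / ((k : ℝ) + 1)) := by
    intro k γ a z hz
    have hr := C.r_pos a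
    have hd := hδ a
    have e1 : D2 (m k γ a) z = D2 (mo η (v k γ a)) z := D2_sub_const _
    rw [e1]
    have e2 := (hM.2.2.2.2.2 (C.c a) (11 / 4 * C.r a) (3 * C.r a) (by positivity) (by linarith) _
      ((hv k).cdOn γ a)).2.2.2.2.1 z hz
    exact e2.trans (mul_le_mul_of_nonneg_left ((hv k).d2 γ a) hM.1.le)
  have hBε : Tendsto (fun k : ℕ => B * (1 / ((k : ℝ) + 1))) (𝒰 : Filter ℕ) (𝓝 0) := by
    simpa using hε.const_mul B
  have hloc : ∀ γ a, _ := fun γ a => limit_local (C.r_pos a) hδ0 (hδ a) hM hL0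
    (fun k => hs k γ a) (fun k => hlip k γ a) (fun k => hD2 k γ a) hBε (fun z hz => hΦ γ a z hz)
  set U : Γ → C.I → Cm n → ℝ := fun γ a =>
    mo η ((closedBall (C.c a) (5 / 2 * C.r a)).indicator (Φ γ a)) with hU
  have hUs : ∀ γ a, ContDiff ℝ ∞ (U γ a) := fun γ a => (hloc γ a).1
  have hUΦ : ∀ γ a, ∀ z ∈ ball (C.c a) (9 / 4 * C.r a), U γ a z = Φ γ a z := fun γ a =>
    (hloc γ a).2.1
  have h2 : ∀ a, ∀ z ∈ ball (C.c a) (2 * C.r a), z ∈ ball (C.c a) (9 / 4 * C.r a) := fun a z hz =>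
    ball_subset_ball (by linarith [C.r_pos a]) hz
  have h3 : ∀ a, ∀ z ∈ ball (C.c a) (9 / 4 * C.r a), z ∈ ball (C.c a) (11 / 4 * C.r a) :=
    fun a z hz => ball_subset_ball (by linarith [C.r_pos a]) hz
  have hΦlip : ∀ γ a, ∀ z ∈ ball (C.c a) (11 / 4 * C.r a),
      ∀ z' ∈ ball (C.c a) (11 / 4 * C.r a), |Φ γ a z - Φ γ a z'| ≤ L * ‖z - z'‖ := by
    intro γ a z hz z' hz'
    exact le_of_tendsto ((hΦ γ a z hz).sub (hΦ γ a z' hz')).abs
      (Eventually.of_forall fun k => hlip k γ a z hz z' hz')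
  refine ⟨U, L, ⟨fun γ a z _ => (hUs γ a).contDiffAt, fun γ a z hz => (hloc γ a).2.2 z (h2 a z hz),
    ?_, ?_, ?_⟩⟩
  · -- compatibility
    intro γ a b z hz hza hzb
    rw [hUΦ γ a z (h2 a z hza), hUΦ _ b _ (h2 b _ hzb)]
    have e1 := hΦ γ a z (h3 a z (h2 a z hza))
    have e2 := hΦ (γ * C.κ a b z) b (C.T a b z) (h3 b _ (h2 b _ hzb))
    have e3 := (e1.sub e2).abs
    have e4 : |Φ γ a z - Φ (γ * C.κ a b z) b (C.T a b z)| ≤ 0 := by
      refine le_of_forall_pos_le_add fun κ hκ => ?_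
      rw [zero_add]
      obtain ⟨ε₀, hε₀, hcl⟩ := close hM hδ C₁ hz hza hzb hκ
      refine le_of_tendsto e3 ?_
      filter_upwards [hε.eventually (ge_mem_nhds hε₀)] with k hk
      have := hcl _ hk (v k) (hv k) γ
      simpa [hm] using this
    have e5 := abs_eq_zero.1 (le_antisymm e4 (abs_nonneg _))
    linarith
  · -- the gradient
    intro γ a z hz
    refine norm_fderiv_le_of_lip' ℝ hL0 ?_
    filter_upwards [isOpen_ball.mem_nhds (h2 a z hz)] with y hy
    rw [Real.norm_eq_abs, hUΦ γ a y hy, hUΦ γ a z (h2 a z hz)]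
    exact hΦlip γ a y (h3 a y hy) z (h3 a z (h2 a z hz))
  · -- nonconstant
    have hone : ∀ k, ∃ (b : C.I) (z : Cm n) (e : Cm n), z ∈ C.W b ∧ ‖e‖ ≤ 1 ∧
        1 ≤ fderiv ℝ (mo η (v k 1 b)) z e := by
      intro k
      obtain ⟨b, z, hz, e, he, h⟩ := (hv k).one
      exact ⟨b, z, e, hz, he, h⟩
    choose bb zz ee hzz hee hone using hone
    -- one ball
    obtain ⟨b, hb⟩ : ∃ b : C.I, ∀ᶠ k in (𝒰 : Filter ℕ), bb k = b := by
      have h4 : ∀ᶠ k in (𝒰 : Filter ℕ), ∃ b ∈ (univ : Set C.I), bb k = b :=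
        Eventually.of_forall fun k => ⟨bb k, mem_univ _, rfl⟩
      rw [Ultrafilter.eventually_exists_mem_iff finite_univ] at h4
      obtain ⟨b, -, hb⟩ := h4
      exact ⟨b, hb⟩
    have hr := C.r_pos b
    have h5 : ∀ᶠ k in (𝒰 : Filter ℕ), zz k ∈ closedBall (C.c b) (C.r b) := by
      filter_upwards [hb] with k hk
      have := hzz k
      rw [hk] at this
      exact ball_subset_closedBall this
    have h6 : ∀ᶠ k in (𝒰 : Filter ℕ), ee k ∈ closedBall (0 : Cm n) 1 :=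
      Eventually.of_forall fun k => by simpa using hee k
    obtain ⟨z₀, hz₀, hz₀l⟩ := (isCompact_closedBall (C.c b) (C.r b)).ultrafilter_le_nhds
      (𝒰.map zz) (le_principal_iff.2 h5)
    obtain ⟨e₀, he₀, he₀l⟩ := (isCompact_closedBall (0 : Cm n) 1).ultrafilter_le_nhds
      (𝒰.map ee) (le_principal_iff.2 h6)
    have hz₀l' : Tendsto zz (𝒰 : Filter ℕ) (𝓝 z₀) := hz₀l
    have he₀l' : Tendsto ee (𝒰 : Filter ℕ) (𝓝 e₀) := he₀l
    have he₀n : ‖e₀‖ ≤ 1 := by simpa using he₀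
    set s := min (C.r b / 4) (1 / (2 * (L + 1))) with hs'
    have hs0 : 0 < s := lt_min (by positivity) (by positivity)
    have hsr : s ≤ C.r b / 4 := min_le_left _ _
    have hsL : L * s ≤ 1 / 2 := by
      calc L * s ≤ (L + 1) * (1 / (2 * (L + 1))) := by
            apply mul_le_mul (by linarith) (min_le_right _ _) hs0.le (by linarith)
        _ = 1 / 2 := by field_simp
    have hin : ∀ (z e : Cm n) (t : ℝ), z ∈ closedBall (C.c b) (C.r b) → ‖e‖ ≤ 1 → 0 ≤ t → t ≤ s →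
        z + t • e ∈ ball (C.c b) (2 * C.r b) := by
      intro z e t hz he ht hts
      rw [mem_ball, dist_eq_norm]
      rw [mem_closedBall, dist_eq_norm] at hz
      have e1 : ‖t • e‖ ≤ s * 1 := by
        rw [norm_smul, Real.norm_of_nonneg ht]
        exact mul_le_mul hts he (norm_nonneg _) hs0.le
      calc ‖z + t • e - C.c b‖ = ‖(z - C.c b) + t • e‖ := by congr 1; abel
        _ ≤ ‖z - C.c b‖ + ‖t • e‖ := norm_add_le _ _
        _ < 2 * C.r b := by linarith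
    have hin0 : ∀ z : Cm n, z ∈ closedBall (C.c b) (C.r b) → z ∈ ball (C.c b) (2 * C.r b) :=
      fun z hz => closedBall_subset_ball (by linarith) hz
    have h23 : ∀ z ∈ ball (C.c b) (2 * C.r b), z ∈ ball (C.c b) (11 / 4 * C.r b) := fun z hz =>
      h3 b z (h2 b z hz)
    -- growth along `e`
    have hgrow : ∀ᶠ k in (𝒰 : Filter ℕ), s / 2 ≤ m k 1 b (zz k + s • ee k) - m k 1 b (zz k) := by
      filter_upwards [hb] with k hk
      have hzk : zz k ∈ closedBall (C.c b) (C.r b) := by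
        have := hzz k
        rw [hk] at this
        exact ball_subset_closedBall this
      have h1k : 1 ≤ fderiv ℝ (mo η (v k 1 b)) (zz k) (ee k) := by
        have := hone k
        rwa [hk] at this
      set f : ℝ → ℝ := fun t => mo η (v k 1 b) (zz k + t • ee k) with hf
      have hfd : ∀ t ∈ Icc (0:ℝ) s, HasDerivAt f
          (fderiv ℝ (mo η (v k 1 b)) (zz k + t • ee k) (ee k)) t := by
        intro t ht
        have e1 : DifferentiableAt ℝ (mo η (v k 1 b)) (zz k + t • ee k) :=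
          ((hv k).smooth_mo hM hδ 1 b _
            (h23 _ (hin _ _ t hzk (hee k) ht.1 ht.2))).differentiableAt (by simp)
        have e2 : HasDerivAt (fun t : ℝ => zz k + t • ee k) (ee k) t := by
          simpa using ((hasDerivAt_id t).smul_const (ee k)).const_add (zz k)
        exact e1.hasFDerivAt.comp_hasDerivAt t e2
      obtain ⟨t, ht, hmv⟩ := exists_hasDerivAt_eq_slope f
        (fun t => fderiv ℝ (mo η (v k 1 b)) (zz k + t • ee k) (ee k)) hs0
        (fun t ht => (hfd t ht).continuousAt.continuousWithinAt)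
        (fun t ht => hfd t (Ioo_subset_Icc_self ht))
      have e1 := (hv k).fderiv_lip hM hδ 1 b (zz k + t • ee k)
        (h23 _ (hin _ _ t hzk (hee k) ht.1.le ht.2.le)) (zz k) (h23 _ (hin0 _ hzk))
      have e2 : ‖zz k + t • ee k - zz k‖ ≤ s := by
        rw [add_sub_cancel_left, norm_smul, Real.norm_of_nonneg ht.1.le]
        calc t * ‖ee k‖ ≤ s * 1 := mul_le_mul ht.2.le (hee k) (norm_nonneg _) hs0.le
          _ = s := mul_one s
      have e3 : |fderiv ℝ (mo η (v k 1 b)) (zz k + t • ee k) (ee k) -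
          fderiv ℝ (mo η (v k 1 b)) (zz k) (ee k)| ≤ 1 / 2 := by
        have e4 := (fderiv ℝ (mo η (v k 1 b)) (zz k + t • ee k) -
          fderiv ℝ (mo η (v k 1 b)) (zz k)).le_opNorm (ee k)
        rw [Real.norm_eq_abs] at e4
        refine le_trans e4 ?_
        calc _ ≤ (L * s) * 1 := by
              apply mul_le_mul _ (hee k) (norm_nonneg _) (by positivity)
              exact e1.trans (mul_le_mul_of_nonneg_left e2 hL0)
          _ ≤ 1 / 2 := by linarith
      have e5 : 1 / 2 ≤ fderiv ℝ (mo η (v k 1 b)) (zz k + t • ee k) (ee k) := by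
        rw [abs_le] at e3
        linarith [e3.1]
      rw [hmv, sub_zero] at e5
      have e6 : s / 2 ≤ f s - f 0 := by
        rw [le_div_iff₀ hs0] at e5
        linarith
      have e7 : m k 1 b (zz k + s • ee k) - m k 1 b (zz k) = f s - f 0 := by
        simp [hm, hf]
      rw [e7]
      exact e6
    -- the limit
    have hcl : ∀ (y : ℕ → Cm n) (y₀ : Cm n), Tendsto y (𝒰 : Filter ℕ) (𝓝 y₀) →
        y₀ ∈ ball (C.c b) (2 * C.r b) → (∀ᶠ k in (𝒰 : Filter ℕ), y k ∈ ball (C.c b) (2 * C.r b)) →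
        Tendsto (fun k => m k 1 b (y k)) (𝒰 : Filter ℕ) (𝓝 (Φ 1 b y₀)) := by
      intro y y₀ hy hy₀ hyk
      have e1 := hΦ 1 b y₀ (h23 _ hy₀)
      have e2 : Tendsto (fun k => m k 1 b (y k) - m k 1 b y₀) (𝒰 : Filter ℕ) (𝓝 0) := by
        have e3 : Tendsto (fun k => L * ‖y k - y₀‖) (𝒰 : Filter ℕ) (𝓝 0) := by
          have := ((hy.sub_const y₀).norm).const_mul L
          simpa using this
        refine squeeze_zero_norm' ?_ e3
        filter_upwards [hyk] with k hk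
        exact hlip k 1 b _ (h23 _ hk) _ (h23 _ hy₀)
      have := e2.add e1
      simpa using this
    have hz₀2 := hin0 z₀ hz₀
    have hz₀s := hin z₀ e₀ s hz₀ he₀n hs0.le le_rfl
    have hzk : ∀ᶠ k in (𝒰 : Filter ℕ), zz k ∈ closedBall (C.c b) (C.r b) := by
      filter_upwards [hb] with k hk
      have := hzz k
      rw [hk] at this
      exact ball_subset_closedBall this
    have l1 := hcl (fun k => zz k + s • ee k) (z₀ + s • e₀) (hz₀l'.add (he₀l'.const_smul s)) hz₀s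
      (hzk.mono fun k hk => hin _ _ s hk (hee k) hs0.le le_rfl)
    have l2 := hcl zz z₀ hz₀l' hz₀2 (hzk.mono fun k hk => hin0 _ hk)
    have l3 : s / 2 ≤ Φ 1 b (z₀ + s • e₀) - Φ 1 b z₀ := ge_of_tendsto (l1.sub l2) hgrow
    by_contra hcon
    push Not at hcon
    have hzero := hcon 1 b
    have e1 := Convex.norm_image_sub_le_of_norm_fderiv_le (𝕜 := ℝ) (f := U 1 b) (C := 0)
      (fun x _ => (hUs 1 b).contDiffAt.differentiableAt (by simp))
      (fun x hx => by rw [hzero x hx]; simp) (convex_ball (C.c b) (2 * C.r b)) hz₀2 hz₀s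
    rw [zero_mul, norm_le_zero_iff, sub_eq_zero, hUΦ 1 b _ (h2 b _ hz₀s),
      hUΦ 1 b _ (h2 b _ hz₀2)] at e1
    rw [e1, sub_self] at l3
    linarith

end Vale.Agent.P284.H35.V
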