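import Mathlib

/-!
# P284 (helper35), lemma C1: a polynomial map `ℂⁿ → ℂⁿ` with nonzero Jacobian is proper and locally
biholomorphic over the complement of a hypersurface, with polynomial bounds.
-/

open MvPolynomial Matrix

noncomputable section

namespace Vale.Agent.P284.H35.C1

variable {n : ℕ}

/-- the chain rule -/
lemma pderiv_aeval (R : Fin n → MvPolynomial (Fin n) ℂ) (j : Fin n) (p : MvPolynomial (Fin n) ℂ) :
    pderiv j (aeval R p) = ∑ i, aeval R (pderiv i p) * pderiv j (R i) := by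
  induction p using MvPolynomial.induction_on with
  | C a => simp
  | add p q hp hq =>
    simp only [map_add, hp, hq, add_mul, Finset.sum_add_distrib]
  | mul_X p i hp =>
    have h1 : ∀ k, aeval R (pderiv k (p * X i)) * pderiv j (R k) =
        (if k = i then aeval R p * pderiv j (R i) else 0) +
          R i * (aeval R (pderiv k p) * pderiv j (R k)) := by
      intro k
      rw [Derivation.leibniz, smul_eq_mul, smul_eq_mul, map_add, map_mul, map_mul, aeval_X]
      by_cases hk : k = i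
      · subst hk
        rw [pderiv_X_self, map_one, if_pos rfl]
        ring
      · rw [pderiv_X_of_ne (Ne.symm hk), map_zero, if_neg hk]
        ring
    rw [Finset.sum_congr rfl fun k _ => h1 k, Finset.sum_add_distrib, Finset.sum_ite_eq',
      if_pos (Finset.mem_univ i), ← Finset.mul_sum, ← hp, map_mul, aeval_X, Derivation.leibniz,
      smul_eq_mul, smul_eq_mul]

lemma totalDegree_pderiv_le (i : Fin n) (p : MvPolynomial (Fin n) ℂ) {d : ℕ}
    (hp : p.totalDegree ≤ d + 1) : (pderiv i p).totalDegree ≤ d := by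
  rw [totalDegree]
  refine Finset.sup_le fun m hm => ?_
  rw [mem_support_iff, coeff_pderiv] at hm
  have h1 : coeff (m + Finsupp.single i 1) p ≠ 0 := fun h => hm (by rw [h, zero_mul])
  have h2 := le_totalDegree (mem_support_iff.2 h1)
  have h3 : ((m + Finsupp.single i 1).sum fun _ e => e) = (m.sum fun _ e => e) + 1 := by
    rw [Finsupp.sum_add_index' (by simp) (by simp)]
    simp
  rw [h3] at h2
  omega

lemma eq_C_of_pderiv {p : MvPolynomial (Fin n) ℂ} (h : ∀ i, pderiv i p = 0) :
    p = C (coeff 0 p) := by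
  ext m
  rw [coeff_C]
  split_ifs with hm
  · rw [hm]
  · obtain ⟨i, hi⟩ : ∃ i, m i ≠ 0 := by
      by_contra hcon
      push Not at hcon
      exact hm (Finsupp.ext fun i => by simp [hcon i])
    have h1 := coeff_pderiv (i := i) p (m - Finsupp.single i 1)
    rw [h i, coeff_zero] at h1
    have h2 : m - Finsupp.single i 1 + Finsupp.single i 1 = m := by
      ext k
      by_cases hk : k = i
      · subst hk; simp; omega
      · simp [Finsupp.single_apply, Ne.symm hk]
    rw [h2] at h1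
    rcases mul_eq_zero.1 h1.symm with h3 | h3
    · exact h3
    · exfalso
      exact absurd h3 (Nat.cast_add_one_ne_zero _)

/-- Jacobian criterion -/
theorem algInd (R : Fin n → MvPolynomial (Fin n) ℂ)
    (hJ : (Matrix.of fun i j => pderiv j (R i)).det ≠ 0) : AlgebraicIndependent ℂ R := by
  rw [algebraicIndependent_iff]
  have key : ∀ d : ℕ, ∀ p : MvPolynomial (Fin n) ℂ, p.totalDegree ≤ d → aeval R p = 0 → p = 0 := by
    intro d
    induction d with
    | zero =>
      intro p hp h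
      have h1 := totalDegree_eq_zero_iff_eq_C.1 (Nat.le_zero.1 hp)
      rw [h1] at h ⊢
      simp only [aeval_C, algebraMap_eq, C_eq_zero] at h ⊢
      exact h
    | succ d ih =>
      intro p hp h
      have h1 : (fun i => aeval R (pderiv i p)) ᵥ* (Matrix.of fun i j => pderiv j (R i)) = 0 := by
        funext j
        have h2 := pderiv_aeval R j p
        rw [h, map_zero] at h2
        simp only [vecMul, dotProduct, of_apply, Pi.zero_apply]
        exact h2.symm
      have h3 := Matrix.eq_zero_of_vecMul_eq_zero hJ h1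
      have h4 : ∀ i, pderiv i p = 0 := fun i =>
        ih _ (totalDegree_pderiv_le i p hp) (congrFun h3 i)
      have h5 := eq_C_of_pderiv h4
      rw [h5] at h ⊢
      simp only [aeval_C, algebraMap_eq, C_eq_zero] at h ⊢
      exact h
  intro p hp
  exact key _ p le_rfl hp

/-- every polynomial is algebraic over `ℂ[R]` -/
theorem isAlg (R : Fin n → MvPolynomial (Fin n) ℂ)
    (hJ : (Matrix.of fun i j => pderiv j (R i)).det ≠ 0) (f : MvPolynomial (Fin n) ℂ) :
    IsAlgebraic (Algebra.adjoin ℂ (Set.range R)) f := by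
  have h1 : IsTranscendenceBasis ℂ R := by
    refine (algInd R hJ).isTranscendenceBasis_of_trdeg_le_of_finite ?_
    rw [MvPolynomial.trdeg_of_isDomain]
    simp
  exact h1.isAlgebraic.isAlgebraic f

/-- growth of polynomials -/
lemma growth (p : MvPolynomial (Fin n) ℂ) :
    ∃ (C : ℝ) (s : ℕ), 0 < C ∧ ∀ w : Fin n → ℂ, ‖eval w p‖ ≤ C * (1 + ‖w‖) ^ s := by
  induction p using MvPolynomial.induction_on with
  | C a => exact ⟨‖a‖ + 1, 0, by positivity, fun w => by simp⟩
  | add p q hp hq =>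
    obtain ⟨C₁, s₁, h1, hp⟩ := hp
    obtain ⟨C₂, s₂, h2, hq⟩ := hq
    refine ⟨C₁ + C₂, max s₁ s₂, by positivity, fun w => ?_⟩
    have h3 : (1 : ℝ) ≤ 1 + ‖w‖ := by linarith [norm_nonneg w]
    have h4 := pow_le_pow_right₀ h3 (le_max_left s₁ s₂)
    have h5 := pow_le_pow_right₀ h3 (le_max_right s₁ s₂)
    rw [map_add, add_mul]
    refine (norm_add_le _ _).trans (add_le_add ((hp w).trans ?_) ((hq w).trans ?_))
    · exact mul_le_mul_of_nonneg_left h4 h1.le
    · exact mul_le_mul_of_nonneg_left h5 h2.le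
  | mul_X p i hp =>
    obtain ⟨C₁, s₁, h1, hp⟩ := hp
    refine ⟨C₁, s₁ + 1, h1, fun w => ?_⟩
    rw [map_mul, eval_X, norm_mul, pow_succ, ← mul_assoc]
    have h2 : ‖w i‖ ≤ 1 + ‖w‖ := by linarith [norm_le_pi_norm w i]
    exact mul_le_mul (hp w) h2 (norm_nonneg _) (by positivity)

lemma eval_aeval (R : Fin n → MvPolynomial (Fin n) ℂ) (z : Fin n → ℂ)
    (p : MvPolynomial (Fin n) ℂ) : eval z (aeval R p) = eval (fun i => eval z (R i)) p := by
  induction p using MvPolynomial.induction_on with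
  | C a => rw [aeval_C, MvPolynomial.algebraMap_eq, eval_C, eval_C]
  | add p q hp hq => rw [map_add, map_add, map_add, hp, hq]
  | mul_X p i hp => rw [map_mul, map_mul, map_mul, hp, aeval_X, eval_X]

/-- coefficients in `ℂ[R]` are polynomials in `R` -/
lemma exists_coeff (R : Fin n → MvPolynomial (Fin n) ℂ) (f : MvPolynomial (Fin n) ℂ)
    (p : Polynomial (Algebra.adjoin ℂ (Set.range R))) (hp : Polynomial.aeval f p = 0) :
    ∃ q : ℕ → MvPolynomial (Fin n) ℂ, (∀ k, aeval R (q k) = (p.coeff k : MvPolynomial (Fin n) ℂ)) ∧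
      ∀ z : Fin n → ℂ, ∑ k ∈ Finset.range (p.natDegree + 1),
        eval (fun i => eval z (R i)) (q k) * eval z f ^ k = 0 := by
  have h1 : ∀ k, ∃ q : MvPolynomial (Fin n) ℂ, aeval R q = (p.coeff k : MvPolynomial (Fin n) ℂ) := by
    intro k
    have h2 : ((p.coeff k : Algebra.adjoin ℂ (Set.range R)) : MvPolynomial (Fin n) ℂ) ∈
        (aeval R : MvPolynomial (Fin n) ℂ →ₐ[ℂ] _).range := by
      rw [← Algebra.adjoin_range_eq_range_aeval]
      exact (p.coeff k).2
    exact h2
  choose q hq using h1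
  refine ⟨q, hq, fun z => ?_⟩
  have h3 : ∑ k ∈ Finset.range (p.natDegree + 1),
      (p.coeff k : MvPolynomial (Fin n) ℂ) * f ^ k = 0 := by
    rw [← hp, Polynomial.aeval_eq_sum_range]
    refine Finset.sum_congr rfl fun k _ => ?_
    rw [Algebra.smul_def]
    rfl
  have h4 := congrArg (eval z) h3
  rw [map_sum, map_zero] at h4
  rw [← h4]
  refine Finset.sum_congr rfl fun k _ => ?_
  rw [map_mul, map_pow, ← hq k, eval_aeval]

/-- Cauchy's bound for roots -/
lemma cauchy (c : ℕ → ℂ) (N : ℕ) (x : ℂ) (h : ∑ k ∈ Finset.range (N + 1), c k * x ^ k = 0) :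
    ‖x‖ * ‖c N‖ ≤ ∑ k ∈ Finset.range (N + 1), ‖c k‖ := by
  by_cases hx : ‖x‖ ≤ 1
  · calc ‖x‖ * ‖c N‖ ≤ 1 * ‖c N‖ := by gcongr
      _ = ‖c N‖ := one_mul _
      _ ≤ _ := Finset.single_le_sum (f := fun k => ‖c k‖) (fun _ _ => norm_nonneg _)
          (Finset.mem_range.2 (Nat.lt_succ_self N))
  · push Not at hx
    rcases Nat.eq_zero_or_pos N with hN | hN
    · subst hN
      simp only [zero_add, Finset.sum_range_one, pow_zero, mul_one] at h
      simp [h]
    · rw [Finset.sum_range_succ] at h ⊢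
      have h1 : c N * x ^ N = -∑ k ∈ Finset.range N, c k * x ^ k := by linear_combination h
      have h2 : ‖c N‖ * ‖x‖ ^ N ≤ (∑ k ∈ Finset.range N, ‖c k‖) * ‖x‖ ^ (N - 1) := by
        rw [← norm_pow, ← norm_mul, h1, norm_neg, Finset.sum_mul]
        refine (norm_sum_le _ _).trans (Finset.sum_le_sum fun k hk => ?_)
        rw [norm_mul, norm_pow]
        refine mul_le_mul_of_nonneg_left (pow_le_pow_right₀ hx.le ?_) (norm_nonneg _)
        have := Finset.mem_range.1 hk
        omega
      have h3 : ‖x‖ ^ N = ‖x‖ * ‖x‖ ^ (N - 1) := by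
        rw [← pow_succ', Nat.sub_add_cancel hN]
      rw [h3, ← mul_assoc] at h2
      have h4 : 0 < ‖x‖ ^ (N - 1) := by positivity
      have h5 := le_of_mul_le_mul_right h2 h4
      linarith [norm_nonneg (c N), mul_comm ‖c N‖ ‖x‖]

/-- one coordinate -/
lemma coord (R : Fin n → MvPolynomial (Fin n) ℂ)
    (hJ : (Matrix.of fun i j => pderiv j (R i)).det ≠ 0) (f : MvPolynomial (Fin n) ℂ) :
    ∃ a : MvPolynomial (Fin n) ℂ, a ≠ 0 ∧ ∃ (C : ℝ) (s : ℕ), 0 < C ∧ ∀ z : Fin n → ℂ,
      ‖eval z f‖ * ‖eval (fun i => eval z (R i)) a‖ ≤ C * (1 + ‖fun i => eval z (R i)‖) ^ s := by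
  obtain ⟨p, hp0, hp⟩ := isAlg R hJ f
  obtain ⟨q, hq, hz⟩ := exists_coeff R f p hp
  refine ⟨q p.natDegree, ?_, ?_⟩
  · intro h0
    have h1 := hq p.natDegree
    rw [h0, map_zero] at h1
    have h2 : p.coeff p.natDegree ≠ 0 := by
      rw [Polynomial.coeff_natDegree]
      exact Polynomial.leadingCoeff_ne_zero.2 hp0
    exact h2 (Subtype.ext h1.symm)
  · have hg : ∃ (C : ℝ) (s : ℕ), 0 < C ∧ ∀ w : Fin n → ℂ,
        ∑ k ∈ Finset.range (p.natDegree + 1), ‖eval w (q k)‖ ≤ C * (1 + ‖w‖) ^ s := by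
      choose C s hC hs using fun k => growth (q k)
      refine ⟨∑ k ∈ Finset.range (p.natDegree + 1), C k,
        ∑ k ∈ Finset.range (p.natDegree + 1), s k,
        Finset.sum_pos (fun k _ => hC k) (by simp), fun w => ?_⟩
      rw [Finset.sum_mul]
      refine Finset.sum_le_sum fun k hk => (hs k w).trans ?_
      refine mul_le_mul_of_nonneg_left (pow_le_pow_right₀ (by linarith [norm_nonneg w]) ?_)
        (hC k).le
      exact Finset.single_le_sum (f := s) (fun _ _ => Nat.zero_le _) hk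
    obtain ⟨C, s, hC, hs⟩ := hg
    refine ⟨C, s, hC, fun z => ?_⟩
    exact (cauchy (fun k => eval (fun i => eval z (R i)) (q k)) _ _ (hz z)).trans (hs _)

/-- **C1** -/
theorem c1' (R : Fin n → MvPolynomial (Fin n) ℂ)
    (hJ : (Matrix.of fun i j => pderiv j (R i)).det ≠ 0) :
    ∃ a : MvPolynomial (Fin n) ℂ, a ≠ 0 ∧ ∃ (C : ℝ) (s : ℕ), 0 < C ∧
      (∀ z : Fin n → ℂ, ‖z‖ * ‖eval (fun i => eval z (R i)) a‖ ≤
        C * (1 + ‖fun i => eval z (R i)‖) ^ s) ∧
      ∀ z : Fin n → ℂ, eval z (Matrix.of fun i j => pderiv j (R i)).det = 0 →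
        eval (fun i => eval z (R i)) a = 0 := by
  set J := (Matrix.of fun i j => pderiv j (R i)).det with hJdef
  choose b hb C s hC hs using fun j => coord R hJ (X j)
  obtain ⟨p, hp0, hp⟩ := (isAlg R hJ J).exists_nonzero_coeff_and_aeval_eq_zero
    (mem_nonZeroDivisors_of_ne_zero hJ)
  obtain ⟨q, hq, hz⟩ := exists_coeff R J p hp
  have hq0 : q 0 ≠ 0 := by
    intro h0
    have h1 := hq 0
    rw [h0, map_zero] at h1
    exact hp0 (Subtype.ext h1.symm)
  set a := q 0 * ∏ j, b j with ha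
  have ha0 : a ≠ 0 := mul_ne_zero hq0 (Finset.prod_ne_zero_iff.2 fun j _ => hb j)
  refine ⟨a, ha0, ?_⟩
  -- the cofactor of `b j` in `a`
  have hcof : ∀ j, ∃ e : MvPolynomial (Fin n) ℂ, a = b j * e := by
    intro j
    have : b j ∣ a := (Finset.dvd_prod_of_mem b (Finset.mem_univ j)).mul_left _
    exact this
  choose e he using hcof
  choose D t hD ht using fun j => growth (e j)
  refine ⟨1 + ∑ j, C j * D j, ∑ j, (s j + t j), by
    have : 0 ≤ ∑ j, C j * D j := Finset.sum_nonneg fun j _ => by have := hC j; have := hD j; positivity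
    linarith, fun z => ?_, fun z hz0 => ?_⟩
  · set w : Fin n → ℂ := fun i => eval z (R i) with hw
    have hw1 : (1 : ℝ) ≤ 1 + ‖w‖ := by linarith [norm_nonneg w]
    have hbd : ∀ j, ‖z j‖ * ‖eval w a‖ ≤ (1 + ∑ j, C j * D j) * (1 + ‖w‖) ^ (∑ j, (s j + t j)) := by
      intro j
      have h1 := hs j z
      rw [eval_X] at h1
      have h2 := ht j w
      rw [he j, map_mul, norm_mul, ← mul_assoc]
      calc ‖z j‖ * ‖eval w (b j)‖ * ‖eval w (e j)‖
          ≤ (C j * (1 + ‖w‖) ^ s j) * (D j * (1 + ‖w‖) ^ t j) :=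
            mul_le_mul h1 h2 (norm_nonneg _) (by have := hC j; positivity)
        _ = (C j * D j) * (1 + ‖w‖) ^ (s j + t j) := by rw [pow_add]; ring
        _ ≤ (1 + ∑ j, C j * D j) * (1 + ‖w‖) ^ (∑ j, (s j + t j)) := by
            have h3 : C j * D j ≤ ∑ j, C j * D j := Finset.single_le_sum (f := fun j => C j * D j)
              (fun i _ => by have := hC i; have := hD i; positivity) (Finset.mem_univ j)
            have h4 : s j + t j ≤ ∑ j, (s j + t j) := Finset.single_le_sum
              (f := fun j => s j + t j) (fun _ _ => Nat.zero_le _) (Finset.mem_univ j)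
            have h5 : 0 ≤ C j * D j := by have := hC j; have := hD j; positivity
            refine mul_le_mul (by linarith) (pow_le_pow_right₀ hw1 h4) (by positivity)
              (by linarith)
    have hA : 0 ≤ (1 + ∑ j, C j * D j) * (1 + ‖w‖) ^ (∑ j, (s j + t j)) := by
      have : 0 ≤ ∑ j, C j * D j :=
        Finset.sum_nonneg fun j _ => by have := hC j; have := hD j; positivity
      positivity
    rcases eq_or_ne (eval w a) 0 with h0 | h0
    · rw [h0, norm_zero, mul_zero]; exact hA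
    · have h6 : 0 < ‖eval w a‖ := norm_pos_iff.2 h0
      rw [← le_div_iff₀ h6]
      refine (pi_norm_le_iff_of_nonneg (by positivity)).2 fun j => ?_
      rw [le_div_iff₀ h6]
      exact hbd j
  · have h1 := hz z
    rw [Finset.sum_eq_single 0 (fun k _ hk => by rw [hz0, zero_pow hk, mul_zero]) (by simp)] at h1
    rw [pow_zero, mul_one] at h1
    rw [ha, map_mul, h1, zero_mul]

/-- **C1**, the form with a quotient. -/
theorem c1 (R : Fin n → MvPolynomial (Fin n) ℂ)
    (hJ : (Matrix.of fun i j => pderiv j (R i)).det ≠ 0) :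
    ∃ a : MvPolynomial (Fin n) ℂ, a ≠ 0 ∧ ∃ (C : ℝ) (s : ℕ), 0 < C ∧
      (∀ z : Fin n → ℂ, eval (fun i => eval z (R i)) a ≠ 0 → ‖z‖ ≤
        C * (1 + ‖fun i => eval z (R i)‖) ^ s / ‖eval (fun i => eval z (R i)) a‖) ∧
      ∀ z : Fin n → ℂ, eval z (Matrix.of fun i j => pderiv j (R i)).det = 0 →
        eval (fun i => eval z (R i)) a = 0 := by
  obtain ⟨a, ha, C, s, hC, h1, h2⟩ := c1' R hJ
  refine ⟨a, ha, C, s, hC, fun z hz => ?_, h2⟩
  rw [le_div_iff₀ (norm_pos_iff.2 hz)]
  exact h1 z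

end Vale.Agent.P284.H35.C1
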