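import Vale.Agent.P284.H894.F.DefsZ
import Mathlib.Algebra.MvPolynomial.Funext
import Mathlib.Analysis.Real.Cardinality

/-!
# P284 (helper35): criteria for `CurveDense`
-/

open scoped Manifold ContDiff
open Filter Set Metric MeasureTheory

noncomputable section

namespace Vale.Agent.P284.H35.CR

open Vale.Agent.P272.K Vale.Agent.P284.H894.F

/-- A polynomial vanishing on a set with nonempty interior is zero. -/
lemma mvpoly_eq_zero_of_interior {n : ℕ} {D : Set (Cm n)} (hD : (interior D).Nonempty)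
    {P : MvPolynomial (Fin n) ℂ} (h : ∀ v ∈ D, MvPolynomial.eval v P = 0) : P = 0 := by
  obtain ⟨v₀, hv₀⟩ := hD
  obtain ⟨ε, hε, hb⟩ := Metric.mem_nhds_iff.1 (mem_interior_iff_mem_nhds.1 hv₀)
  refine MvPolynomial.funext_set (fun i => ball (v₀ i) ε) (fun i => ?_) fun x hx => ?_
  · exact infinite_of_mem_nhds (v₀ i) (ball_mem_nhds _ hε)
  · rw [map_zero]
    refine h x (hb ?_)
    rw [mem_ball, dist_pi_lt_iff hε]
    exact fun i => hx i (mem_univ i)

variable {n : ℕ} {X : Type} [TopologicalSpace X] [ChartedSpace (Cm n) X]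
  {w : Chart n X → Cm n → Matrix (Fin n) (Fin n) ℂ} {x : X}

theorem curveDense_of_rich (h : CurveRich w x) : CurveDense w x := by
  obtain ⟨ρ, D, hD, h⟩ := h
  refine ⟨ρ, fun k P hP h0 => mvpoly_eq_zero_of_interior hD fun v hv => ?_⟩
  obtain ⟨f, hf⟩ := h v hv
  exact h0 v f hf

lemma FiniteOrderCurve.mono {v : Cm n} {ρ ρ' : ℝ} {f : ℂ → X} (h : FiniteOrderCurve w x v ρ f)
    (hρ : ρ ≤ ρ') : FiniteOrderCurve w x v ρ' f := by
  obtain ⟨C, hC⟩ := h.order
  refine ⟨h.holo, h.base, h.vel, |C|, fun r hr => (hC r hr).trans ?_⟩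
  have h1 : 0 ≤ r ^ ρ := Real.rpow_nonneg (by linarith) _
  calc C * r ^ ρ ≤ |C| * r ^ ρ := mul_le_mul_of_nonneg_right (le_abs_self _) h1
    _ ≤ |C| * r ^ ρ' := mul_le_mul_of_nonneg_left (Real.rpow_le_rpow_of_exponent_le hr hρ)
        (abs_nonneg _)

/-- The order may depend on the curve: if the velocities at `x` of the entire curves of finite order
are not contained in a countable union of hypersurfaces, then `CurveDense` holds. -/
theorem curveDense_of_countable (D : Set (Cm n))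
    (hD : ∀ P : ℕ → MvPolynomial (Fin n) ℂ, (∀ m, P m ≠ 0) → (∀ m, ∃ k, (P m).IsHomogeneous k) →
      ∃ v ∈ D, ∀ m, MvPolynomial.eval v (P m) ≠ 0)
    (h : ∀ v ∈ D, ∃ ρ f, FiniteOrderCurve w x v ρ f) : CurveDense w x := by
  by_contra hc
  have hm : ∀ m : ℕ, ∃ (k : ℕ) (P : MvPolynomial (Fin n) ℂ), P.IsHomogeneous k ∧
      (∀ v f, FiniteOrderCurve w x v m f → MvPolynomial.eval v P = 0) ∧ P ≠ 0 := by
    intro m
    by_contra hm
    push_neg at hm
    exact hc ⟨m, fun k P h1 h2 => hm k P h1 h2⟩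
  choose k P hk hP hP0 using hm
  obtain ⟨v, hv, hne⟩ := hD P hP0 fun m => ⟨k m, hk m⟩
  obtain ⟨ρ, f, hf⟩ := h v hv
  obtain ⟨m, hm⟩ := exists_nat_ge ρ
  exact hne m (hP m v f (FiniteOrderCurve.mono hf hm))

end Vale.Agent.P284.H35.CR
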