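import Vale.Agent.P284.H35.Loc

/-!
# P284, theorem V, block V14B: change of variables between two balls (helper35)
-/

open scoped Manifold ContDiff Topology Pointwise ComplexConjugate ComplexOrder
open Filter Set Metric MeasureTheory

noncomputable section

namespace Vale.Agent.P284.H35.V

open Vale.Agent.P272.K Vale.Agent.P284.H894 Vale.Agent.P284.H894.V

variable {n : ℕ} {Γ : Type} [Group Γ]

lemma det_bound (n : ℕ) (M : ℝ) :
    ∃ D : ℝ, 0 ≤ D ∧ ∀ A : Cm n →L[ℝ] Cm n, ‖A‖ ≤ M → |A.det| ≤ D := by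
  haveI : ProperSpace (Cm n →L[ℝ] Cm n) := FiniteDimensional.proper ℝ _
  obtain ⟨D, hD⟩ := (isCompact_closedBall (0 : Cm n →L[ℝ] Cm n) M).exists_bound_of_continuousOn
    (f := fun A => A.det) ContinuousLinearMap.continuous_det.continuousOn
  refine ⟨max D 0, le_max_right _ _, fun A hA => ?_⟩
  have := hD A (by simpa using hA)
  exact (by simpa using this : |A.det| ≤ D).trans (le_max_left _ _)

lemma T_T (C : Coc n Γ) {a b : C.I} {z : Cm n} (hz : z ∈ C.O a b) :
    C.T b a (C.T a b z) = z := by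
  have h1 := C.T_mem a b z hz
  have h3 : z ∈ C.O a a := C.trans_mem a b a z hz h1
  rw [← C.trans_T a b a z hz h1, C.T_self a z h3]

lemma T_diff (C : Coc n Γ) {a b : C.I} {z : Cm n} (hz : z ∈ C.O a b) :
    DifferentiableAt ℂ (C.T a b) z :=
  (C.T_holo a b).differentiableAt ((C.O_open a b).mem_nhds hz)

lemma change (C : Coc n Γ) : ∃ D : ℝ, 0 ≤ D ∧ ∀ (a b : C.I) (U : Set (Cm n)), IsOpen U →
    U ⊆ C.O a b → U ⊆ C.V a → (∀ y ∈ U, C.T a b y ∈ C.V b) → ∀ g : Cm n → ℝ, (∀ y, 0 ≤ g y) →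
    IntegrableOn (fun y => g (C.T a b y)) U → ∀ S : Set (Cm n), MeasurableSet S →
    (∀ y ∈ U, C.T a b y ∈ S) → IntegrableOn g S →
    ∫ y in U, g (C.T a b y) ≤ D * ∫ y in S, g y := by
  obtain ⟨D, hD0, hD⟩ := det_bound n C.M
  refine ⟨D, hD0, fun a b U hU hUO hUV hTV g hg hgi S hS hTS hgS => ?_⟩
  set s : Set (Cm n) := C.T a b '' U with hs
  have hsO : s ⊆ C.O b a := by
    rintro _ ⟨y, hy, rfl⟩
    exact C.T_mem a b y (hUO hy)
  have hs' : s = C.O b a ∩ C.T b a ⁻¹' U := by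
    ext y
    constructor
    · rintro ⟨x, hx, rfl⟩
      refine ⟨C.T_mem a b x (hUO hx), ?_⟩
      show C.T b a (C.T a b x) ∈ U
      rw [T_T C (hUO hx)]
      exact hx
    · rintro ⟨hy, hy2⟩
      exact ⟨C.T b a y, hy2, T_T C hy⟩
  have hso : IsOpen s := by
    rw [hs']
    exact (C.T_holo b a).continuousOn.isOpen_inter_preimage (C.O_open b a) hU
  have himg : C.T b a '' s = U := by
    ext y
    constructor
    · rintro ⟨x, hx, rfl⟩
      rw [hs'] at hx
      exact hx.2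
    · intro hy
      exact ⟨C.T a b y, mem_image_of_mem _ hy, T_T C (hUO hy)⟩
  have hinj : InjOn (C.T b a) s := by
    intro x hx y hy hxy
    have h1 := T_T C (hsO hx)
    rw [hxy, T_T C (hsO hy)] at h1
    exact h1.symm
  have hder : ∀ y ∈ s, HasFDerivWithinAt (C.T b a) ((fderiv ℂ (C.T b a) y).restrictScalars ℝ) s y :=
    fun y hy => ((T_diff C (hsO hy)).hasFDerivAt.restrictScalars ℝ).hasFDerivWithinAt
  have hdet : ∀ y ∈ s, |((fderiv ℂ (C.T b a) y).restrictScalars ℝ).det| ≤ D := by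
    intro y hy
    refine hD _ ?_
    rw [ContinuousLinearMap.norm_restrictScalars]
    refine C.T_le b a y (hsO hy) ?_ ?_
    · obtain ⟨x, hx, rfl⟩ := hy
      exact hTV x hx
    · have : C.T b a y ∈ U := by rw [← himg]; exact mem_image_of_mem _ hy
      exact hUV this
  have h1 := integral_image_eq_integral_abs_det_fderiv_smul volume hso.measurableSet hder hinj
    (fun y => g (C.T a b y))
  have h2 := (integrableOn_image_iff_integrableOn_abs_det_fderiv_smul volume hso.measurableSet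
    hder hinj (fun y => g (C.T a b y))).1 (by rw [himg]; exact hgi)
  rw [himg] at h1
  rw [h1]
  have hsS : s ⊆ S := by
    rintro _ ⟨x, hx, rfl⟩
    exact hTS x hx
  calc ∫ y in s, |((fderiv ℂ (C.T b a) y).restrictScalars ℝ).det| • g (C.T a b (C.T b a y))
      ≤ ∫ y in s, D * g y := by
        refine setIntegral_mono_on h2 ((hgS.mono_set hsS).const_mul D) hso.measurableSet
          fun y hy => ?_
        rw [T_T C (hsO hy), smul_eq_mul]
        exact mul_le_mul_of_nonneg_right (hdet y hy) (hg y)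
    _ = D * ∫ y in s, g y := integral_const_mul _ _
    _ ≤ D * ∫ y in S, g y := by
        refine mul_le_mul_of_nonneg_left ?_ hD0
        exact setIntegral_mono_set hgS (Eventually.of_forall fun y => hg y) hsS.eventuallyLE

/-- a small ball around a point of an overlap -/
lemma small_ball (C : Coc n Γ) {a b : C.I} {z : Cm n} (hz : z ∈ C.O a b)
    (h1 : z ∈ ball (C.c a) (2 * C.r a)) (h2 : C.T a b z ∈ ball (C.c b) (2 * C.r b)) :
    ∃ s : ℝ, 0 < s ∧ ∀ y ∈ ball z s, y ∈ C.O a b ∧ y ∈ ball (C.c a) (2 * C.r a) ∧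
      C.T a b y ∈ ball (C.c b) (2 * C.r b) ∧ C.κ a b y = C.κ a b z := by
  have e1 : ∀ᶠ y in 𝓝 z, y ∈ C.O a b := (C.O_open a b).mem_nhds hz
  have e2 : ∀ᶠ y in 𝓝 z, y ∈ ball (C.c a) (2 * C.r a) := isOpen_ball.mem_nhds h1
  have e3 : ∀ᶠ y in 𝓝 z, C.T a b y ∈ ball (C.c b) (2 * C.r b) :=
    (T_diff C hz).continuousAt.eventually (isOpen_ball.mem_nhds h2)
  have e4 := C.κ_loc a b z hz
  obtain ⟨s, hs, h⟩ := Metric.eventually_nhds_iff_ball.1 (e1.and (e2.and (e3.and e4)))
  exact ⟨s, hs, h⟩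

end Vale.Agent.P284.H35.V
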