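import Vale.Agent.P284.H35.Chg

/-!
# P284, theorem V, block V14B: mollified functions on two balls (helper35)
-/

open scoped Manifold ContDiff Topology Pointwise ComplexConjugate ComplexOrder
open Filter Set Metric MeasureTheory

noncomputable section

namespace Vale.Agent.P284.H35.V

open Vale.Agent.P272.K Vale.Agent.P284.H894 Vale.Agent.P284.H894.V

variable {n : ℕ} {Γ : Type} [Group Γ] {C : Coc n Γ} {δ : ℝ} {η : Cm n → ℝ} {B C₁ ε : ℝ}
  {u : Γ → C.I → Cm n → ℝ}

namespace App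

lemma cdOn (h : App C η C₁ ε u) (γ : Γ) (a : C.I) :
    ∀ z ∈ closedBall (C.c a) (3 * C.r a), ContDiffAt ℝ ∞ (u γ a) z := fun z hz =>
  h.smooth γ a z (closedBall_subset_ball (by linarith [C.r_pos a]) hz)

lemma smooth_mo (h : App C η C₁ ε u) (hM : MolP n δ η B) (hδ : ∀ a, 4 * δ ≤ C.r a) (γ : Γ)
    (a : C.I) : ∀ z ∈ ball (C.c a) (11 / 4 * C.r a), ContDiffAt ℝ ∞ (mo η (u γ a)) z := by
  have hr := C.r_pos a
  have hd := hδ a
  exact (hM.2.2.2.2.2 (C.c a) (11 / 4 * C.r a) (3 * C.r a) (by positivity) (by linarith) _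
    (h.cdOn γ a)).1

lemma fderiv_sq (h : App C η C₁ ε u) (hM : MolP n δ η B) (hδ : ∀ a, 4 * δ ≤ C.r a) (γ : Γ)
    (a : C.I) : ∀ z ∈ ball (C.c a) (11 / 4 * C.r a),
      ‖fderiv ℝ (mo η (u γ a)) z‖ ^ 2 ≤ B * C₁ := by
  intro z hz
  have hr := C.r_pos a
  have hd := hδ a
  have h1 := (hM.2.2.2.2.2 (C.c a) (11 / 4 * C.r a) (3 * C.r a) (by positivity) (by linarith) _
    (h.cdOn γ a)).2.2.2.2.2.1 z hz
  exact h1.trans (mul_le_mul_of_nonneg_left (h.d1 γ a) hM.1.le)

lemma fderiv_le (h : App C η C₁ ε u) (hM : MolP n δ η B) (hδ : ∀ a, 4 * δ ≤ C.r a) (γ : Γ)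
    (a : C.I) : ∀ z ∈ ball (C.c a) (11 / 4 * C.r a),
      ‖fderiv ℝ (mo η (u γ a)) z‖ ≤ √(B * C₁) := fun z hz =>
  Real.le_sqrt_of_sq_le (h.fderiv_sq hM hδ γ a z hz)

lemma fderiv_lip (h : App C η C₁ ε u) (hM : MolP n δ η B) (hδ : ∀ a, 4 * δ ≤ C.r a) (γ : Γ)
    (a : C.I) : ∀ z ∈ ball (C.c a) (11 / 4 * C.r a), ∀ z' ∈ ball (C.c a) (11 / 4 * C.r a),
      ‖fderiv ℝ (mo η (u γ a)) z - fderiv ℝ (mo η (u γ a)) z'‖ ≤ √(B * C₁) * ‖z - z'‖ := by
  intro z hz z' hz'
  have hr := C.r_pos a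
  have hd := hδ a
  have h1 := (hM.2.2.2.2.2 (C.c a) (11 / 4 * C.r a) (3 * C.r a) (by positivity) (by linarith) _
    (h.cdOn γ a)).2.2.2.2.2.2 z hz z' hz'
  have h2 : ‖fderiv ℝ (mo η (u γ a)) z - fderiv ℝ (mo η (u γ a)) z'‖ ^ 2 ≤
      (B * C₁) * ‖z - z'‖ ^ 2 := by
    refine h1.trans ?_
    have h3 := mul_le_mul_of_nonneg_left (h.d1 γ a)
      (mul_nonneg hM.1.le (sq_nonneg ‖z - z'‖))
    calc _ ≤ B * ‖z - z'‖ ^ 2 * C₁ := h3
      _ = _ := by ring
  have h4 := Real.le_sqrt_of_sq_le h2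
  rwa [Real.sqrt_mul' _ (sq_nonneg _), Real.sqrt_sq (norm_nonneg _)] at h4

lemma lip (h : App C η C₁ ε u) (hM : MolP n δ η B) (hδ : ∀ a, 4 * δ ≤ C.r a) (γ : Γ)
    (a : C.I) : ∀ z ∈ ball (C.c a) (11 / 4 * C.r a), ∀ z' ∈ ball (C.c a) (11 / 4 * C.r a),
      |mo η (u γ a) z - mo η (u γ a) z'| ≤ √(B * C₁) * ‖z - z'‖ := by
  intro z hz z' hz'
  have := Convex.norm_image_sub_le_of_norm_fderiv_le (𝕜 := ℝ) (f := mo η (u γ a))
    (fun x hx => (h.smooth_mo hM hδ γ a x hx).differentiableAt (by simp))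
    (fun x hx => h.fderiv_le hM hδ γ a x hx) (convex_ball _ _) hz' hz
  simpa using this

lemma sub_two (C : Coc n Γ) (a : C.I) :
    closedBall (C.c a) (2 * C.r a) ⊆ ball (C.c a) (11 / 4 * C.r a) :=
  closedBall_subset_ball (by linarith [C.r_pos a])

lemma diff_cont (h : App C η C₁ ε u) (hM : MolP n δ η B) (hδ : ∀ a, 4 * δ ≤ C.r a) (γ : Γ)
    (a : C.I) : ContinuousOn (fun y => (u γ a y - mo η (u γ a) y) ^ 2)
      (closedBall (C.c a) (2 * C.r a)) := by
  intro z hz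
  have h1 := (h.cdOn γ a z (closedBall_subset_closedBall (by linarith [C.r_pos a]) hz)).continuousAt
  have h2 := (h.smooth_mo hM hδ γ a z (sub_two C a hz)).continuousAt
  exact ((h1.sub h2).pow 2).continuousWithinAt

lemma diff_int (h : App C η C₁ ε u) (hM : MolP n δ η B) (hδ : ∀ a, 4 * δ ≤ C.r a) (γ : Γ)
    (a : C.I) : IntegrableOn (fun y => (u γ a y - mo η (u γ a) y) ^ 2)
      (ball (C.c a) (2 * C.r a)) :=
  ((h.diff_cont hM hδ γ a).integrableOn_compact (isCompact_closedBall _ _)).mono_set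
    ball_subset_closedBall

lemma diff_le (h : App C η C₁ ε u) (hM : MolP n δ η B) (hδ : ∀ a, 4 * δ ≤ C.r a) (γ : Γ)
    (a : C.I) : ∫ y in ball (C.c a) (2 * C.r a), (u γ a y - mo η (u γ a) y) ^ 2 ≤ B * ε := by
  have hr := C.r_pos a
  have hd := hδ a
  have h1 := (hM.2.2.2.2.2 (C.c a) (2 * C.r a) (3 * C.r a) (by positivity) (by linarith) _
    (h.cdOn γ a)).2.2.2.1
  exact h1.trans (mul_le_mul_of_nonneg_left (h.d2 γ a) hM.1.le)

lemma eps_nonneg (h : App C η C₁ ε u) : 0 ≤ ε := by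
  refine le_trans ?_ (h.d2 1 (Classical.arbitrary C.I))
  refine integral_nonneg fun z => ?_
  exact Finset.sum_nonneg fun j _ => Finset.sum_nonneg fun k _ => sq_nonneg _

end App

/-- The mollified functions on two balls are close to each other at a point of the overlap. -/
lemma close (hM : MolP n δ η B) (hδ : ∀ a, 4 * δ ≤ C.r a) (C₁ : ℝ) {a b : C.I} {z : Cm n}
    (hz : z ∈ C.O a b) (h1 : z ∈ ball (C.c a) (2 * C.r a))
    (h2 : C.T a b z ∈ ball (C.c b) (2 * C.r b)) {κ : ℝ} (hκ : 0 < κ) :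
    ∃ ε₀ : ℝ, 0 < ε₀ ∧ ∀ ε ≤ ε₀, ∀ u : Γ → C.I → Cm n → ℝ, App C η C₁ ε u → ∀ γ : Γ,
      |mo η (u γ a) z - mo η (u (γ * C.κ a b z) b) (C.T a b z)| ≤ κ := by
  obtain ⟨s₀, hs₀, hs⟩ := small_ball C hz h1 h2
  obtain ⟨D, hD0, hD⟩ := change C
  set s := s₀ / 2 with hsdef
  have hs1 : 0 < s := by positivity
  have hss : closedBall z s ⊆ ball z s₀ := closedBall_subset_ball (by linarith)
  have hss' : ball z s ⊆ ball z s₀ := ball_subset_closedBall.trans hss
  set L := √(B * C₁) with hL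
  have hL0 : 0 ≤ L := Real.sqrt_nonneg _
  have hM0 : 0 ≤ C.M := zero_le_one.trans C.M_one
  set L' := L + L * C.M with hL'
  have hL'0 : 0 ≤ L' := by positivity
  have hB := hM.1
  set t := min s (κ / (2 * (L' + 1))) with ht
  have ht0 : 0 < t := lt_min hs1 (by positivity)
  have hts : t ≤ s := min_le_left _ _
  have hLt : L' * t ≤ κ / 2 := by
    calc L' * t ≤ (L' + 1) * (κ / (2 * (L' + 1))) := by
          apply mul_le_mul (by linarith) (min_le_right _ _) ht0.le (by linarith)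
      _ = κ / 2 := by field_simp
  set vv := (volume : Measure (Cm n)).real (ball z t) with hvv
  have hv : 0 < vv := by
    rw [hvv, measureReal_def]
    exact ENNReal.toReal_pos (measure_ball_pos _ _ ht0).ne' measure_ball_lt_top.ne
  set A := 2 * B + 2 * (D * B) with hA
  have hA0 : 0 < A := by positivity
  refine ⟨vv * κ ^ 2 / (4 * A), by positivity, fun ε hε u hu γ => ?_⟩
  set γ' := γ * C.κ a b z with hγ'
  set h : Cm n → ℝ := fun y => mo η (u γ a) y - mo η (u γ' b) (C.T a b y) with hh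
  have hTlip : ∀ y ∈ ball z s₀, ‖C.T a b y - C.T a b z‖ ≤ C.M * ‖y - z‖ := by
    intro y hy
    refine Convex.norm_image_sub_le_of_norm_fderiv_le (𝕜 := ℂ) (f := C.T a b)
      (fun x hx => T_diff C (hs x hx).1) (fun x hx => ?_) (convex_ball z s₀)
      (mem_ball_self hs₀) hy
    refine C.T_le a b x (hs x hx).1 (ball_subset_ball (by linarith [C.r_pos a]) (hs x hx).2.1)
      (ball_subset_ball (by linarith [C.r_pos b]) (hs x hx).2.2.1)
  have hsub : ∀ (a : C.I) (y : Cm n), y ∈ ball (C.c a) (2 * C.r a) →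
      y ∈ ball (C.c a) (11 / 4 * C.r a) := fun a y hy =>
    ball_subset_ball (by linarith [C.r_pos a]) hy
  have hlip : ∀ y ∈ ball z s, |h y - h z| ≤ L' * ‖y - z‖ := by
    intro y hy
    have hy0 := hss' hy
    have e1 := hu.lip hM hδ γ a y (hsub a y (hs y hy0).2.1) z (hsub a z h1)
    have e2 := hu.lip hM hδ γ' b (C.T a b y) (hsub b _ (hs y hy0).2.2.1) (C.T a b z) (hsub b _ h2)
    have e3 := mul_le_mul_of_nonneg_left (hTlip y hy0) hL0
    calc |h y - h z| = |(mo η (u γ a) y - mo η (u γ a) z) -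
          (mo η (u γ' b) (C.T a b y) - mo η (u γ' b) (C.T a b z))| := by
          rw [hh]; ring_nf
      _ ≤ L * ‖y - z‖ + L * ‖C.T a b y - C.T a b z‖ := (abs_sub _ _).trans (add_le_add e1 e2)
      _ ≤ L' * ‖y - z‖ := by rw [hL']; nlinarith
  -- the functions
  set p : Cm n → ℝ := fun y => (u γ a y - mo η (u γ a) y) ^ 2 with hp
  set g : Cm n → ℝ := fun y => (u γ' b y - mo η (u γ' b) y) ^ 2 with hg
  have hpi : IntegrableOn p (ball (C.c a) (2 * C.r a)) := hu.diff_int hM hδ γ a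
  have hgi : IntegrableOn g (ball (C.c b) (2 * C.r b)) := hu.diff_int hM hδ γ' b
  have hsa : ball z s ⊆ ball (C.c a) (2 * C.r a) := fun y hy => (hs y (hss' hy)).2.1
  have hTc : ContinuousOn (C.T a b) (closedBall z s) := fun y hy =>
    (T_diff C (hs y (hss hy)).1).continuousAt.continuousWithinAt
  have hgT : IntegrableOn (fun y => g (C.T a b y)) (ball z s) := by
    refine (ContinuousOn.integrableOn_compact (isCompact_closedBall z s) ?_).mono_set
      ball_subset_closedBall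
    refine (hu.diff_cont hM hδ γ' b).comp hTc ?_
    intro y hy
    exact ball_subset_closedBall (hs y (hss hy)).2.2.1
  have hpz : IntegrableOn p (ball z s) := hpi.mono_set hsa
  have hhc : ContinuousOn (fun y => h y ^ 2) (closedBall z s) := by
    refine ContinuousOn.pow (ContinuousOn.sub ?_ ?_) 2
    · intro y hy
      exact (hu.smooth_mo hM hδ γ a y (hsub a y (hs y (hss hy)).2.1)).continuousAt.continuousWithinAt
    · refine ContinuousOn.comp (g := mo η (u γ' b)) (t := ball (C.c b) (11 / 4 * C.r b))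
        (fun y hy =>
        (hu.smooth_mo hM hδ γ' b y hy).continuousAt.continuousWithinAt) hTc ?_
      intro y hy
      exact hsub b _ (hs y (hss hy)).2.2.1
  have hhi : IntegrableOn (fun y => h y ^ 2) (ball z s) :=
    (hhc.integrableOn_compact (isCompact_closedBall z s)).mono_set ball_subset_closedBall
  have hτ : ∫ y in ball z s, h y ^ 2 ≤ A * ε := by
    have e1 : ∫ y in ball z s, h y ^ 2 ≤ ∫ y in ball z s, (2 * p y + 2 * g (C.T a b y)) := by
      refine setIntegral_mono_on hhi ((hpz.const_mul 2).add (hgT.const_mul 2))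
        measurableSet_ball fun y hy => ?_
      have hy0 := hs y (hss' hy)
      have e2 : u γ a y = u γ' b (C.T a b y) := by
        rw [hu.compat γ a b y hy0.1, hy0.2.2.2]
      have e3 : h y = -(u γ a y - mo η (u γ a) y) +
          (u γ' b (C.T a b y) - mo η (u γ' b) (C.T a b y)) := by
        rw [hh, e2]; ring
      show h y ^ 2 ≤ 2 * p y + 2 * g (C.T a b y)
      rw [e3]
      simp only [hp, hg]
      nlinarith [sq_nonneg ((u γ a y - mo η (u γ a) y) +
        (u γ' b (C.T a b y) - mo η (u γ' b) (C.T a b y)))]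
    have e4 : ∫ y in ball z s, (2 * p y + 2 * g (C.T a b y)) =
        2 * (∫ y in ball z s, p y) + 2 * (∫ y in ball z s, g (C.T a b y)) := by
      rw [integral_add (hpz.const_mul 2) (hgT.const_mul 2), integral_const_mul,
        integral_const_mul]
    have e5 : ∫ y in ball z s, p y ≤ B * ε := by
      refine le_trans ?_ (hu.diff_le hM hδ γ a)
      exact setIntegral_mono_set hpi (Eventually.of_forall fun y => sq_nonneg _) hsa.eventuallyLE
    have e6 : ∫ y in ball z s, g (C.T a b y) ≤ D * (B * ε) := by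
      refine le_trans (hD a b (ball z s) isOpen_ball (fun y hy => (hs y (hss' hy)).1)
        (fun y hy => ball_subset_ball (by linarith [C.r_pos a]) (hs y (hss' hy)).2.1)
        (fun y hy => ball_subset_ball (by linarith [C.r_pos b]) (hs y (hss' hy)).2.2.1)
        g (fun y => sq_nonneg _) hgT (ball (C.c b) (2 * C.r b)) measurableSet_ball
        (fun y hy => (hs y (hss' hy)).2.2.1) hgi) ?_
      exact mul_le_mul_of_nonneg_left (hu.diff_le hM hδ γ' b) hD0
    rw [e4] at e1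
    calc _ ≤ _ := e1
      _ ≤ 2 * (B * ε) + 2 * (D * (B * ε)) := by linarith
      _ = A * ε := by rw [hA]; ring
  have key := sq_le_of_lip (μ := volume) hts hlip hL'0 hhi measure_ball_lt_top.ne hτ
  have hε2 : A * ε ≤ vv * κ ^ 2 / 4 := by
    calc A * ε ≤ A * (vv * κ ^ 2 / (4 * A)) := mul_le_mul_of_nonneg_left hε hA0.le
      _ = _ := by field_simp
  have h3 : vv * h z ^ 2 ≤ vv * κ ^ 2 := by
    have e1 : (L' * t) ^ 2 ≤ (κ / 2) ^ 2 := pow_le_pow_left₀ (by positivity) hLt 2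
    have e2 : vv * (2 * (L' * t) ^ 2) ≤ vv * (2 * (κ / 2) ^ 2) := by
      apply mul_le_mul_of_nonneg_left _ hv.le
      linarith
    calc vv * h z ^ 2 ≤ 2 * (A * ε) + vv * (2 * (L' * t) ^ 2) := key
      _ ≤ 2 * (vv * κ ^ 2 / 4) + vv * (2 * (κ / 2) ^ 2) := by linarith
      _ = vv * κ ^ 2 := by ring
  have h4 : h z ^ 2 ≤ κ ^ 2 := le_of_mul_le_mul_left h3 hv
  exact abs_le_of_sq_le_sq h4 hκ.le

end Vale.Agent.P284.H35.V
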