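import Vale.Agent.P284.H409.SpecA
import Vale.Agent.P284.H730.VP

/-!
# P284, theorem A: pointwise algebra of `|∂ψ ∧ ∂u|²`
-/

open scoped Manifold ContDiff Topology Pointwise ComplexConjugate ComplexOrder ENNReal Matrix
open Filter Set Metric MeasureTheory

noncomputable section

namespace Vale.Agent.P284.H35.A9

open Vale.Agent.P272.K Vale.Agent.P284.H894.V
open Vale.Agent.P284.H409.A
open Vale.Agent.P284.H730.V hiding dd

variable {n : ℕ} {M w : Matrix (Fin n) (Fin n) ℂ} {a b θ p : Fin n → ℂ}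

theorem Sc_left (c : ℂ) (a b : Fin n → ℂ) : S M (c • a) b = c * S M a b := by
  simp only [S_eq, Matrix.mulVec_smul, dotProduct_smul, smul_eq_mul]

theorem Sc_right (c : ℂ) (a b : Fin n → ℂ) : S M a (c • b) = conj c * S M a b := by
  simp only [S_eq, star_smul, smul_dotProduct, smul_eq_mul]
  rfl

theorem S_sub_left (a a' b : Fin n → ℂ) : S M (a - a') b = S M a b - S M a' b := by
  simp only [S_eq, Matrix.mulVec_sub, dotProduct_sub]

theorem S_sub_right (a b b' : Fin n → ℂ) : S M a (b - b') = S M a b - S M a b' := by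
  simp only [S_eq, star_sub, sub_dotProduct]

theorem S_real (hM : M.IsHermitian) (a : Fin n → ℂ) : ((S M a a).re : ℂ) = S M a a := by
  have h := S_conj (a := a) (b := a) hM
  exact Complex.conj_eq_iff_re.1 h

/-- the value of the form at `β a - α b`, `α = S a b`, `β = S b b` -/
theorem S_proj (hM : M.IsHermitian) (a b : Fin n → ℂ) :
    (S M (((S M b b).re : ℂ) • a - S M a b • b) (((S M b b).re : ℂ) • a - S M a b • b)).re =
      (S M b b).re * ((S M a a).re * (S M b b).re - ‖S M a b‖ ^ 2) := by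
  have h1 : S M b a = conj (S M a b) := (S_conj hM).symm
  have h2 : S M a b * conj (S M a b) = ((‖S M a b‖ ^ 2 : ℝ) : ℂ) := by
    rw [Complex.mul_conj, Complex.normSq_eq_norm_sq]
  have h3 := S_real hM a
  have h4 := S_real hM b
  have key : S M (((S M b b).re : ℂ) • a - S M a b • b) (((S M b b).re : ℂ) • a - S M a b • b) =
      (((S M b b).re * ((S M a a).re * (S M b b).re - ‖S M a b‖ ^ 2) : ℝ) : ℂ) := by
    rw [S_sub_left, S_sub_right, S_sub_right, Sc_left, Sc_left, Sc_left, Sc_left, Sc_right, Sc_right,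
      Sc_right, Sc_right, h1, Complex.conj_ofReal]
    push_cast at h2 ⊢
    generalize (S M b b).re = β at *
    generalize (S M a a).re = γ at *
    rw [← h3, ← h4]
    linear_combination (-(β : ℂ)) * h2
  rw [key, Complex.ofReal_re]

theorem S_cs (hM : M.PosDef) (a b : Fin n → ℂ) :
    ‖S M a b‖ ^ 2 ≤ (S M a a).re * (S M b b).re := by
  by_cases hb : b = 0
  · subst hb
    simp [S]
  have h0 : 0 < (S M b b).re := by
    rw [S_eq]
    exact (Complex.lt_def.1 (hM.dotProduct_mulVec_pos hb)).1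
  have h1 := S_nonneg hM.posSemidef (((S M b b).re : ℂ) • a - S M a b • b)
  rw [S_proj hM.isHermitian] at h1
  nlinarith [nonneg_of_mul_nonneg_right h1 h0]

/-- `|θ ∧ p|²` -/
def wd (M : Matrix (Fin n) (Fin n) ℂ) (θ p : Fin n → ℂ) : ℝ :=
  (S M θ θ).re * (S M p p).re - ‖S M p θ‖ ^ 2

theorem wd_nonneg (hM : M.PosDef) (θ p : Fin n → ℂ) : 0 ≤ wd M θ p := by
  have := S_cs hM p θ
  unfold wd
  nlinarith

theorem wd_smul (c : ℂ) (θ p : Fin n → ℂ) : wd M θ (c • p) = ‖c‖ ^ 2 * wd M θ p := by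
  have h2 : c * conj c = ((‖c‖ ^ 2 : ℝ) : ℂ) := by
    rw [Complex.mul_conj, Complex.normSq_eq_norm_sq]
  unfold wd
  rw [Sc_left, Sc_left, Sc_right, ← mul_assoc, h2, Complex.re_ofReal_mul, norm_mul]
  ring

theorem wd_pull {J : Matrix (Fin n) (Fin n) ℂ} (θ p : Fin n → ℂ) :
    wd M (Jᵀ *ᵥ θ) (Jᵀ *ᵥ p) = wd (J.map (starRingEnd ℂ) * M * Jᵀ) θ p := by
  unfold wd
  rw [S_pull, S_pull, S_pull]

/-- duality -/
theorem dual_le (hw : w.PosDef) (q v : Fin n → ℂ) :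
    ‖∑ j, q j * v j‖ ^ 2 ≤ (S w⁻¹ q q).re * (∑ j, ∑ k, w j k * v j * conj (v k)).re := by
  have h1 : ∑ j, q j * v j = S w (w⁻¹ *ᵥ q) (fun j => conj (v j)) := by
    rw [S_eq, S_inv_eq hw]
    simp only [dotProduct, Pi.star_apply, RCLike.star_def, Complex.conj_conj]
    exact Finset.sum_congr rfl fun j _ => mul_comm _ _
  rw [h1, S_inv_val hw, form_eq]
  exact S_cs hw _ _

/-- along the kernel of `θ` -/
theorem fibre_le (hw : w.PosDef) {θ p v : Fin n → ℂ} (hv : ∑ j, θ j * v j = 0)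
    (h0 : 0 < (S w⁻¹ θ θ).re) :
    (S w⁻¹ θ θ).re * ‖∑ j, p j * v j‖ ^ 2 ≤
      wd w⁻¹ θ p * (∑ j, ∑ k, w j k * v j * conj (v k)).re := by
  have hM := hw.inv
  set β := (S w⁻¹ θ θ).re with hβ
  set α := S w⁻¹ p θ with hα
  have h1 := dual_le hw ((β : ℂ) • p - α • θ) v
  rw [S_proj hM.isHermitian, ← hβ, ← hα] at h1
  have h2 : ∑ j, ((β : ℂ) • p - α • θ) j * v j = β * ∑ j, p j * v j := by
    have : ∀ j, ((β : ℂ) • p - α • θ) j * v j = β * (p j * v j) - α * (θ j * v j) := fun j => by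
      simp only [Pi.sub_apply, Pi.smul_apply, smul_eq_mul]
      ring
    simp only [this]
    rw [Finset.sum_sub_distrib, ← Finset.mul_sum, ← Finset.mul_sum, hv, mul_zero, sub_zero]
  rw [h2, norm_mul, Complex.norm_real, Real.norm_eq_abs, abs_of_pos h0] at h1
  have h3 : wd w⁻¹ θ p = (S w⁻¹ p p).re * β - ‖α‖ ^ 2 := by
    unfold wd
    rw [← hβ, ← hα]
    ring
  rw [h3]
  refine le_of_mul_le_mul_left ?_ h0
  calc β * (β * ‖∑ j, p j * v j‖ ^ 2) = (β * ‖∑ j, p j * v j‖) ^ 2 := by ring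
    _ ≤ _ := h1
    _ = _ := by ring

/-! ### `W1`, `W2` -/

section
variable {w : Cm n → Matrix (Fin n) (Fin n) ℂ} {ψ : Cm n → ℝ} {u : Cm n → ℂ} {z : Cm n}

theorem W1_eq : W1 w ψ u z = wd (w z)⁻¹ (dd (fun y => (ψ y : ℂ)) z) (dd u z) := rfl

theorem W1_nonneg (hw : (w z).PosDef) : 0 ≤ W1 w ψ u z := wd_nonneg hw.inv _ _

theorem W2_nonneg (hw : (w z).PosDef) : 0 ≤ W2 w ψ u z := wd_nonneg hw.inv _ _

theorem dd_affine (hu : DifferentiableAt ℝ u z) (c f : ℂ) :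
    dd (fun y => c * u y + f) z = c • dd u z := by
  ext j
  show dz j (fun y => c * u y + f) z = c * dz j u z
  rw [C2.dz_add j (hu.const_mul c) (differentiableAt_const f), C2.dz_const_mul j c hu,
    C2.dz_const, add_zero]

theorem dd_congr {u u' : Cm n → ℂ} (h : u =ᶠ[𝓝 z] u') : dd u z = dd u' z :=
  funext fun j => C2.dz_congr j h

theorem dd_compT {T : Cm n → Cm n} {u' : Cm n → ℂ} (hT : DifferentiableAt ℂ T z)
    (hu' : DifferentiableAt ℝ u' (T z)) :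
    dd (fun y => u' (T y)) z = (jmat T z)ᵀ *ᵥ dd u' (T z) := by
  ext i
  show dz i (fun y => u' (T y)) z = _
  rw [dz_comp_holo hu' hT]
  simp only [Matrix.mulVec, dotProduct, Matrix.transpose_apply, dd]
  exact Finset.sum_congr rfl fun p _ => mul_comm _ _

/-- the law of change of coordinates and of sheet -/
theorem W1_law {w' : Cm n → Matrix (Fin n) (Fin n) ℂ} {ψ' : Cm n → ℝ} {u' : Cm n → ℂ}
    {T : Cm n → Cm n} (hT : DifferentiableAt ℂ T z) (hw : (w z).det ≠ 0)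
    (hlaw : w z = (jmat T z)ᵀ * w' (T z) * (jmat T z).map (starRingEnd ℂ))
    (hψ' : DifferentiableAt ℝ ψ' (T z)) (hu' : DifferentiableAt ℝ u' (T z)) {c : ℝ} {χ f : ℂ}
    (eψ : ∀ᶠ y in 𝓝 z, ψ y = ψ' (T y) + c) (eu : ∀ᶠ y in 𝓝 z, u y = χ * u' (T y) + f) :
    W1 w ψ u z = ‖χ‖ ^ 2 * W1 w' ψ' u' (T z) := by
  have hTr : DifferentiableAt ℝ T z := hT.restrictScalars ℝ
  have h1 : dd u z = χ • ((jmat T z)ᵀ *ᵥ dd u' (T z)) := by
    rw [dd_congr eu, dd_affine (u := fun y => u' (T y)) (hu'.comp z hTr), dd_compT hT hu']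
  have h2 : dd (fun y => (ψ y : ℂ)) z = (jmat T z)ᵀ *ᵥ dd (fun y => (ψ' y : ℂ)) (T z) := by
    have h3 : (fun y => (ψ y : ℂ)) =ᶠ[𝓝 z] fun y => 1 * (ψ' (T y) : ℂ) + (c : ℂ) := by
      filter_upwards [eψ] with y hy
      rw [hy]
      push_cast
      ring
    have h4 : DifferentiableAt ℝ (fun y => (ψ' y : ℂ)) (T z) := C2.differentiableAt_ofReal hψ'
    rw [dd_congr h3, dd_affine (u := fun y => (ψ' (T y) : ℂ)) (h4.comp z hTr),
      dd_compT (u' := fun y => (ψ' y : ℂ)) hT h4, one_smul]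
  rw [W1_eq, W1_eq, h1, h2, wd_smul, wd_pull, inv_law hw hlaw]

theorem conj_affine {u' : Cm n → ℂ} {T : Cm n → Cm n} {χ f : ℂ}
    (eu : ∀ᶠ y in 𝓝 z, u y = χ * u' (T y) + f) :
    ∀ᶠ y in 𝓝 z, conj (u y) = conj χ * conj (u' (T y)) + conj f := by
  filter_upwards [eu] with y hy
  rw [hy, map_add, map_mul]

theorem W_law {w' : Cm n → Matrix (Fin n) (Fin n) ℂ} {ψ' : Cm n → ℝ} {u' : Cm n → ℂ}
    {T : Cm n → Cm n} (hT : DifferentiableAt ℂ T z) (hw : (w z).det ≠ 0)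
    (hlaw : w z = (jmat T z)ᵀ * w' (T z) * (jmat T z).map (starRingEnd ℂ))
    (hψ' : DifferentiableAt ℝ ψ' (T z)) (hu' : DifferentiableAt ℝ u' (T z)) {c : ℝ} {χ f : ℂ}
    (eψ : ∀ᶠ y in 𝓝 z, ψ y = ψ' (T y) + c) (eu : ∀ᶠ y in 𝓝 z, u y = χ * u' (T y) + f) :
    W1 w ψ u z + W2 w ψ u z = ‖χ‖ ^ 2 * (W1 w' ψ' u' (T z) + W2 w' ψ' u' (T z)) := by
  have h2 := W1_law (u := fun y => conj (u y)) (u' := fun y => conj (u' y)) hT hw hlaw hψ'
    (C2.differentiableAt_conj hu') eψ (conj_affine eu)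
  rw [W1_law hT hw hlaw hψ' hu' eψ eu, W2, W2, h2, RCLike.norm_conj]
  ring

/-- the law of change of sheet -/
theorem W_aff {ψ' : Cm n → ℝ} {u' : Cm n → ℂ}
    (hψ' : DifferentiableAt ℝ ψ' z) (hu' : DifferentiableAt ℝ u' z) {c : ℝ} {χ f : ℂ}
    (eψ : ∀ᶠ y in 𝓝 z, ψ y = ψ' y + c) (eu : ∀ᶠ y in 𝓝 z, u y = χ * u' y + f) :
    W1 w ψ u z + W2 w ψ u z = ‖χ‖ ^ 2 * (W1 w ψ' u' z + W2 w ψ' u' z) := by
  have h0 : dd (fun y => (ψ y : ℂ)) z = dd (fun y => (ψ' y : ℂ)) z := by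
    have h3 : (fun y => (ψ y : ℂ)) =ᶠ[𝓝 z] fun y => 1 * (ψ' y : ℂ) + (c : ℂ) := by
      filter_upwards [eψ] with y hy
      rw [hy]
      push_cast
      ring
    rw [dd_congr h3, dd_affine (C2.differentiableAt_ofReal hψ'), one_smul]
  have h1 : dd u z = χ • dd u' z := by rw [dd_congr eu, dd_affine hu']
  have h2 : dd (fun y => conj (u y)) z = conj χ • dd (fun y => conj (u' y)) z := by
    rw [dd_congr (conj_affine (T := id) eu)]
    exact dd_affine (u := fun y => conj (u' y)) (C2.differentiableAt_conj hu') _ _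
  rw [W2, W2, W1_eq, W1_eq, W1_eq, W1_eq, h0, h1, h2, wd_smul, wd_smul, RCLike.norm_conj]
  ring

/-- continuity -/
theorem dd_cont {u : Cm n → ℂ} (hu : ContDiffAt ℝ ∞ u z) (j : Fin n) :
    ContinuousAt (fun y => dd u y j) z :=
  (C2.contDiffAt_dz (m := 0) j hu (by simp)).continuousAt

theorem S_cont {w : Cm n → Matrix (Fin n) (Fin n) ℂ} {a b : Cm n → Fin n → ℂ}
    (hw : C2.MC ∞ w z) (h0 : (w z).det ≠ 0) (ha : ∀ j, ContinuousAt (fun y => a y j) z)
    (hb : ∀ j, ContinuousAt (fun y => b y j) z) :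
    ContinuousAt (fun y => S (w y)⁻¹ (a y) (b y)) z := by
  have h1 := hw.inv h0
  unfold S
  refine tendsto_finsetSum _ fun j _ => tendsto_finsetSum _ fun k _ => ?_
  exact ((h1 k j).continuousAt.mul (ha j)).mul (Complex.continuous_conj.continuousAt.comp (hb k))

theorem wd_cont {w : Cm n → Matrix (Fin n) (Fin n) ℂ} {a b : Cm n → Fin n → ℂ}
    (hw : C2.MC ∞ w z) (h0 : (w z).det ≠ 0) (ha : ∀ j, ContinuousAt (fun y => a y j) z)
    (hb : ∀ j, ContinuousAt (fun y => b y j) z) :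
    ContinuousAt (fun y => wd (w y)⁻¹ (a y) (b y)) z := by
  unfold wd
  exact ((Complex.continuous_re.continuousAt.comp (S_cont hw h0 ha ha)).mul
    (Complex.continuous_re.continuousAt.comp (S_cont hw h0 hb hb))).sub
    ((S_cont hw h0 hb ha).norm.pow 2)

theorem W_cont (hw : C2.MC ∞ w z) (h0 : (w z).det ≠ 0) (hψ : ContDiffAt ℝ ∞ ψ z)
    (hu : ContDiffAt ℝ ∞ u z) : ContinuousAt (fun y => W1 w ψ u y + W2 w ψ u y) z :=
  (wd_cont hw h0 (dd_cont (C2.contDiffAt_ofReal hψ)) (dd_cont hu)).add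
    (wd_cont hw h0 (dd_cont (C2.contDiffAt_ofReal hψ)) (dd_cont (C2.contDiffAt_conj hu)))

end

end Vale.Agent.P284.H35.A9
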