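import Vale.Agent.P284.H35.ToE
import Vale.Agent.P284.H35.TwAlg

/-!
# P284, theorem A, row AE: twisted functions on the covering space
-/

open scoped Manifold ContDiff Topology Pointwise ComplexConjugate ComplexOrder ENNReal Matrix
open Filter Set Metric MeasureTheory

noncomputable section

namespace Vale.Agent.P284.H35.A9

open Vale.Agent.P272.K Vale.Agent.P284.H248 Vale.Agent.P284.H894 Vale.Agent.P284.H678
  Vale.Agent.P284.H894.G Vale.Agent.P284.H894.V Vale.Agent.P284.H639 Vale.Agent.P284.H639.V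
  Vale.Agent.P284.H446.V Vale.Agent.P284.H894.W Vale.Agent.P284.H913.V
open Vale.Agent.P284.H409.A

section base
variable {n : ℕ} {Γ : Type} [Group Γ] {C : Coc n Γ} {χ f : Γ → ℂ} {ψ : Γ → C.I → Cm n → ℝ}
  {u : Γ → C.I → Cm n → ℂ}

theorem psi_T (hψ : Psi C χ ψ) {a b : C.I} {z : Cm n} (hz : z ∈ C.O a b) :
    ∀ᶠ y in 𝓝 z, ψ 1 a y = ψ 1 b (C.T a b y) + Real.log ‖χ (C.κ a b z)‖ := by
  filter_upwards [(C.O_open a b).mem_nhds hz, C.κ_loc a b z hz] with y h1 h2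
  rw [hψ.compat 1 a b y h1, h2, one_mul]
  have h3 := hψ.equi (C.κ a b z) 1 b (C.T a b y) (C.O_sub b a (C.T_mem a b y h1))
  rwa [mul_one] at h3

theorem tw_T (hu : Tw C χ f u) {a b : C.I} {z : Cm n} (hz : z ∈ C.O a b) :
    ∀ᶠ y in 𝓝 z, u 1 a y = χ (C.κ a b z) * u 1 b (C.T a b y) + f (C.κ a b z) := by
  filter_upwards [(C.O_open a b).mem_nhds hz, C.κ_loc a b z hz] with y h1 h2
  rw [hu.compat 1 a b y h1, h2, one_mul]
  have h3 := hu.equi (C.κ a b z) 1 b (C.T a b y) (C.O_sub b a (C.T_mem a b y h1))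
  rwa [mul_one] at h3

/-- the integrand of the twisted Kähler identity on the base -/
def FW (K : KM C) (ψ : Γ → C.I → Cm n → ℝ) (u : Γ → C.I → Cm n → ℂ) (a : C.I) (z : Cm n) : ℝ :=
  Real.exp (-2 * ψ 1 a z) *
    (W1 (K.w a) (ψ 1 a) (u 1 a) z + W2 (K.w a) (ψ 1 a) (u 1 a) z)

theorem ku_mc {K : KM C} {a : C.I} {z : Cm n} (hz : z ∈ C.Ω a) : C2.MC ∞ (K.w a) z :=
  fun i j => (K.ku a).smooth z hz i j

theorem FW_BD (K : KM C) (hψ : Psi C χ ψ) (hu : Tw C χ f u) : BD C (FW K ψ u) where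
  cont a z hz := by
    refine ContinuousAt.continuousWithinAt ?_
    have h1 := hψ.smooth 1 a z hz
    refine ContinuousAt.mul ?_ (W_cont (ku_mc hz) ((K.ku a).pos z hz).det_pos.ne' h1
      (hu.smooth 1 a z hz))
    exact Real.continuous_exp.continuousAt.comp (continuousAt_const.mul h1.continuousAt)
  compat a b z hz _ _ := by
    have hzΩ : z ∈ C.Ω a := C.O_sub _ _ hz
    have hTΩ : C.T a b z ∈ C.Ω b := C.O_sub b a (C.T_mem a b z hz)
    have h1 := psi_T hψ hz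
    have h2 := W_law (w := K.w a) (w' := K.w b) (T_diff C hz)
      ((K.ku a).pos z hzΩ).det_pos.ne' (K.change a b z hz)
      ((hψ.smooth 1 b _ hTΩ).differentiableAt (by simp))
      ((hu.smooth 1 b _ hTΩ).differentiableAt (by simp)) h1 (tw_T hu hz)
    unfold FW
    rw [h2, h1.self_of_nhds]
    have h3 : 0 < ‖χ (C.κ a b z)‖ := norm_pos_iff.2 (hψ.ne _)
    have h4 : Real.exp (-2 * (ψ 1 b (C.T a b z) + Real.log ‖χ (C.κ a b z)‖)) =
        Real.exp (-2 * ψ 1 b (C.T a b z)) * (‖χ (C.κ a b z)‖ ^ 2)⁻¹ := by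
      rw [mul_add, Real.exp_add]
      congr 1
      rw [show -2 * Real.log ‖χ (C.κ a b z)‖ = -(2 * Real.log ‖χ (C.κ a b z)‖) by ring,
        Real.exp_neg, two_mul, Real.exp_add, Real.exp_log h3, sq]
    rw [h4]
    field_simp

theorem FW_nonneg (K : KM C) : ∀ a, ∀ z ∈ C.Ω a, 0 ≤ FW K ψ u a z := fun a z hz =>
  mul_nonneg (Real.exp_pos _).le
    (add_nonneg (W1_nonneg ((K.ku a).pos z hz)) (W2_nonneg ((K.ku a).pos z hz)))

/-- local bound by the integral over the base -/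
theorem local_le (P : PU C) (K : KM C) (hψ : Psi C χ ψ) (s : Γ) (a : C.I) :
    ∃ B : ℝ, ∀ u, Tw C χ f u → ∀ (z : Cm n) (ρ : ℝ), ball z ρ ⊆ C.V a →
      ∫⁻ y in ball z ρ, ENNReal.ofReal (W1 (K.w a) (ψ s a) (u s a) y +
        W2 (K.w a) (ψ s a) (u s a) y) ≤ ENNReal.ofReal (B * BInt P K (FW K ψ u)) := by
  have hr := C.r_pos a
  have hcl : closedBall (C.c a) (3 * C.r a) ⊆ C.Ω a := closedBall_subset_ball (by linarith)
  obtain ⟨m, hm⟩ := (isCompact_closedBall (C.c a) (3 * C.r a)).exists_bound_of_continuousOn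
    (f := ψ 1 a) fun z hz => (hψ.smooth 1 a z (hcl hz)).continuousAt.continuousWithinAt
  refine ⟨‖χ s‖ ^ 2 * (Real.exp (2 * m) * K.lam⁻¹), fun u hu z ρ hzρ => ?_⟩
  have hBD := FW_BD K hψ hu
  have h1 := BD.le P K hBD (FW_nonneg K) a
  have hint := BD.int_vol K hBD a
  set B : ℝ := ‖χ s‖ ^ 2 * (Real.exp (2 * m) * K.lam⁻¹) with hB
  have hB0 : 0 ≤ B := by
    have := K.lam_pos
    positivity
  have key : ∀ y ∈ C.V a, W1 (K.w a) (ψ s a) (u s a) y + W2 (K.w a) (ψ s a) (u s a) y ≤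
      B * (FW K ψ u a y * vol (K.w a) y) := by
    intro y hy
    have hyΩ : y ∈ C.Ω a := V_sub C a hy
    have e1 : ∀ᶠ y' in 𝓝 y, ψ s a y' = ψ 1 a y' + Real.log ‖χ s‖ := by
      filter_upwards [isOpen_ball.mem_nhds hyΩ] with y' hy'
      have := hψ.equi s 1 a y' hy'
      rwa [mul_one] at this
    have e2 : ∀ᶠ y' in 𝓝 y, u s a y' = χ s * u 1 a y' + f s := by
      filter_upwards [isOpen_ball.mem_nhds hyΩ] with y' hy'
      have := hu.equi s 1 a y' hy'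
      rwa [mul_one] at this
    rw [W_aff ((hψ.smooth 1 a y hyΩ).differentiableAt (by simp))
      ((hu.smooth 1 a y hyΩ).differentiableAt (by simp)) e1 e2]
    have hQ : 0 ≤ W1 (K.w a) (ψ 1 a) (u 1 a) y + W2 (K.w a) (ψ 1 a) (u 1 a) y :=
      add_nonneg (W1_nonneg ((K.ku a).pos y hyΩ)) (W2_nonneg ((K.ku a).pos y hyΩ))
    unfold FW
    set Q := W1 (K.w a) (ψ 1 a) (u 1 a) y + W2 (K.w a) (ψ 1 a) (u 1 a) y with hQd
    have h2 : 1 ≤ Real.exp (2 * m) * Real.exp (-2 * ψ 1 a y) := by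
      rw [← Real.exp_add]
      refine Real.one_le_exp ?_
      have h3 := hm y (ball_subset_closedBall hy)
      rw [Real.norm_eq_abs] at h3
      have h4 := le_abs_self (ψ 1 a y)
      linarith
    have h3 : 1 ≤ K.lam⁻¹ * vol (K.w a) y := by
      rw [← inv_mul_cancel₀ K.lam_pos.ne']
      exact mul_le_mul_of_nonneg_left (K.vol_low a y hyΩ) (inv_pos.2 K.lam_pos).le
    have h4 : 1 ≤ (Real.exp (2 * m) * Real.exp (-2 * ψ 1 a y)) * (K.lam⁻¹ * vol (K.w a) y) :=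
      one_le_mul_of_one_le_of_one_le h2 h3
    calc ‖χ s‖ ^ 2 * Q = ‖χ s‖ ^ 2 * Q * 1 := by ring
      _ ≤ ‖χ s‖ ^ 2 * Q * ((Real.exp (2 * m) * Real.exp (-2 * ψ 1 a y)) *
          (K.lam⁻¹ * vol (K.w a) y)) := mul_le_mul_of_nonneg_left h4 (by positivity)
      _ = _ := by rw [hB]; ring
  calc ∫⁻ y in ball z ρ, ENNReal.ofReal (W1 (K.w a) (ψ s a) (u s a) y +
        W2 (K.w a) (ψ s a) (u s a) y)
      ≤ ∫⁻ y in C.V a, ENNReal.ofReal (B * (FW K ψ u a y * vol (K.w a) y)) := by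
        refine (lintegral_mono_set hzρ).trans ?_
        refine setLIntegral_mono' (isOpen_V C a).measurableSet fun y hy => ?_
        exact ENNReal.ofReal_le_ofReal (key y hy)
    _ = ENNReal.ofReal (∫ y in C.V a, B * (FW K ψ u a y * vol (K.w a) y)) := by
        rw [ofReal_integral_eq_lintegral_ofReal (hint.const_mul B)]
        filter_upwards [ae_restrict_mem (isOpen_V C a).measurableSet] with y hy
        have hyΩ : y ∈ C.Ω a := V_sub C a hy
        exact mul_nonneg hB0 (mul_nonneg (FW_nonneg K a y hyΩ) (vol_nn K hyΩ))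
    _ ≤ _ := by
        refine ENNReal.ofReal_le_ofReal ?_
        rw [integral_const_mul]
        exact mul_le_mul_of_nonneg_left h1 hB0

end base

theorem elStmt : ElStmt := by
  intro hEx n X _ _ _ _ _ _ w hw E Γ _ _ _ _ p hGal G₁ hG₁ χ f ψ B hχ0 hχm hf hψ hψe hψn
  have := hG₁
  obtain ⟨C, P, K, S, hKS⟩ := exists_shsK n X w hw E Γ p hGal
  have hPsi : Psi (sb C G₁) (fun g : G₁ => χ g) (fam S G₁ ψ) := {
    ne := fun g => hχ0 g g.2
    smooth := fun s a z hz => (fam_phb S G₁ hGal hψ s a z hz).1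
    hess := fun s a z hz => (fam_phb S G₁ hGal hψ s a z hz).2
    compat := fam_compat S G₁ ψ
    equi := fun g s a z _ => fam_equi S G₁ ψ (fun g v => v + Real.log ‖χ g‖)
      (fun g y => hψe g g.2 y) g s a z }
  have hne : ∃ a, ∃ z ∈ (sb C G₁).Ω a, fderiv ℝ (fam S G₁ ψ 1 a) z ≠ 0 := by
    by_contra hcon
    push Not at hcon
    have hconst : ∀ (s : G₁) (a : (sb C G₁).I), ∀ z ∈ (sb C G₁).Ω a, ∀ z' ∈ (sb C G₁).Ω a,
        fam S G₁ ψ s a z = fam S G₁ ψ s a z' := by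
      intro s a z hz z' hz'
      have h1 : fam S G₁ ψ 1 a z = fam S G₁ ψ 1 a z' :=
        (isOpen_ball (x := (sb C G₁).c a)).is_const_of_fderiv_eq_zero
          (convex_ball _ _).isPreconnected
          (fun y hy => ((hPsi.smooth 1 a y hy).differentiableAt (by simp)).differentiableWithinAt)
          (fun y hy => hcon a y hy) hz hz'
      have h2 := hPsi.equi s 1 a z hz
      have h3 := hPsi.equi s 1 a z' hz'
      rw [mul_one] at h2 h3
      rw [h2, h3, h1]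
    obtain ⟨a₀⟩ := (sb C G₁).ne
    set v₀ := fam S G₁ ψ 1 a₀ ((sb C G₁).c a₀) with hv₀
    have hc₀ : (sb C G₁).c a₀ ∈ (sb C G₁).Ω a₀ :=
      mem_ball_self (by have := (sb C G₁).r_pos a₀; linarith)
    have hall : ∀ (s : G₁) (a : (sb C G₁).I), ∀ z ∈ (sb C G₁).Ω a, fam S G₁ ψ s a z = v₀ := by
      intro s a
      refine (sb C G₁).conn (fun s a => ∀ z ∈ (sb C G₁).Ω a, fam S G₁ ψ s a z = v₀) ?_ 1 a₀ s a
        (fun z hz => hconst 1 a₀ z hz _ hc₀)
      intro s a b z hz _ _ h z' hz'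
      rw [hconst _ b z' hz' _ ((sb C G₁).O_sub b a ((sb C G₁).T_mem a b z hz)),
        ← hPsi.compat s a b z hz]
      exact h z ((sb C G₁).O_sub a b hz)
    obtain ⟨y, y', hyy⟩ := hψn
    have hval : ∀ y, ψ y = v₀ := by
      intro y
      obtain ⟨γ, a, z, hz, rfl⟩ := S.cover y
      rw [← fam_hp S G₁ ψ γ a z]
      exact hall _ (a, cl G₁ γ) z (W_sub C a hz |> V_sub C a)
    exact hyy (by rw [hval, hval])
  have hex : ∀ j : ℕ, ∃ u, Tw (sb C G₁) (fun g : G₁ => χ g) (fun g : G₁ => f g) u ∧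
      BInt (PUsb P G₁) (KMsb K G₁) (FW (KMsb K G₁) (fam S G₁ ψ) u) < 1 / ((j : ℝ) + 1) := fun j =>
    hEx n G₁ (sb C G₁) (PUsb P G₁) (KMsb K G₁) (fun g => χ g) (fun g => f g) (fam S G₁ ψ)
      (fun g h => hχm g g.2 h h.2) (fun g h => hf g g.2 h h.2) hPsi hne _ (by positivity)
  choose u hu hub using hex
  have hU : ∀ j, ∃ U : E → ℂ, ∀ (γ : Γ) (a : C.I), ∀ z ∈ C.Ω a,
      U (γ • S.σ a z) = u j (hp G₁ γ) (a, cl G₁ γ) z := fun j =>
    exists_toE S G₁ (u j) (hu j).compat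
  choose U hU using hU
  refine ⟨U, fun j g hg y => toE_equi (hU j) (fun g v => χ g * v + f g) (hu j).equi ⟨g, hg⟩ y,
    fun y => ?_⟩
  obtain ⟨γ, a, z, hz, rfl⟩ := S.cover y
  have hr := C.r_pos a
  have hzΩ : z ∈ C.Ω a := V_sub C a (W_sub C a hz)
  obtain ⟨hAt, hez⟩ := p_sheet S hGal γ a z hzΩ
  have hball : ball z (C.r a) ⊆ C.V a := by
    intro y hy
    have h1 : dist y z < C.r a := hy
    have h2 : dist z (C.c a) < C.r a := hz
    have h3 := dist_triangle y z (C.c a)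
    show dist y (C.c a) < 3 * C.r a
    linarith
  obtain ⟨O, hO, hOo, hyO⟩ := _root_.mem_nhds_iff.1 (S.near γ a z hzΩ)
  refine ⟨S.e a, O, C.r a, fam S G₁ ψ (hp G₁ γ) (a, cl G₁ γ),
    fun j => u j (hp G₁ γ) (a, cl G₁ γ), hAt, hOo, hyO, hr, fun y' hy' => ?_, fun y' hy' => ?_,
    fun j y' hy' => ?_, ?_, ?_, ?_⟩
  · obtain ⟨h1, h2⟩ := hO hy'
    rw [← h2]
    exact (p_sheet S hGal γ a _ h1).1
  · obtain ⟨h1, h2⟩ := hO hy'
    rw [fam_hp S G₁ ψ, h2]
  · obtain ⟨h1, h2⟩ := hO hy'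
    have h3 := hU j γ a _ h1
    rw [h2] at h3
    exact h3
  · rw [hez]
    exact fun z' hz' => hPsi.smooth _ (a, cl G₁ γ) z' (V_sub C a (hball hz'))
  · rw [hez]
    exact fun j z' hz' => (hu j).smooth _ (a, cl G₁ γ) z' (V_sub C a (hball hz'))
  · rw [hez, ← hKS a]
    obtain ⟨B', hB'⟩ := local_le (f := fun g : G₁ => f g) (PUsb P G₁) (KMsb K G₁) hPsi
      (hp G₁ γ) (a, cl G₁ γ)
    have h1 : ∀ j, ∫⁻ y in ball z (C.r a), ENNReal.ofReal
        (W1 (K.w a) (fam S G₁ ψ (hp G₁ γ) (a, cl G₁ γ)) (u j (hp G₁ γ) (a, cl G₁ γ)) y +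
          W2 (K.w a) (fam S G₁ ψ (hp G₁ γ) (a, cl G₁ γ)) (u j (hp G₁ γ) (a, cl G₁ γ)) y) ≤
        ENNReal.ofReal (|B'| * (1 / ((j : ℝ) + 1))) := by
      intro j
      refine (hB' (u j) (hu j) z (C.r a) hball).trans (ENNReal.ofReal_le_ofReal ?_)
      have h2 : 0 ≤ BInt (PUsb P G₁) (KMsb K G₁) (FW (KMsb K G₁) (fam S G₁ ψ) (u j)) := by
        refine Finset.sum_nonneg fun b _ => setIntegral_nonneg (isOpen_V _ b).measurableSet
          fun z hz => ?_
        exact mul_nonneg (mul_nonneg ((PUsb P G₁).nonneg _ _ _)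
          (FW_nonneg (KMsb K G₁) b z (V_sub _ b hz))) (vol_nn (KMsb K G₁) (V_sub _ b hz))
      exact mul_le_mul (le_abs_self B') (hub j).le h2 (abs_nonneg _)
    refine tendsto_of_tendsto_of_tendsto_of_le_of_le tendsto_const_nhds ?_ (fun j => zero_le) h1
    have h3 : Tendsto (fun j : ℕ => |B'| * (1 / ((j : ℝ) + 1))) atTop (𝓝 (|B'| * 0)) :=
      tendsto_one_div_add_atTop_nhds_zero_nat.const_mul _
    rw [mul_zero] at h3
    have h4 := (ENNReal.continuous_ofReal.tendsto 0).comp h3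
    rwa [ENNReal.ofReal_zero] at h4

end Vale.Agent.P284.H35.A9
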