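import Vale.Agent.P284.H894.B1Glue
import Vale.Agent.P284.H894.V.Spec

/-!
# P284: every `Coc` has a partition of unity
-/

open scoped Manifold ContDiff Topology Pointwise ComplexConjugate ComplexOrder
open Filter Set Metric MeasureTheory

noncomputable section

namespace Vale.Agent.P284.H35.W

open Vale.Agent.P272.K Vale.Agent.P284.H248 Vale.Agent.P284.H894
  Vale.Agent.P284.H894.V

variable {n : ℕ} {Γ : Type} [Group Γ]

open Classical in
/-- a function with compact support in the ball number `b`, moved to all balls -/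
def mv (C : Coc n Γ) (b : C.I) (F : Cm n → ℝ) (a : C.I) (z : Cm n) : ℝ :=
  if z ∈ C.O a b then F (C.T a b z) else 0

theorem mv_ne {C : Coc n Γ} {b : C.I} {F : Cm n → ℝ} {a : C.I} {z : Cm n} (h : mv C b F a z ≠ 0) :
    z ∈ C.O a b ∧ C.T a b z ∈ tsupport F := by
  by_cases hc : z ∈ C.O a b
  · simp only [mv, if_pos hc] at h
    exact ⟨hc, subset_tsupport F h⟩
  · simp only [mv, if_neg hc] at h
    exact absurd rfl h

theorem mv_smooth (C : Coc n Γ) (b : C.I) (F : Cm n → ℝ) (hF : TU (C.V b) F) (a : C.I) (z : Cm n)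
    (hz : z ∈ C.Ω a) : ContDiffAt ℝ ∞ (mv C b F a) z := by
  have hsub : tsupport F ⊆ ball (C.c b) (4 * C.r b) := hF.supp.trans (C.V_sub b)
  by_cases h : z ∈ C.O a b ∧ C.T a b z ∈ tsupport F
  · have e : mv C b F a =ᶠ[𝓝 z] fun y => F (C.T a b y) := by
      filter_upwards [(C.O_open a b).mem_nhds h.1] with y hy
      simp only [mv, if_pos hy]
    exact (hF.smooth.contDiffAt.comp z (C.T_smooth h.1)).congr_of_eventuallyEq e
  · have e : mv C b F a =ᶠ[𝓝 z] fun _ => 0 := by
      filter_upwards [C.closed a b (tsupport F) hF.compact hsub z hz h] with y hy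
      by_contra h0
      exact hy (mv_ne h0)
    exact contDiffAt_const.congr_of_eventuallyEq e

theorem mv_compat (C : Coc n Γ) (b : C.I) (F : Cm n → ℝ) (a d : C.I) (z : Cm n)
    (hz : z ∈ C.O a d) : mv C b F a z = mv C b F d (C.T a d z) := by
  by_cases hb : z ∈ C.O a b
  · have hd : C.T a d z ∈ C.O d b := C.O_trans hz hb
    simp only [mv, if_pos hb, if_pos hd, C.trans_T a d b z hz hd]
  · have hd : C.T a d z ∉ C.O d b := fun h => hb (C.trans_mem a d b z hz h)
    simp only [mv, if_neg hb, if_neg hd]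

/-- **S5b**: every `Coc` has a partition of unity. -/
theorem exists_PU (C : Coc n Γ) : Nonempty (PU C) := by
  have hr : ∀ b, 0 < C.r b := C.r_pos
  -- bump functions
  let F : ∀ b : C.I, ContDiffBump (C.c b) := fun b => ⟨C.r b, 2 * C.r b, hr b, by linarith [hr b]⟩
  have hTU : ∀ b, TU (C.V b) (F b) := by
    intro b
    refine ⟨(F b).contDiff, (F b).hasCompactSupport, ?_⟩
    rw [(F b).tsupport_eq]
    exact closedBall_subset_ball (by show 2 * C.r b < 3 * C.r b; linarith [hr b])
  set f : C.I → C.I → Cm n → ℝ := fun b => mv C b (F b) with hf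
  have hf0 : ∀ b a z, 0 ≤ f b a z := by
    intro b a z
    simp only [hf, mv]
    split_ifs
    · exact (F b).nonneg
    · exact le_rfl
  have hS : ∀ a, ∀ z ∈ C.Ω a, 0 < ∑ b, f b a z := by
    intro a z hz
    obtain ⟨b, hb, hw⟩ := C.cover a z hz
    refine Finset.sum_pos' (fun b _ => hf0 b a z) ⟨b, Finset.mem_univ _, ?_⟩
    simp only [hf, mv, if_pos hb]
    exact (F b).pos_of_mem_ball (ball_subset_ball (by show C.r b ≤ 2 * C.r b; linarith [hr b]) hw)
  refine ⟨⟨fun b a z => f b a z / ∑ b', f b' a z, ?_, ?_, ?_, fun b => closedBall (C.c b) (2 * C.r b),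
    fun b => isCompact_closedBall _ _, ?_, ?_, ?_⟩⟩
  · intro b a z hz
    refine (mv_smooth C b (F b) (hTU b) a z hz).div ?_ (hS a z hz).ne'
    exact ContDiffAt.sum fun b' _ => mv_smooth C b' (F b') (hTU b') a z hz
  · intro b a z
    exact div_nonneg (hf0 b a z) (Finset.sum_nonneg fun b' _ => hf0 b' a z)
  · intro a z hz
    rw [← Finset.sum_div]
    exact div_self (hS a z hz).ne'
  · intro b
    exact closedBall_subset_ball (by linarith [hr b])
  · intro b a z hz h
    have h1 : f b a z ≠ 0 := fun h0 => h (by rw [h0, zero_div])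
    obtain ⟨h2, h3⟩ := mv_ne h1
    rw [(F b).tsupport_eq] at h3
    exact ⟨h2, h3⟩
  · intro b a d z hz
    simp only [hf]
    rw [mv_compat C b (F b) a d z hz]
    congr 1
    exact Finset.sum_congr rfl fun b' _ => mv_compat C b' (F b') a d z hz

end Vale.Agent.P284.H35.W
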