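import Vale.Agent.P284.H35.K1a
import Vale.Agent.P272.K.Asm.Final

/-!
# P284, theorem K, row K1 (helper35), part b: the metric on the quotient and the theorem of Aubin and Yau
for invariant functions on a covering space
-/

open scoped Manifold ContDiff Topology Pointwise ComplexConjugate ComplexOrder
open Filter Set Metric MeasureTheory

noncomputable section

namespace Vale.Agent.P284.H35.K

open Vale.Agent.P272.K Vale.Agent.P284.H248 Vale.Agent.P284.H894 Vale.Agent.P284.H678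
  Vale.Agent.P284.H894.G Vale.Agent.P284.H894.V Vale.Agent.P284.H639 Vale.Agent.P284.H639.V
  Vale.Agent.P284.H465.V17 Vale.Agent.P284.H446.V

variable {n : ℕ} {X : Type} [TopologicalSpace X] [ChartedSpace (Cm n) X]
  {E Γ : Type} [TopologicalSpace E] [Group Γ] [MulAction Γ E] {p : E → X} {N : Subgroup Γ}
  {w : Chart n X → Cm n → Matrix (Fin n) (Fin n) ℂ}

open Classical in
/-- the metric on the quotient -/
def wQ (hG : IsGalois Γ p) (N : Subgroup Γ) (w : Chart n X → Cm n → Matrix (Fin n) (Fin n) ℂ)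
    (e : Chart n (Qt E N)) : Cm n → Matrix (Fin n) (Fin n) ℂ :=
  if h : ∃ c : Chart n X, IsCh hG e c then w h.choose else 0

theorem wQ_choose (hG : IsGalois Γ p) {e : Chart n (Qt E N)} (h : ∃ c : Chart n X, IsCh hG e c) :
    wQ hG N w e = w h.choose := dif_pos h

theorem IsCh.at {hG : IsGalois Γ p} {e : Chart n (Qt E N)} {c : Chart n X} (h : IsCh hG e c)
    {y : Qt E N} (hy : y ∈ e.source) : At c (prQ hG N y) ∧ e y = c (prQ hG N y) :=
  ⟨⟨h.1, (h.2 y hy).1⟩, (h.2 y hy).2⟩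

variable [IsManifold 𝓘(ℂ, Cm n) ω X]

omit [IsManifold 𝓘(ℂ, Cm n) ω X] in
/-- two charts of the base which give the same chart of the quotient -/
theorem jac_one {hG : IsGalois Γ p} {e : Chart n (Qt E N)} {c c' : Chart n X} (h : IsCh hG e c)
    (h' : IsCh hG e c') {y : Qt E N} (hy : y ∈ e.source) : jacM c c' (prQ hG N y) = 1 := by
  have hey : c (prQ hG N y) = e y := (h.at hy).2.symm
  rw [jacM_eq, ← jmat_id (c (prQ hG N y))]
  refine jmat_congr ?_
  rw [hey]
  filter_upwards [e.open_target.mem_nhds (e.map_source hy)] with z hz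
  rw [← (ch_symm h.2 hz).2, ← (h'.2 _ (e.map_target hz)).2, e.right_inv hz]

omit [IsManifold 𝓘(ℂ, Cm n) ω X] in
theorem wQ_eq {hG : IsGalois Γ p} (hw : IsHermitian w) {e : Chart n (Qt E N)} {c : Chart n X}
    (h : IsCh hG e c) {z : Cm n} (hz : z ∈ e.target) : wQ hG N w e z = w c z := by
  have h0 : ∃ c : Chart n X, IsCh hG e c := ⟨c, h⟩
  rw [wQ_choose hG h0]
  have hc := h0.choose_spec
  set c₀ := h0.choose with hc₀
  obtain ⟨h1, h2⟩ := hc.at (e.map_target hz)
  obtain ⟨h3, h4⟩ := h.at (e.map_target hz)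
  have h5 := hw.change c₀ c _ h1 h3
  rw [jac_one hc h (e.map_target hz), ← h2, ← h4, e.right_inv hz] at h5
  rw [h5]
  have h6 : (1 : Matrix (Fin n) (Fin n) ℂ).map (starRingEnd ℂ) = 1 := by
    ext i j
    by_cases hij : i = j
    · subst hij; simp
    · simp [Matrix.one_apply_ne hij]
  rw [h6]
  simp

omit [IsManifold 𝓘(ℂ, Cm n) ω X] in
theorem wQ_kahler (hG : IsGalois Γ p) (hw : IsKahler w) :
    letI := chQ n hG N
    IsKahler (wQ hG N w) := by
  let _ := chQ n hG N
  refine { smooth := ?_, posDef := ?_, change := ?_, closed := ?_ }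
  · intro e y he i j
    have h0 : ∃ c : Chart n X, IsCh hG e c := he.1
    rw [wQ_choose hG h0]
    obtain ⟨h1, h2⟩ := h0.choose_spec.at he.2
    rw [h2]
    exact hw.smooth _ _ h1 i j
  · intro e y he
    have h0 : ∃ c : Chart n X, IsCh hG e c := he.1
    rw [wQ_choose hG h0]
    obtain ⟨h1, h2⟩ := h0.choose_spec.at he.2
    rw [h2]
    exact hw.posDef _ _ h1
  · intro e e' y he he'
    have h0 : ∃ c : Chart n X, IsCh hG e c := he.1
    have h0' : ∃ c : Chart n X, IsCh hG e' c := he'.1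
    rw [wQ_choose hG h0, wQ_choose hG h0']
    obtain ⟨h1, h2⟩ := h0.choose_spec.at he.2
    obtain ⟨h1', h2'⟩ := h0'.choose_spec.at he'.2
    have h3 := hw.change _ _ _ h1 h1'
    rw [h2, h2', h3]
    have h4 : jacM h0.choose h0'.choose (prQ hG N y) = jacM e e' y := by
      rw [jacM_eq, jacM_eq, ← h2]
      refine jmat_congr ?_
      have hopen : IsOpen (e.target ∩ e.symm ⁻¹' e'.source) :=
        e.isOpen_inter_preimage_symm e'.open_source
      have hmem : e y ∈ e.target ∩ e.symm ⁻¹' e'.source := by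
        refine ⟨e.map_source he.2, ?_⟩
        show e.symm (e y) ∈ e'.source
        rw [e.left_inv he.2]
        exact he'.2
      filter_upwards [hopen.mem_nhds hmem] with z hz
      rw [(h0'.choose_spec.2 _ hz.2).2, (ch_symm h0.choose_spec.2 hz.1).2]
    rw [h4]
  · intro e y he i j k
    have h0 : ∃ c : Chart n X, IsCh hG e c := he.1
    rw [wQ_choose hG h0]
    obtain ⟨h1, h2⟩ := h0.choose_spec.at he.2
    rw [h2]
    exact hw.closed _ _ h1 i j k

/-- `f` has smooth local expressions in the charts of the base -/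
def SmE (n : ℕ) {X : Type} [TopologicalSpace X] [ChartedSpace (Cm n) X] {E : Type}
    [TopologicalSpace E] (p : E → X) (f : E → ℝ) : Prop :=
  ∀ (y : E) (e : Chart n X), At e (p y) → ∃ g : Cm n → ℝ,
    (∀ᶠ y' in 𝓝 y, f y' = g (e (p y'))) ∧ ∀ᶠ z in 𝓝 (e (p y)), ContDiffAt ℝ ∞ g z

/-- the function on the quotient -/
def desc (N : Subgroup Γ) (f : E → ℝ) (a : Qt E N) : ℝ := f (mkQ_surj a).choose

omit [TopologicalSpace E] in
theorem desc_mkQ {f : E → ℝ} (hf : ∀ g ∈ N, ∀ y, f (g • y) = f y) (y : E) :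
    desc N f (mkQ N y) = f y := by
  unfold desc
  obtain ⟨g, hg, h2⟩ := mkQ_eq.1 (mkQ_surj (mkQ N y)).choose_spec
  rw [← h2, hf g hg]

omit [IsManifold 𝓘(ℂ, Cm n) ω X] in
theorem desc_smooth (hG : IsGalois Γ p) {f : E → ℝ} (hf : SmE n p f)
    (hN : ∀ g ∈ N, ∀ y, f (g • y) = f y) :
    letI := chQ n hG N
    SmoothFn (n := n) (desc N f) := by
  let _ := chQ n hG N
  rintro e a ⟨⟨c, hc⟩, ha⟩
  obtain ⟨y, rfl⟩ := mkQ_surj a
  obtain ⟨h1, h2⟩ := hc.at ha
  obtain ⟨g, h3, h4⟩ := hf y c h1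
  rw [h2]
  refine (h4.self_of_nhds).congr_of_eventuallyEq ?_
  have h5 : ∀ᶠ a' in 𝓝 (mkQ N y), ∃ y', f y' = g (c (p y')) ∧ mkQ N y' = a' := by
    have := (mkQ_open (N := N) hG).image_mem_nhds h3
    filter_upwards [this] with a' ha'
    exact ha'
  have h6 : Tendsto e.symm (𝓝 (e (mkQ N y))) (𝓝 (mkQ N y)) := by
    have := e.continuousAt_symm (e.map_source ha)
    rw [ContinuousAt, e.left_inv ha] at this
    exact this
  have h7 : c (p y) = e (mkQ N y) := h2.symm
  show (fun z => desc N f (e.symm z)) =ᶠ[𝓝 (c (p y))] g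
  rw [h7]
  filter_upwards [h6.eventually h5, e.open_target.mem_nhds (e.map_source ha)] with z hz hzt
  obtain ⟨y', hy', hy''⟩ := hz
  rw [← hy'', desc_mkQ hN, hy']
  have h8 := (hc.2 (e.symm z) (e.map_target hzt)).2
  rw [e.right_inv hzt, ← hy''] at h8
  exact congrArg g h8.symm

variable [T2Space X] [CompactSpace X] [ConnectedSpace X]

/-- **K1**: the theorem of Aubin and Yau on the quotient by a subgroup of finite index, on the covering
space. -/
theorem k1 [ConnectedSpace E] (hw : IsKahler w) (hG : IsGalois Γ p) (N : Subgroup Γ)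
    [N.FiniteIndex] {f : E → ℝ} (hf : SmE n p f) (hN : ∀ g ∈ N, ∀ y, f (g • y) = f y) :
    ∃ φ : E → ℝ, (∀ g ∈ N, ∀ y, φ (g • y) = φ y) ∧
      ∀ (y : E) (c : Chart n X), At c (p y) → ∃ g : Cm n → ℝ,
        (∀ᶠ y' in 𝓝 y, φ y' = g (c (p y'))) ∧
        (∀ᶠ z in 𝓝 (c (p y)), ContDiffAt ℝ ∞ g z ∧ (w c z + cHess g z).PosDef) ∧
        ∀ᶠ y' in 𝓝 y, Real.log (w c (c (p y')) + cHess g (c (p y'))).det.re -
          Real.log (w c (c (p y'))).det.re = φ y' + f y' := by
  obtain ⟨C, _, _, ⟨Sh⟩⟩ := exists_sheets n X w hw E Γ p hG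
  obtain ⟨D, hD, hcov⟩ := Sh.exists_compact
  let _ := chQ n hG N
  have : CompactSpace (Qt E N) := qt_compact hG hD hcov
  have : T2Space (Qt E N) := qt_t2 hG
  have : IsManifold 𝓘(ℂ, Cm n) ω (Qt E N) := qt_manifold hG
  obtain ⟨u, hu1, hu2, hu3⟩ := aubinYau n (Qt E N) (wQ hG N w) (wQ_kahler hG hw) (desc N f)
    (desc_smooth hG hf hN)
  refine ⟨fun y => u (mkQ N y), fun g hg y => congrArg u (mkQ_smul hg y), fun y c hc => ?_⟩
  obtain ⟨e, hy, he⟩ := exists_ch (N := N) hG (mkQ N y) c hc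
  have hea : e ∈ atlas (Cm n) (Qt E N) := ⟨c, he⟩
  have hcy : e (mkQ N y) = c (p y) := (he.2 _ hy).2
  have hev : ∀ᶠ y' in 𝓝 y, mkQ N y' ∈ e.source :=
    mkQ_cont.continuousAt.eventually (e.open_source.mem_nhds hy)
  refine ⟨fun z => u (e.symm z), ?_, ?_, ?_⟩
  · filter_upwards [hev] with y' hy'
    have h1 : e (mkQ N y') = c (p y') := (he.2 _ hy').2
    rw [← h1, e.left_inv hy']
  · rw [← hcy]
    filter_upwards [e.open_target.mem_nhds (e.map_source hy)] with z hz
    have hAt : At e (e.symm z) := ⟨hea, e.map_target hz⟩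
    have h1 := hu1 e _ hAt
    have h2 := hu2 e _ hAt
    rw [e.right_inv hz] at h1 h2
    refine ⟨h1, ?_⟩
    unfold addH at h2
    rwa [wQ_eq hw.toIsHermitian he hz] at h2
  · filter_upwards [hev] with y' hy'
    have h1 : e (mkQ N y') = c (p y') := (he.2 _ hy').2
    have hz : c (p y') ∈ e.target := by rw [← h1]; exact e.map_source hy'
    have h3 := hu3 e (mkQ N y') ⟨hea, hy'⟩
    unfold addH at h3
    rw [h1, wQ_eq hw.toIsHermitian he hz, desc_mkQ hN] at h3
    exact h3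

end Vale.Agent.P284.H35.K
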