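import Vale.Agent.P284.H35.K1b
import Vale.Agent.P284.H409.K.Spec

/-!
# P284, theorem K, row K1 (helper35), part c: `K1Stmt`
-/

open scoped Manifold ContDiff Topology Pointwise ComplexConjugate ComplexOrder
open Filter Set Metric MeasureTheory

noncomputable section

namespace Vale.Agent.P284.H35.K

open Vale.Agent.P272.K Vale.Agent.P284.H248 Vale.Agent.P284.H894 Vale.Agent.P284.H678
  Vale.Agent.P284.H894.G Vale.Agent.P284.H894.V Vale.Agent.P284.H639 Vale.Agent.P284.H639.V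
  Vale.Agent.P284.H465.V17 Vale.Agent.P284.H446.V Vale.Agent.P284.H35.A9 Vale.Agent.P284.H409.K

variable {n : ℕ} {X : Type} [TopologicalSpace X] [ChartedSpace (Cm n) X]
  {E Γ : Type} [TopologicalSpace E] [Group Γ] [MulAction Γ E] {p : E → X} {C : Coc n Γ}

/-- a compatible family on the pieces is a function on the covering space -/
theorem exists_toE3 {α : Type*} (S : Shs p C) (h : Γ → C.I → Cm n → α)
    (hc : ∀ γ a b, ∀ z ∈ C.O a b, h γ a z = h (γ * C.κ a b z) b (C.T a b z)) :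
    ∃ U : E → α, ∀ (γ : Γ) (a : C.I), ∀ z ∈ C.Ω a, U (γ • S.σ a z) = h γ a z := by
  choose g b y hy hgy using S.cover
  refine ⟨fun x => h (g x) (b x) (y x), fun γ a z hz => ?_⟩
  set x := γ • S.σ a z with hx
  have hyΩ : y x ∈ C.Ω (b x) := ball_subset_ball (by linarith [C.r_pos (b x)]) (hy x)
  obtain ⟨h1, h2, h3⟩ := S.rel γ (g x) a (b x) z (y x) hz hyΩ (by rw [hgy x])
  have h4 := hc γ a (b x) z h1
  rw [h2, ← h3] at h4
  exact h4.symm

theorem sheet_local (S : Shs p C) (hG : IsGalois Γ p) {γ : Γ} {a : C.I}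
    {z : Cm n} (hz : z ∈ C.Ω a) {P : E → Prop} (hP : ∀ᶠ y in 𝓝 (γ • S.σ a z), P y) :
    ∀ᶠ z' in 𝓝 z, P (γ • S.σ a z') := by
  have hc : ContinuousAt (fun z' => γ • S.σ a z') z :=
    ContinuousAt.comp (g := fun y => γ • y) (hG.cont _).continuousAt
      ((S.cont a).continuousAt (isOpen_ball.mem_nhds hz))
  exact hc.eventually hP

variable [IsManifold 𝓘(ℂ, Cm n) ω X]

/-- a function on the covering space with smooth values on the pieces has smooth local expressions -/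
theorem smE_of_fam (hG : IsGalois Γ p) (S : Shs p C) {u : Γ → C.I → Cm n → ℝ} {U : E → ℝ}
    (hsm : ∀ γ a, ∀ z ∈ C.Ω a, ContDiffAt ℝ ∞ (u γ a) z)
    (hU : ∀ (γ : Γ) (a : C.I), ∀ z ∈ C.Ω a, U (γ • S.σ a z) = u γ a z) : SmE n p U := by
  intro y e hAt
  obtain ⟨γ, a, z₀, hz₀, hy⟩ := S.cover y
  have hzΩ : z₀ ∈ C.Ω a := ball_subset_ball (by linarith [C.r_pos a]) hz₀
  obtain ⟨hAt', hval⟩ := p_sheet S hG γ a z₀ hzΩ
  rw [hy] at hAt' hval
  set T : Cm n → Cm n := fun z => S.e a (e.symm z) with hT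
  have hTz : T (e (p y)) = z₀ := by
    rw [hT]; simp only [hAt.left_inv, hval]
  have hTc : ContDiffAt ℂ ω T (e (p y)) := transition hAt hAt'
  refine ⟨fun z => u γ a (T z), ?_, ?_⟩
  · have hev := S.near γ a z₀ hzΩ
    rw [hy] at hev
    have hsrc : ∀ᶠ y' in 𝓝 y, p y' ∈ e.source :=
      hG.cov.continuous.continuousAt.eventually (e.open_source.mem_nhds hAt.2)
    filter_upwards [hev, hsrc] with y' h4 h5
    have h6 := hU γ a _ h4.1
    rw [h4.2] at h6
    rw [h6, hT]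
    simp only [e.left_inv h5]
  · have hev1 : ∀ᶠ z in 𝓝 (e (p y)), T z ∈ C.Ω a := by
      refine hTc.continuousAt.eventually ?_
      show ∀ᶠ z in 𝓝 (T (e (p y))), z ∈ C.Ω a
      rw [hTz]
      exact isOpen_ball.mem_nhds hzΩ
    filter_upwards [hev1, hAt.nhds_at hAt'] with z h4 h5
    have h6 : ContDiffAt ℂ ω T z := by
      have := transition h5.2.1 h5.2.2
      rwa [e.right_inv h5.1] at this
    have h7 : ContDiffAt ℝ ∞ T z := (h6.restrict_scalars ℝ).of_le le_top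
    exact (hsm γ a (T z) h4).comp z h7

/-- **K1** -/
theorem k1Stmt : K1Stmt := by
  intro n X _ _ _ _ _ _ w hw E Γ _ _ _ _ p hG
  obtain ⟨C, P, K, S, hK⟩ := exists_shsK n X w hw E Γ p hG
  refine ⟨C, P, K, S, fun N hN hfi F hF => ?_⟩
  obtain ⟨f, hf⟩ := exists_toE3 S (fun γ a z => F (γ : Γ ⧸ N) a z) fun γ a b z hz => by
    have := hF.compat (γ : Γ ⧸ N) a b z hz
    exact this
  have hfN : ∀ g ∈ N, ∀ y, f (g • y) = f y := by
    intro g hg y
    obtain ⟨γ, a, z, hz, rfl⟩ := S.cover y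
    have hzΩ : z ∈ C.Ω a := ball_subset_ball (by linarith [C.r_pos a]) hz
    rw [smul_smul, hf _ a z hzΩ, hf _ a z hzΩ]
    have : ((g * γ : Γ) : Γ ⧸ N) = (γ : Γ ⧸ N) := by
      rw [QuotientGroup.mk_mul, (QuotientGroup.eq_one_iff g).2 hg, one_mul]
    rw [this]
  have hfs : SmE n p f := smE_of_fam hG S (fun γ a z hz => hF.smooth (γ : Γ ⧸ N) a z hz) hf
  obtain ⟨φ₀, h1, h2⟩ := k1 hw hG N hfs hfN
  have hout : ∀ (γ : Γ) (y : E), φ₀ ((γ : Γ ⧸ N).out • y) = φ₀ (γ • y) := by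
    intro γ y
    obtain ⟨m, hm⟩ := QuotientGroup.mk_out_eq_mul N γ
    rw [hm]
    have h3 : (γ * (m : Γ)) • y = (γ * m * γ⁻¹) • γ • y := by
      rw [← mul_smul]; congr 1; group
    rw [h3, h1 _ (hN.conj_mem _ m.2 γ)]
  -- the local statement
  have hloc : ∀ (γ : Γ) (a : C.I), ∀ z ∈ C.Ω a,
      ContDiffAt ℝ ∞ (fun z' => φ₀ (γ • S.σ a z')) z ∧
      (K.w a z + cHess (fun z' => φ₀ (γ • S.σ a z')) z).PosDef ∧
      Real.log (K.w a z + cHess (fun z' => φ₀ (γ • S.σ a z')) z).det.re -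
        Real.log (K.w a z).det.re = φ₀ (γ • S.σ a z) + F (γ : Γ ⧸ N) a z := by
    intro γ a z hz
    obtain ⟨hAt, hval⟩ := p_sheet S hG γ a z hz
    obtain ⟨g, h3, h4, h5⟩ := h2 (γ • S.σ a z) (S.e a) hAt
    have hev : (fun z' => φ₀ (γ • S.σ a z')) =ᶠ[𝓝 z] g := by
      filter_upwards [sheet_local S hG hz h3, isOpen_ball.mem_nhds hz] with z' h6 h7
      rw [h6, (p_sheet S hG γ a z' h7).2]
    rw [hval] at h4
    obtain ⟨h6, h7⟩ := h4.self_of_nhds
    have h8 := h5.self_of_nhds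
    rw [hval, hf γ a z hz] at h8
    refine ⟨h6.congr_of_eventuallyEq hev, ?_, ?_⟩
    · rw [cHess_congr hev, hK a]
      exact h7
    · rw [cHess_congr hev, hK a]
      exact h8
  refine ⟨fun q a z => φ₀ (q.out • S.σ a z), ?_⟩
  refine { smooth := ?_, compat := ?_, pos := ?_, eq := ?_ }
  · intro q a z hz
    exact (hloc q.out a z hz).1
  · intro q a b z hz
    obtain ⟨γ, rfl⟩ := QuotientGroup.mk_surjective q
    show φ₀ ((γ : Γ ⧸ N).out • S.σ a z) =
      φ₀ ((((γ : Γ ⧸ N) * (C.κ a b z : Γ ⧸ N)) : Γ ⧸ N).out • S.σ b (C.T a b z))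
    rw [← QuotientGroup.mk_mul, hout, hout, ← S.glue a b z hz, smul_smul]
  · intro q a z hz
    exact (hloc q.out a z hz).2.1
  · intro q a z hz
    have := (hloc q.out a z hz).2.2
    rwa [QuotientGroup.out_eq'] at this

end Vale.Agent.P284.H35.K
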