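import Vale.Agent.P284.H35.Close

/-!
# P284, theorem V, block V14B: the limit in one ball (helper35)
-/

open scoped Manifold ContDiff Topology Pointwise ComplexConjugate ComplexOrder
open Filter Set Metric MeasureTheory

noncomputable section

namespace Vale.Agent.P284.H35.V

open Vale.Agent.P272.K Vale.Agent.P284.H894 Vale.Agent.P284.H894.V

section
variable {n : ℕ} {δ : ℝ} {η : Cm n → ℝ} {B : ℝ}

lemma D2_nonneg (f : Cm n → ℝ) (z : Cm n) : 0 ≤ D2 f z :=
  Finset.sum_nonneg fun _ _ => Finset.sum_nonneg fun _ _ => sq_nonneg _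

lemma le_D2 (f : Cm n → ℝ) (z : Cm n) (j k : Fin n) : ‖cHess f z j k‖ ^ 2 ≤ D2 f z := by
  unfold D2
  refine le_trans ?_ (Finset.single_le_sum (f := fun j => ∑ k, ‖cHess f z j k‖ ^ 2)
    (fun _ _ => Finset.sum_nonneg fun _ _ => sq_nonneg _) (Finset.mem_univ j))
  exact Finset.single_le_sum (f := fun k => ‖cHess f z j k‖ ^ 2)
    (fun _ _ => sq_nonneg _) (Finset.mem_univ k)

lemma cHess_congr' {f g : Cm n → ℝ} {z : Cm n} (h : f =ᶠ[𝓝 z] g) : cHess f z = cHess g z := by
  have h1 : (fun y => ((f y : ℝ) : ℂ)) =ᶠ[𝓝 z] fun y => ((g y : ℝ) : ℂ) :=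
    h.mono fun y hy => by simp only [hy]
  ext j k
  have h2 : (fun y => dzb k (fun y => ((f y : ℝ) : ℂ)) y) =ᶠ[𝓝 z]
      fun y => dzb k (fun y => ((g y : ℝ) : ℂ)) y := by
    filter_upwards [h1.eventuallyEq_nhds] with y hy
    simp only [dzb, hy.fderiv_eq]
  show dz j (fun y => dzb k (fun y => ((f y : ℝ) : ℂ)) y) z =
    dz j (fun y => dzb k (fun y => ((g y : ℝ) : ℂ)) y) z
  simp only [dz, h2.fderiv_eq]

/-- the limit in one ball -/
lemma limit_local {c : Cm n} {r L : ℝ} (hr : 0 < r) (hδ0 : 0 < δ) (hδ : 4 * δ ≤ r)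
    (hM : MolP n δ η B) {m : ℕ → Cm n → ℝ} {Φ : Cm n → ℝ} {𝒰 : Filter ℕ} [𝒰.NeBot]
    {ε : ℕ → ℝ} (hL0 : 0 ≤ L) (hs : ∀ k, ∀ z ∈ ball c (11 / 4 * r), ContDiffAt ℝ ∞ (m k) z)
    (hlip : ∀ k, ∀ z ∈ ball c (11 / 4 * r), ∀ z' ∈ ball c (11 / 4 * r),
      |m k z - m k z'| ≤ L * ‖z - z'‖)
    (hD2 : ∀ k, ∀ z ∈ ball c (11 / 4 * r), D2 (m k) z ≤ ε k) (hε : Tendsto ε 𝒰 (𝓝 0))
    (hlim : ∀ z ∈ ball c (11 / 4 * r), Tendsto (fun k => m k z) 𝒰 (𝓝 (Φ z))) :
    ContDiff ℝ ∞ (mo η ((closedBall c (5 / 2 * r)).indicator Φ)) ∧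
      (∀ z ∈ ball c (9 / 4 * r), mo η ((closedBall c (5 / 2 * r)).indicator Φ) z = Φ z) ∧
      ∀ z ∈ ball c (9 / 4 * r), cHess (mo η ((closedBall c (5 / 2 * r)).indicator Φ)) z = 0 := by
  obtain ⟨hB, hηs, hη0, hηδ, hη1, hMol⟩ := hM
  have hηc := hηs.continuous
  set K := closedBall c (5 / 2 * r) with hK
  have hKb : K ⊆ ball c (11 / 4 * r) := closedBall_subset_ball (by linarith)
  have hKc : IsCompact K := isCompact_closedBall _ _
  have hsm : ∀ z ∈ ball c (9 / 4 * r), closedBall z δ ⊆ K := by
    intro z hz y hy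
    rw [hK, mem_closedBall]
    have h1 := mem_ball.1 hz
    have h2 := mem_closedBall.1 hy
    linarith [dist_triangle y z c]
  -- uniform convergence
  have hunif : ∀ e : ℝ, 0 < e → ∀ᶠ k in 𝒰, ∀ x ∈ K, |m k x - Φ x| ≤ e := fun e he =>
    unif_of_lip hKc hL0 (fun k x hx y hy => hlip k x (hKb hx) y (hKb hy))
      (fun x hx => hlim x (hKb hx)) he
  have hΦlip : ∀ z ∈ ball c (11 / 4 * r), ∀ z' ∈ ball c (11 / 4 * r),
      |Φ z - Φ z'| ≤ L * ‖z - z'‖ := by
    intro z hz z' hz'
    exact le_of_tendsto ((hlim z hz).sub (hlim z' hz')).abs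
      (Eventually.of_forall fun k => hlip k z hz z' hz')
  have hΦc : ContinuousOn Φ (ball c (11 / 4 * r)) := by
    have : LipschitzOnWith ⟨L, hL0⟩ Φ (ball c (11 / 4 * r)) := by
      refine LipschitzOnWith.of_dist_le_mul fun x hx y hy => ?_
      rw [Real.dist_eq, dist_eq_norm]
      exact hΦlip x hx y hy
    exact this.continuousOn
  have hmc : ∀ k, ContinuousOn (m k) (ball c (11 / 4 * r)) := fun k z hz =>
    (hs k z hz).continuousAt.continuousWithinAt
  have hloc : ∀ f : Cm n → ℝ, ContinuousOn f (ball c (11 / 4 * r)) →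
      LocallyIntegrable (K.indicator f) := by
    intro f hf
    have h1 : IntegrableOn f K := (hf.mono hKb).integrableOn_compact hKc
    exact (h1.integrable_indicator hKc.measurableSet).locallyIntegrable
  set ρ : Cm n → ℝ := fun x => η (-x) with hρ
  have hρs : ContDiff ℝ ∞ ρ := hηs.comp contDiff_neg
  have hρc : HasCompactSupport ρ := (compact_of hηδ).comp_homeomorph (Homeomorph.neg _)
  set F := K.indicator Φ with hF
  have hFl : LocallyIntegrable F := hloc Φ hΦc
  have hmomv : ∀ f : Cm n → ℝ, mo η f = mv volume ρ f := fun f => funext fun z => mo_eq_mv η f z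
  have hUs : ContDiff ℝ ∞ (mo η F) := by
    rw [hmomv]
    exact contDiff_mv hρs hρc hFl
  have hind : ∀ (f : Cm n → ℝ), ∀ z ∈ ball c (9 / 4 * r), mo η (K.indicator f) z = mo η f z := by
    intro f z hz
    refine mo_congr hηδ fun y hy => ?_
    exact indicator_of_mem (hsm z hz (ball_subset_closedBall hy)) f
  -- `∫ D2 (m k)`
  have hI : ∀ k, ∫ z in ball c (5 / 2 * r), D2 (m k) z ≤
      ε k * volume.real (ball c (5 / 2 * r)) := by
    intro k
    have h1 := norm_setIntegral_le_of_norm_le_const (μ := volume) (s := ball c (5 / 2 * r))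
      (f := D2 (m k)) (C := ε k) measure_ball_lt_top (fun z hz => by
        rw [Real.norm_of_nonneg (D2_nonneg _ _)]
        exact hD2 k z (hKb (ball_subset_closedBall hz)))
    exact (le_abs_self _).trans h1
  set vol := (volume : Measure (Cm n)).real (ball c (5 / 2 * r)) with hvol
  have hvol0 : 0 ≤ vol := measureReal_nonneg
  have hMk : ∀ k, _ := fun k => hMol c (9 / 4 * r) (5 / 2 * r) (by positivity) (by linarith) (m k)
    (fun z hz => hs k z (hKb hz))
  have htend : Tendsto (fun k => B * (ε k * vol)) 𝒰 (𝓝 0) := by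
    have := (hε.mul_const vol).const_mul B
    simpa using this
  refine ⟨hUs, fun z hz => ?_, fun z hz => ?_⟩
  · -- `U = Φ`
    rw [hF, hind Φ z hz]
    obtain ⟨s, hs0, hseq⟩ : ∃ s : ℝ, 0 < s ∧ s = 9 / 4 * r - dist z c :=
      ⟨_, sub_pos.2 (mem_ball.1 hz), rfl⟩
    have hsb : ball z s ⊆ ball c (9 / 4 * r) := by
      intro y hy
      rw [mem_ball] at hy ⊢
      linarith [dist_triangle y z c]
    have hsK : closedBall z (s / 2 + δ) ⊆ K := by
      intro y hy
      rw [hK, mem_closedBall]
      rw [mem_closedBall] at hy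
      linarith [dist_triangle y z c]
    have hI2 : ∀ k, ∫ y in ball z (s / 2 + δ), D2 (m k) y ≤
        ε k * volume.real (ball z (s / 2 + δ)) := by
      intro k
      have h1 := norm_setIntegral_le_of_norm_le_const (μ := volume) (s := ball z (s / 2 + δ))
        (f := D2 (m k)) (C := ε k) measure_ball_lt_top (fun y hy => by
          rw [Real.norm_of_nonneg (D2_nonneg _ _)]
          exact hD2 k y (hKb (hsK (ball_subset_closedBall hy))))
      exact (le_abs_self _).trans h1
    set vol2 := (volume : Measure (Cm n)).real (ball z (s / 2 + δ)) with hvol2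
    have htend2 : Tendsto (fun k => B * (ε k * vol2)) 𝒰 (𝓝 0) := by
      have := (hε.mul_const vol2).const_mul B
      simpa using this
    have hmol : Tendsto (fun k => mo η (m k) z) 𝒰 (𝓝 (mo η Φ z)) := by
      rw [Metric.tendsto_nhds]
      intro e he
      filter_upwards [hunif (e / 2) (by positivity)] with k hk
      rw [Real.dist_eq]
      refine lt_of_le_of_lt (mo_dist hηc hη0 hηδ hη1 ((hmc k).mono ((hsm z hz).trans hKb))
        (hΦc.mono ((hsm z hz).trans hKb)) (fun y hy => hk y (hsm z hz hy))) (by linarith)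
    have hz' : z ∈ ball c (11 / 4 * r) := ball_subset_ball (by linarith) hz
    have hd := ((hlim z hz').sub hmol).pow 2
    -- the estimate
    have hest : ∀ t : ℝ, 0 < t → t ≤ s / 2 → (Φ z - mo η Φ z) ^ 2 ≤ 2 * (2 * L * t) ^ 2 := by
      intro t ht hts
      have hv : 0 < (volume : Measure (Cm n)).real (ball z t) := by
        rw [measureReal_def]
        exact ENNReal.toReal_pos (measure_ball_pos _ _ ht).ne' measure_ball_lt_top.ne
      set vv := (volume : Measure (Cm n)).real (ball z t) with hvv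
      have hk : ∀ k, vv * (m k z - mo η (m k) z) ^ 2 ≤
          2 * (B * (ε k * vol2)) + vv * (2 * (2 * L * t) ^ 2) := by
        intro k
        have hc9 : ∀ y ∈ ball z s, y ∈ ball c (9 / 4 * r) := fun y hy => hsb hy
        have h11 : ∀ y ∈ ball z s, y ∈ ball c (11 / 4 * r) := fun y hy =>
          ball_subset_ball (by linarith) (hsb hy)
        have hss : closedBall z (s / 2) ⊆ ball z s := closedBall_subset_ball (by linarith)
        have hmolip : ∀ y ∈ ball z (s / 2), |mo η (m k) y - mo η (m k) z| ≤ L * ‖y - z‖ := by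
          intro y hy
          have hy' := hc9 y (hss (ball_subset_closedBall hy))
          have e1 : mo η (m k) z = mo η (fun x => m k (x + (z - y))) y := by
            unfold mo
            refine integral_congr_ae (Eventually.of_forall fun t => ?_)
            show η t * m k (z + t) = η t * m k (y + t + (z - y))
            congr 2
            abel
          rw [e1]
          have hmaps : MapsTo (fun x : Cm n => x + (z - y)) (closedBall y δ) K := by
            intro x hx
            refine hsm z hz ?_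
            rw [mem_closedBall, dist_eq_norm] at hx ⊢
            have : x + (z - y) - z = x - y := by abel
            rwa [this]
          refine mo_dist hηc hη0 hηδ hη1 ((hmc k).mono ((hsm y hy').trans hKb))
            (((hmc k).mono hKb).comp (by fun_prop) hmaps) (fun x hx => ?_)
          have e2 := hlip k x (hKb (hsm y hy' hx)) (x + (z - y)) (hKb (hmaps hx))
          have e3 : x - (x + (z - y)) = y - z := by abel
          rwa [e3] at e2
        have hl : ∀ y ∈ ball z (s / 2), |(m k y - mo η (m k) y) - (m k z - mo η (m k) z)| ≤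
            (2 * L) * ‖y - z‖ := by
          intro y hy
          have e1 := hlip k y (h11 y (hss (ball_subset_closedBall hy))) z hz'
          have e2 := hmolip y hy
          calc |(m k y - mo η (m k) y) - (m k z - mo η (m k) z)|
              = |(m k y - m k z) - (mo η (m k) y - mo η (m k) z)| := by ring_nf
            _ ≤ L * ‖y - z‖ + L * ‖y - z‖ := (abs_sub _ _).trans (add_le_add e1 e2)
            _ = _ := by ring
        have hcont : ContinuousOn (fun y => (m k y - mo η (m k) y) ^ 2) (closedBall z (s / 2)) := by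
          intro y hy
          have e1 := (hs k y (h11 y (hss hy))).continuousAt
          have e2 := ((hMk k).1 y (hc9 y (hss hy))).continuousAt
          exact ((e1.sub e2).pow 2).continuousWithinAt
        have hint : IntegrableOn (fun y => (m k y - mo η (m k) y) ^ 2) (ball z (s / 2)) :=
          (hcont.integrableOn_compact (isCompact_closedBall _ _)).mono_set ball_subset_closedBall
        refine sq_le_of_lip (μ := volume) (h := fun y => m k y - mo η (m k) y) hts hl
          (by positivity) hint measure_ball_lt_top.ne ?_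
        refine ((hMol z (s / 2) (s / 2 + δ) (by positivity) le_rfl (m k)
          (fun y hy => hs k y (hKb (hsK hy)))).2.2.2.1).trans ?_
        exact mul_le_mul_of_nonneg_left (hI2 k) hB.le
      have h2 := (hd.const_mul vv)
      have h3 : Tendsto (fun k => 2 * (B * (ε k * vol2)) + vv * (2 * (2 * L * t) ^ 2)) 𝒰
          (𝓝 (2 * 0 + vv * (2 * (2 * L * t) ^ 2))) := (htend2.const_mul 2).add_const _
      have h4 := le_of_tendsto_of_tendsto' h2 h3 hk
      rw [mul_zero, zero_add] at h4
      exact le_of_mul_le_mul_left h4 hv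
    have hlim0 : Tendsto (fun t : ℝ => 2 * (2 * L * t) ^ 2) (𝓝[>] 0) (𝓝 0) := by
      have : Tendsto (fun t : ℝ => 2 * (2 * L * t) ^ 2) (𝓝 0) (𝓝 (2 * (2 * L * 0) ^ 2)) := by
        refine Continuous.tendsto ?_ 0
        fun_prop
      simp only [mul_zero, ne_eq, OfNat.ofNat_ne_zero, not_false_eq_true, zero_pow] at this
      exact this.mono_left nhdsWithin_le_nhds
    have h5 : (Φ z - mo η Φ z) ^ 2 ≤ 0 := by
      refine ge_of_tendsto hlim0 ?_
      filter_upwards [Ioc_mem_nhdsGT (show (0:ℝ) < s / 2 by positivity)] with t ht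
      exact hest t ht.1 ht.2
    have h6 : Φ z - mo η Φ z = 0 := by
      have := le_antisymm h5 (sq_nonneg _)
      exact pow_eq_zero_iff (two_ne_zero) |>.1 this
    linarith
  · -- `cHess U = 0`
    have hdz : ∀ f : Cm n → ℝ, LocallyIntegrable f → DifferentiableAt ℝ (fderiv ℝ (mo η f)) z := by
      intro f hf
      rw [hmomv]
      exact (((contDiff_mv hρs hρc hf).fderiv_right (m := ∞) (by simp)).differentiable (by simp)) z
    have hent : ∀ e e' : Cm n, Tendsto (fun k =>
        fderiv ℝ (fderiv ℝ (mo η (K.indicator (m k)))) z e' e) 𝒰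
        (𝓝 (fderiv ℝ (fderiv ℝ (mo η F)) z e' e)) := by
      intro e e'
      set ρ2 : Cm n → ℝ := fun x => fderiv ℝ (fun y => fderiv ℝ ρ y e) x e' with hρ2
      have h1s : ContDiff ℝ ∞ (fun y => fderiv ℝ ρ y e) :=
        (hρs.fderiv_right (m := ∞) (by simp)).clm_apply contDiff_const
      have h1c : HasCompactSupport (fun y => fderiv ℝ ρ y e) :=
        (hρc.fderiv (𝕜 := ℝ)).comp_left (g := fun L : Cm n →L[ℝ] ℝ => L e) (by simp)
      have h2s : ContDiff ℝ ∞ ρ2 :=
        (h1s.fderiv_right (m := ∞) (by simp)).clm_apply contDiff_const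
      have h2c : HasCompactSupport ρ2 :=
        (h1c.fderiv (𝕜 := ℝ)).comp_left (g := fun L : Cm n →L[ℝ] ℝ => L e') (by simp)
      rw [Metric.tendsto_nhds]
      intro κ hκ
      set A := ∫ y, |ρ2 (z - y)| with hA
      have hA0 : 0 ≤ A := integral_nonneg fun _ => abs_nonneg _
      filter_upwards [hunif (κ / (2 * (A + 1))) (by positivity)] with k hk
      rw [Real.dist_eq, hmomv, hmomv, fderiv2_mv hρs hρc (hloc _ (hmc k)), fderiv2_mv hρs hρc hFl]
      have h3 := mv_dist h2s.continuous h2c (hloc _ (hmc k)) hFl (ε := κ / (2 * (A + 1)))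
        (fun y => by
          by_cases hy : y ∈ K
          · rw [indicator_of_mem hy, hF, indicator_of_mem hy]; exact hk y hy
          · rw [indicator_of_notMem hy, hF, indicator_of_notMem hy]; simp; positivity) z
      refine lt_of_le_of_lt h3 ?_
      calc A * (κ / (2 * (A + 1))) ≤ (A + 1) * (κ / (2 * (A + 1))) := by
            apply mul_le_mul_of_nonneg_right (by linarith) (by positivity)
        _ = κ / 2 := by field_simp
        _ < κ := by linarith
    have hH : ∀ i j, Tendsto (fun k => cHess (mo η (K.indicator (m k))) z i j) 𝒰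
        (𝓝 (cHess (mo η F) z i j)) := by
      intro i j
      have e1 : (fun k => cHess (mo η (K.indicator (m k))) z i j) = fun k =>
          N.lev (fderiv ℝ (fderiv ℝ (mo η (K.indicator (m k)))) z) i j := by
        funext k
        rw [N.cHess_eq_lev (hdz _ (hloc _ (hmc k)))]
      rw [e1, N.cHess_eq_lev (hdz _ hFl)]
      simp only [N.lev_apply]
      refine Tendsto.div_const (Tendsto.add ?_ (Tendsto.const_mul _ ?_)) _
      · exact (Complex.continuous_ofReal.tendsto _).comp ((hent _ _).add (hent _ _))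
      · exact (Complex.continuous_ofReal.tendsto _).comp ((hent _ _).sub (hent _ _))
    ext i j
    have h1 : Tendsto (fun k => ‖cHess (mo η (K.indicator (m k))) z i j‖ ^ 2) 𝒰
        (𝓝 (‖cHess (mo η F) z i j‖ ^ 2)) := ((hH i j).norm).pow 2
    have h2 : ∀ k, ‖cHess (mo η (K.indicator (m k))) z i j‖ ^ 2 ≤ B * (ε k * vol) := by
      intro k
      have e1 : cHess (mo η (K.indicator (m k))) z = cHess (mo η (m k)) z := by
        refine cHess_congr' ?_
        filter_upwards [isOpen_ball.mem_nhds hz] with y hy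
        exact hind (m k) y hy
      rw [e1]
      refine (le_D2 _ _ i j).trans (((hMk k).2.2.2.2.1 z hz).trans ?_)
      exact mul_le_mul_of_nonneg_left (hI k) hB.le
    have h3 : ‖cHess (mo η F) z i j‖ ^ 2 ≤ 0 := le_of_tendsto_of_tendsto' h1 htend h2
    have h4 : ‖cHess (mo η F) z i j‖ = 0 := by
      have := le_antisymm h3 (sq_nonneg _)
      exact pow_eq_zero_iff (two_ne_zero) |>.1 this
    simpa using h4

end

end Vale.Agent.P284.H35.V
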