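import Vale.Agent.P284.H35.V14Spec
import Vale.Agent.P272.K.N.Hess
import Mathlib.Analysis.Convolution
import Mathlib.Analysis.Calculus.ContDiff.Convolution
import Mathlib.MeasureTheory.Function.Jacobian

/-!
# P284, theorem V, block V14B: local lemmas (helper35)
-/

open scoped Manifold ContDiff Topology Pointwise ComplexConjugate ComplexOrder
open Filter Set Metric MeasureTheory

noncomputable section

namespace Vale.Agent.P284.H35.V

open Vale.Agent.P272.K Vale.Agent.P284.H894.V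

/-! ### mollification as a convolution -/

section conv
variable {E : Type*} [NormedAddCommGroup E] [NormedSpace ℝ E] [FiniteDimensional ℝ E]
  [MeasurableSpace E] [BorelSpace E] {μ : Measure E} [μ.IsAddHaarMeasure]

/-- mollification -/
def mv (μ : Measure E) (ρ : E → ℝ) (f : E → ℝ) (x : E) : ℝ := ∫ y, ρ (x - y) * f y ∂μ

lemma mv_eq_conv (ρ : E → ℝ) (f : E → ℝ) :
    mv μ ρ f = convolution f ρ (ContinuousLinearMap.lsmul ℝ ℝ).flip μ := rfl

lemma contDiff_mv {ρ : E → ℝ} (hρ : ContDiff ℝ ∞ ρ) (hc : HasCompactSupport ρ) {f : E → ℝ}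
    (hf : LocallyIntegrable f μ) : ContDiff ℝ ∞ (mv μ ρ f) := by
  rw [mv_eq_conv]
  exact hc.contDiff_convolution_right _ hf hρ

lemma fderiv_mv {ρ : E → ℝ} (hρ : ContDiff ℝ ∞ ρ) (hc : HasCompactSupport ρ) {f : E → ℝ}
    (hf : LocallyIntegrable f μ) (x e : E) :
    fderiv ℝ (mv μ ρ f) x e = mv μ (fun z => fderiv ℝ ρ z e) f x := by
  have h1 := hc.hasFDerivAt_convolution_right
    ((ContinuousLinearMap.lsmul ℝ ℝ : ℝ →L[ℝ] ℝ →L[ℝ] ℝ).flip) hf (hρ.of_le (by simp)) x
  have h2 : fderiv ℝ (mv μ ρ f) x = _ := h1.fderiv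
  rw [h2, convolution_precompR_apply _ hf (hc.fderiv ℝ) (hρ.continuous_fderiv (by simp))]
  rfl

lemma fderiv2_mv {ρ : E → ℝ} (hρ : ContDiff ℝ ∞ ρ) (hc : HasCompactSupport ρ) {f : E → ℝ}
    (hf : LocallyIntegrable f μ) (x e e' : E) :
    fderiv ℝ (fderiv ℝ (mv μ ρ f)) x e' e =
      mv μ (fun z => fderiv ℝ (fun y => fderiv ℝ ρ y e) z e') f x := by
  have h1 := contDiff_mv hρ hc hf
  have h2 : (fun y => fderiv ℝ (mv μ ρ f) y e) = mv μ (fun z => fderiv ℝ ρ z e) f := by
    funext y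
    exact fderiv_mv hρ hc hf y e
  have h3 : DifferentiableAt ℝ (fderiv ℝ (mv μ ρ f)) x :=
    ((h1.fderiv_right (m := ∞) (by simp)).differentiable (by simp)) x
  have h4 : fderiv ℝ (fun y => fderiv ℝ (mv μ ρ f) y e) x e' =
      fderiv ℝ (fderiv ℝ (mv μ ρ f)) x e' e := by
    rw [fderiv_clm_apply h3 (differentiableAt_const e)]
    simp
  rw [← h4, h2]
  refine fderiv_mv ?_ ?_ hf x e'
  · exact (hρ.fderiv_right (m := ∞) (by simp)).clm_apply contDiff_const
  · exact (hc.fderiv (𝕜 := ℝ)).comp_left (g := fun L : E →L[ℝ] ℝ => L e) (by simp)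

end conv

/-! ### the mollification `mo` -/

section mo
variable {n : ℕ} {δ : ℝ} {η : Cm n → ℝ}

lemma mo_eq_mv (η f : Cm n → ℝ) (z : Cm n) : mo η f z = mv volume (fun x => η (-x)) f z := by
  have h := integral_add_left_eq_self (μ := (volume : Measure (Cm n)))
    (fun y => η (y - z) * f y) z
  simp only [add_sub_cancel_left] at h
  unfold mo mv
  rw [h]
  simp

lemma tsupport_of (h : ∀ t, δ ≤ ‖t‖ → η t = 0) : tsupport η ⊆ closedBall 0 δ := by
  refine closure_minimal ?_ isClosed_closedBall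
  intro t ht
  by_contra hc
  exact ht (h t (by
    have : ¬ ‖t‖ ≤ δ := by simpa using hc
    exact (not_le.1 this).le))

lemma compact_of (h : ∀ t, δ ≤ ‖t‖ → η t = 0) : HasCompactSupport η :=
  (isCompact_closedBall (0 : Cm n) δ).of_isClosed_subset (isClosed_tsupport η) (tsupport_of h)

lemma mo_congr (h : ∀ t, δ ≤ ‖t‖ → η t = 0) {f g : Cm n → ℝ} {z : Cm n}
    (hfg : ∀ y ∈ ball z δ, f y = g y) : mo η f z = mo η g z := by
  unfold mo
  refine integral_congr_ae (Eventually.of_forall fun t => ?_)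
  show η t * f (z + t) = η t * g (z + t)
  by_cases ht : δ ≤ ‖t‖
  · rw [h t ht]; simp
  · rw [hfg (z + t) (by simpa using not_le.1 ht)]

lemma integrable_mo (hη : Continuous η) (h : ∀ t, δ ≤ ‖t‖ → η t = 0) {f : Cm n → ℝ} {z : Cm n}
    (hf : ContinuousOn f (closedBall z δ)) : Integrable (fun t => η t * f (z + t)) := by
  have h1 : IntegrableOn (fun t => η t * f (z + t)) (closedBall 0 δ) := by
    refine ContinuousOn.integrableOn_compact (isCompact_closedBall _ _) ?_
    refine hη.continuousOn.mul (hf.comp (by fun_prop) ?_)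
    intro t ht
    simpa using ht
  refine (integrableOn_iff_integrable_of_support_subset ?_).1 h1
  intro t ht
  by_contra hc
  refine ht ?_
  have : δ ≤ ‖t‖ := by
    have : ¬ ‖t‖ ≤ δ := by simpa using hc
    exact (not_le.1 this).le
  simp [h t this]

lemma mo_sub_const (hη : Continuous η) (h : ∀ t, δ ≤ ‖t‖ → η t = 0) (h1 : ∫ t, η t = 1)
    {f : Cm n → ℝ} {z : Cm n} (hf : ContinuousOn f (closedBall z δ)) (k : ℝ) :
    mo η (fun y => f y - k) z = mo η f z - k := by
  unfold mo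
  have h2 : Integrable (fun t => η t * k) :=
    (hη.integrable_of_hasCompactSupport (compact_of h)).mul_const k
  simp only [mul_sub]
  rw [integral_sub (integrable_mo hη h hf) h2, integral_mul_const, h1, one_mul]

lemma mo_dist (hη : Continuous η) (h0 : ∀ t, 0 ≤ η t) (h : ∀ t, δ ≤ ‖t‖ → η t = 0)
    (h1 : ∫ t, η t = 1) {f g : Cm n → ℝ} {z : Cm n} (hf : ContinuousOn f (closedBall z δ))
    (hg : ContinuousOn g (closedBall z δ)) {ε : ℝ}
    (hfg : ∀ y ∈ closedBall z δ, |f y - g y| ≤ ε) : |mo η f z - mo η g z| ≤ ε := by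
  unfold mo
  rw [← integral_sub (integrable_mo hη h hf) (integrable_mo hη h hg)]
  calc |∫ t, (η t * f (z + t) - η t * g (z + t))|
      ≤ ∫ t, |η t * f (z + t) - η t * g (z + t)| := abs_integral_le_integral_abs
    _ ≤ ∫ t, η t * ε := by
      refine integral_mono
        ((integrable_mo hη h hf).sub (integrable_mo hη h hg)).abs
        ((hη.integrable_of_hasCompactSupport (compact_of h)).mul_const ε) fun t => ?_
      show |η t * f (z + t) - η t * g (z + t)| ≤ η t * ε
      rw [← mul_sub, abs_mul, abs_of_nonneg (h0 t)]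
      by_cases ht : δ ≤ ‖t‖
      · rw [h t ht]; simp
      · exact mul_le_mul_of_nonneg_left (hfg _ (by simpa using (not_le.1 ht).le)) (h0 t)
    _ = ε := by rw [integral_mul_const, h1, one_mul]

/-- differences of `mv` -/
lemma mv_dist {ρ : Cm n → ℝ} (hρ : Continuous ρ) (hc : HasCompactSupport ρ) {f g : Cm n → ℝ}
    (hf : LocallyIntegrable f) (hg : LocallyIntegrable g) {ε : ℝ} (hfg : ∀ y, |f y - g y| ≤ ε)
    (z : Cm n) : |mv volume ρ f z - mv volume ρ g z| ≤ (∫ y, |ρ (z - y)|) * ε := by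
  have i : ∀ {f : Cm n → ℝ}, LocallyIntegrable f → Integrable (fun y => ρ (z - y) * f y) := by
    intro f hf
    exact HasCompactSupport.convolutionExists_right
      ((ContinuousLinearMap.lsmul ℝ ℝ : ℝ →L[ℝ] ℝ →L[ℝ] ℝ).flip) hc hf hρ z
  unfold mv
  rw [← integral_sub (i hf) (i hg)]
  have hi : Integrable fun y => |ρ (z - y)| := by
    have h1 : Continuous fun y => ρ (z - y) := by fun_prop
    have h2 : HasCompactSupport fun y => ρ (z - y) :=
      hc.comp_homeomorph (Homeomorph.subLeft z)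
    exact (h1.integrable_of_hasCompactSupport h2).abs
  calc |∫ y, (ρ (z - y) * f y - ρ (z - y) * g y)|
      ≤ ∫ y, |ρ (z - y) * f y - ρ (z - y) * g y| := abs_integral_le_integral_abs
    _ ≤ ∫ y, |ρ (z - y)| * ε := by
      refine integral_mono ((i hf).sub (i hg)).abs (hi.mul_const ε) fun y => ?_
      show |ρ (z - y) * f y - ρ (z - y) * g y| ≤ |ρ (z - y)| * ε
      rw [← mul_sub, abs_mul]
      exact mul_le_mul_of_nonneg_left (hfg _) (abs_nonneg _)
    _ = (∫ y, |ρ (z - y)|) * ε := integral_mul_const _ _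

end mo

/-! ### uniform convergence, Lipschitz functions with small `L²` norm -/

section lip
variable {E : Type*} [NormedAddCommGroup E]

/-- Pointwise convergence of equi-Lipschitz functions on a compact set is uniform. -/
lemma unif_of_lip {K : Set E} (hK : IsCompact K) {ι : Type*} {F : ι → E → ℝ} {G : E → ℝ}
    {𝒰 : Filter ι} [𝒰.NeBot] {L : ℝ} (hL0 : 0 ≤ L)
    (hL : ∀ k, ∀ x ∈ K, ∀ y ∈ K, |F k x - F k y| ≤ L * ‖x - y‖)
    (hG : ∀ x ∈ K, Tendsto (fun k => F k x) 𝒰 (𝓝 (G x))) {ε : ℝ} (hε : 0 < ε) :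
    ∀ᶠ k in 𝒰, ∀ x ∈ K, |F k x - G x| ≤ ε := by
  have hGL : ∀ x ∈ K, ∀ y ∈ K, |G x - G y| ≤ L * ‖x - y‖ := by
    intro x hx y hy
    refine le_of_tendsto ((hG x hx).sub (hG y hy)).abs (Eventually.of_forall fun k => ?_)
    exact hL k x hx y hy
  set s := ε / (3 * (L + 1)) with hs
  have hs0 : 0 < s := by positivity
  obtain ⟨t, htK, htf, ht⟩ := hK.elim_finite_subcover_image (b := K) (c := fun x => ball x s)
    (fun x _ => isOpen_ball) (fun x hx => mem_iUnion₂.2 ⟨x, hx, mem_ball_self hs0⟩)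
  have h1 : ∀ᶠ k in 𝒰, ∀ x ∈ t, |F k x - G x| ≤ ε / 3 := by
    rw [htf.eventually_all]
    intro x hx
    have h2 := (hG x (htK hx)).sub_const (G x)
    rw [sub_self] at h2
    have h3 := h2.abs
    rw [abs_zero] at h3
    exact (h3.eventually (gt_mem_nhds (by positivity : (0:ℝ) < ε / 3))).mono fun k hk => hk.le
  filter_upwards [h1] with k hk x hx
  obtain ⟨y, hy, hxy⟩ := mem_iUnion₂.1 (ht hx)
  have h2 : ‖x - y‖ < s := by simpa [dist_eq_norm] using hxy
  have h3 : L * ‖x - y‖ ≤ ε / 3 := by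
    calc L * ‖x - y‖ ≤ (L + 1) * s := by
          apply mul_le_mul (by linarith) h2.le (norm_nonneg _) (by linarith)
      _ = ε / 3 := by rw [hs]; field_simp
  have h4 := hL k x hx y (htK hy)
  have h5 := hk y hy
  have h6 := hGL y (htK hy) x hx
  rw [norm_sub_rev] at h6
  calc |F k x - G x| = |(F k x - F k y) + (F k y - G y) + (G y - G x)| := by ring_nf
    _ ≤ |F k x - F k y| + |F k y - G y| + |G y - G x| := by
      refine (abs_add_le _ _).trans ?_
      gcongr
      exact abs_add_le _ _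
    _ ≤ ε := by linarith

/-- A Lipschitz function with small `L²` norm is small. -/
lemma sq_le_of_lip [MeasurableSpace E] [BorelSpace E] {μ : Measure E} {h : E → ℝ} {z : E}
    {s t L τ : ℝ} (ht : t ≤ s) (hL : ∀ y ∈ ball z s, |h y - h z| ≤ L * ‖y - z‖)
    (hL0 : 0 ≤ L) (hi : IntegrableOn (fun y => h y ^ 2) (ball z s) μ) (hμ : μ (ball z t) ≠ ⊤)
    (hτ : ∫ y in ball z s, h y ^ 2 ∂μ ≤ τ) :
    μ.real (ball z t) * h z ^ 2 ≤ 2 * τ + μ.real (ball z t) * (2 * (L * t) ^ 2) := by
  have h1 : ∀ y ∈ ball z t, h z ^ 2 ≤ 2 * h y ^ 2 + 2 * (L * t) ^ 2 := by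
    intro y hy
    have h2 := hL y (ball_subset_ball ht hy)
    have h3 : ‖y - z‖ < t := by simpa [dist_eq_norm] using hy
    have h4 : |h y - h z| ≤ L * t := h2.trans (mul_le_mul_of_nonneg_left h3.le hL0)
    have h5 : (h y - h z) ^ 2 ≤ (L * t) ^ 2 := by
      rw [← sq_abs]
      exact pow_le_pow_left₀ (abs_nonneg _) h4 2
    nlinarith [sq_nonneg (2 * h y - h z)]
  have hi2 : IntegrableOn (fun y => h y ^ 2) (ball z t) μ := hi.mono_set (ball_subset_ball ht)
  have hi3 : IntegrableOn (fun y => 2 * h y ^ 2) (ball z t) μ := hi2.const_mul 2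
  have hi4 : IntegrableOn (fun _ : E => 2 * (L * t) ^ 2) (ball z t) μ := integrableOn_const hμ
  have h6 := setIntegral_mono_on (μ := μ) (s := ball z t) (f := fun _ => h z ^ 2)
    (g := fun y => 2 * h y ^ 2 + 2 * (L * t) ^ 2) (integrableOn_const hμ)
    (hi3.add hi4) measurableSet_ball h1
  rw [setIntegral_const, smul_eq_mul, integral_add hi3 hi4,
    setIntegral_const, smul_eq_mul, integral_const_mul] at h6
  have h7 : ∫ y in ball z t, h y ^ 2 ∂μ ≤ ∫ y in ball z s, h y ^ 2 ∂μ :=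
    setIntegral_mono_set hi (Eventually.of_forall fun y => sq_nonneg _)
      (ball_subset_ball ht).eventuallyLE
  linarith

end lip

end Vale.Agent.P284.H35.V
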