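import Vale.Agent.P284.H35.Mero1
import Mathlib.MeasureTheory.Measure.Lebesgue.EqHaar
import Mathlib.Analysis.Normed.Operator.Banach
import Mathlib.MeasureTheory.Measure.OpenPos
import Mathlib.Topology.Algebra.MvPolynomial

/-!
# P284 (helper35): meromorphic maps `ℂᴺ ⇢ X` of finite order give entire curves of finite order through
one point, in a Zariski dense set of directions.
-/

open scoped Manifold ContDiff Topology ComplexConjugate ComplexOrder ENNReal
open Filter Set Metric MeasureTheory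

noncomputable section

namespace Vale.Agent.P284.H35.Mero

open Vale.Agent.P272.K Vale.Agent.P284.H894.V Vale.Agent.P284.H894.F Vale.Agent.P284.H5.V
  Vale.Agent.P284.H636 Vale.Agent.P284.H894.G

/-- The measure lemma: finite order along almost every complex line through a point. -/
def RaysStmt (N : ℕ) : Prop :=
  ∀ F : Cm N → ℝ≥0∞, Measurable F → ∀ (ζ₀ : Cm N) (C ρ : ℝ),
    (∀ r : ℝ, 1 ≤ r → ∫⁻ ζ in ball (0 : Cm N) r, F ζ ≤ ENNReal.ofReal (C * r ^ ρ)) →
    ∃ ρ' : ℝ, ∀ᵐ v ∂((volume : Measure (Cm N)).restrict (ball (0 : Cm N) 1)), ∃ C' : ℝ,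
      ∀ r : ℝ, 1 ≤ r →
        ∫⁻ t in ball (0 : ℂ) r \ ball (0 : ℂ) 1, F (ζ₀ + t • v) ≤ ENNReal.ofReal (C' * r ^ ρ')

variable {N n : ℕ} {X : Type} [TopologicalSpace X] [ChartedSpace (Cm n) X]
  [IsManifold 𝓘(ℂ, Cm n) ω X]
  {w : Chart n X → Cm n → Matrix (Fin n) (Fin n) ℂ} {Φ : Cm N → X} {U : Set (Cm N)}

/-- The bound for the energy of a line. -/
lemma order_line (hw : IsHermitian w) (hU : IsOpen U)
    (hΦ : ContMDiffOn 𝓘(ℂ, Cm N) 𝓘(ℂ, Cm n) ω Φ U) {ζ₀ v : Cm N} (hl : ∀ t : ℂ, ln ζ₀ v t ∈ U)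
    (hv : ‖v‖ ≤ 1) {C' ρ' : ℝ} (hC : ∀ r : ℝ, 1 ≤ r → ∫⁻ t in ball (0 : ℂ) r \ ball (0 : ℂ) 1,
      U.indicator (fun ζ => ENNReal.ofReal (enDensN w Φ ζ)) (ζ₀ + t • v) ≤
        ENNReal.ofReal (C' * r ^ ρ')) :
    ∃ C : ℝ, ∀ r : ℝ, 1 ≤ r → ∫ t in ball (0 : ℂ) r, speedSq w (fun t => Φ (ln ζ₀ v t)) t ≤
      C * r ^ (max ρ' 0) := by
  have hΦa : ∀ ξ ∈ U, ContMDiffAt 𝓘(ℂ, Cm N) 𝓘(ℂ, Cm n) ω Φ ξ := fun ξ hξ =>
    hΦ.contMDiffAt (hU.mem_nhds hξ)
  set f : ℂ → X := fun t => Φ (ln ζ₀ v t) with hf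
  set G : ℂ → ℝ≥0∞ := fun t => ENNReal.ofReal (2 ^ N * enDensN w Φ (ln ζ₀ v t)) with hG
  have hGF : ∀ t, G t = ENNReal.ofReal (2 ^ N) *
      U.indicator (fun ζ => ENNReal.ofReal (enDensN w Φ ζ)) (ζ₀ + t • v) := by
    intro t
    rw [hG, indicator_of_mem (show ζ₀ + t • v ∈ U from hl t)]
    simp only
    rw [ENNReal.ofReal_mul (by positivity)]
    rfl
  have hle : ∀ t, ENNReal.ofReal ‖speedSq w f t‖ ≤ G t := fun t => by
    rw [Real.norm_of_nonneg (speedSq_nonneg hw f t)]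
    exact ENNReal.ofReal_le_ofReal (speedSq_le hw (hΦa _ (hl t)) hv)
  -- the unit disc
  have hcont : Continuous fun t : ℂ => enDensN w Φ (ln ζ₀ v t) := by
    rw [continuous_iff_continuousAt]
    intro t
    exact ContinuousAt.comp (g := enDensN w Φ) (enDensN_continuousAt hw hU hΦ (hl t))
      (ln_contDiff ζ₀ v).continuous.continuousAt
  obtain ⟨M, hM⟩ := (isCompact_closedBall (0 : ℂ) 1).exists_bound_of_continuousOn hcont.continuousOn
  have hA : ∫⁻ t in ball (0 : ℂ) 1, G t ≠ ⊤ := by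
    refine ne_top_of_le_ne_top (b := ENNReal.ofReal (2 ^ N * M) * volume (ball (0 : ℂ) 1)) ?_ ?_
    · exact ENNReal.mul_ne_top ENNReal.ofReal_ne_top measure_ball_lt_top.ne
    · rw [← setLIntegral_const]
      refine setLIntegral_mono' measurableSet_ball fun t ht => ?_
      refine ENNReal.ofReal_le_ofReal (mul_le_mul_of_nonneg_left ?_ (by positivity))
      exact (le_abs_self _).trans (hM t (ball_subset_closedBall ht))
  set A : ℝ := (∫⁻ t in ball (0 : ℂ) 1, G t).toReal with hAdef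
  refine ⟨A + 2 ^ N * |C'|, fun r hr => ?_⟩
  have h1 : ∫ t in ball (0 : ℂ) r, speedSq w f t ≤
      (∫⁻ t in ball (0 : ℂ) r, G t).toReal ∨ ∫⁻ t in ball (0 : ℂ) r, G t = ⊤ := by
    by_cases htop : ∫⁻ t in ball (0 : ℂ) r, G t = ⊤
    · exact Or.inr htop
    · left
      refine (le_abs_self _).trans ?_
      rw [← Real.norm_eq_abs]
      refine (norm_integral_le_lintegral_norm _).trans ?_
      exact ENNReal.toReal_mono htop (lintegral_mono fun t => hle t)
  have h2 : ∫⁻ t in ball (0 : ℂ) r, G t ≤ ENNReal.ofReal (A + 2 ^ N * (|C'| * r ^ ρ')) := by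
    have hsub : ball (0 : ℂ) r ⊆ ball (0 : ℂ) 1 ∪ (ball (0 : ℂ) r \ ball (0 : ℂ) 1) := fun t ht => by
      by_cases h : t ∈ ball (0 : ℂ) 1
      · exact Or.inl h
      · exact Or.inr ⟨ht, h⟩
    refine (lintegral_mono_set hsub).trans ((lintegral_union_le _ _ _).trans ?_)
    rw [ENNReal.ofReal_add ENNReal.toReal_nonneg (by positivity)]
    refine add_le_add (ENNReal.ofReal_toReal hA).ge ?_
    calc ∫⁻ t in ball (0 : ℂ) r \ ball (0 : ℂ) 1, G t
        = ENNReal.ofReal (2 ^ N) * ∫⁻ t in ball (0 : ℂ) r \ ball (0 : ℂ) 1,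
          U.indicator (fun ζ => ENNReal.ofReal (enDensN w Φ ζ)) (ζ₀ + t • v) := by
          rw [← lintegral_const_mul' _ _ ENNReal.ofReal_ne_top]
          exact lintegral_congr fun t => hGF t
      _ ≤ ENNReal.ofReal (2 ^ N) * ENNReal.ofReal (C' * r ^ ρ') := by gcongr; exact hC r hr
      _ ≤ ENNReal.ofReal (2 ^ N) * ENNReal.ofReal (|C'| * r ^ ρ') := by
          gcongr
          exact le_abs_self _
      _ = ENNReal.ofReal (2 ^ N * (|C'| * r ^ ρ')) := (ENNReal.ofReal_mul (by positivity)).symm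
  have h3 : ∫ t in ball (0 : ℂ) r, speedSq w f t ≤ A + 2 ^ N * (|C'| * r ^ ρ') := by
    rcases h1 with h1 | h1
    · refine h1.trans ?_
      have h4 := ENNReal.toReal_mono ENNReal.ofReal_ne_top h2
      rwa [ENNReal.toReal_ofReal (by positivity)] at h4
    · rw [h1] at h2
      exact absurd (top_le_iff.1 h2) ENNReal.ofReal_ne_top
  refine h3.trans ?_
  have h5 : r ^ ρ' ≤ r ^ (max ρ' 0) := Real.rpow_le_rpow_of_exponent_le hr (le_max_left _ _)
  have h6 : 1 ≤ r ^ (max ρ' 0) := Real.one_le_rpow hr (le_max_right _ _)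
  have hA0 : 0 ≤ A := ENNReal.toReal_nonneg
  calc A + 2 ^ N * (|C'| * r ^ ρ') ≤ A * r ^ (max ρ' 0) + 2 ^ N * (|C'| * r ^ (max ρ' 0)) := by
        refine add_le_add (le_mul_of_one_le_right hA0 h6) ?_
        gcongr
    _ = _ := by ring

/-- Finite order curves through one point in a Zariski dense set of directions. -/
theorem curveDense_of_mero (hrays : RaysStmt N) (hw : IsHermitian w) (h : HasFiniteOrderM w U Φ) :
    ∃ x, CurveDense w x := by
  obtain ⟨ζ₀, hζ₀, i, hd⟩ := h.nondeg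
  obtain ⟨C, ρ, ho⟩ := h.order
  have hU := h.isOpen
  have hΦa : ∀ ξ ∈ U, ContMDiffAt 𝓘(ℂ, Cm N) 𝓘(ℂ, Cm n) ω Φ ξ := fun ξ hξ =>
    h.holo.contMDiffAt (hU.mem_nhds hξ)
  set e := chartAt (Cm n) (Φ ζ₀) with he
  have hAt : At e (Φ ζ₀) := at_chartAt _
  -- the measurable function
  set F : Cm N → ℝ≥0∞ := U.indicator (fun ζ => ENNReal.ofReal (enDensN w Φ ζ)) with hF
  have hFm : Measurable F := by
    classical
    have hc : ContinuousOn (fun ζ => ENNReal.ofReal (enDensN w Φ ζ)) U := fun ζ hζ =>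
      (ContinuousAt.comp (g := ENNReal.ofReal) (f := enDensN w Φ)
        ENNReal.continuous_ofReal.continuousAt
        (enDensN_continuousAt hw hU h.holo hζ)).continuousWithinAt
    rw [hF, ← piecewise_eq_indicator]
    exact hc.measurable_piecewise continuousOn_const hU.measurableSet
  have hFo : ∀ r : ℝ, 1 ≤ r → ∫⁻ ζ in ball (0 : Cm N) r, F ζ ≤ ENNReal.ofReal (C * r ^ ρ) := by
    intro r hr
    rw [hF, setLIntegral_indicator hU.measurableSet, inter_comm]
    exact ho r hr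
  obtain ⟨ρ', hr'⟩ := hrays F hFm ζ₀ C ρ hFo
  -- almost every line lies in `U`
  have hlines : ∀ᵐ v : Cm N, ∀ t : ℂ, ln ζ₀ v t ∈ U := by
    have h1 := (measurePreserving_add_left (volume : Measure (Cm N)) ζ₀).quasiMeasurePreserving.ae
      (h.lines ζ₀ hζ₀)
    filter_upwards [h1] with v hv t
    have := hv t
    rwa [add_sub_cancel_left] at this
  -- the derivative
  set L : Cm N →L[ℂ] Cm n := fderiv ℂ (fun ξ => e (Φ ξ)) ζ₀ with hL
  have hτ := (tau_smooth (hΦa ζ₀ hζ₀) hAt).differentiableAt (by simp)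
  have hsurj : Function.Surjective L := by
    set J : Matrix (Fin n) (Fin n) ℂ :=
      Matrix.of fun k j => dz (i j) (fun ξ => chartAt (Cm n) (Φ ζ₀) (Φ ξ) k) ζ₀ with hJ
    intro y
    have hdu : IsUnit J.det := isUnit_iff_ne_zero.2 hd
    set c : Cm n := J⁻¹.mulVec y with hc
    refine ⟨∑ j, c j • (Pi.single (i j) (1 : ℂ) : Cm N), ?_⟩
    rw [map_sum]
    have h1 : ∀ j, L (c j • (Pi.single (i j) (1 : ℂ) : Cm N)) = fun k => J k j * c j := by
      intro j
      rw [map_smul, hL, ← pd_eq' (hΦa ζ₀ hζ₀) hAt]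
      funext k
      simp only [Pi.smul_apply, smul_eq_mul, hJ, Matrix.of_apply, pd]
      ring
    rw [Finset.sum_congr rfl fun j _ => h1 j]
    have h2 : (∑ j, fun k => J k j * c j) = J.mulVec c := by
      funext k
      rw [Finset.sum_apply]
      rfl
    rw [h2, hc, Matrix.mulVec_mulVec, Matrix.mul_nonsing_inv _ hdu, Matrix.one_mulVec]
  refine ⟨Φ ζ₀, max ρ' 0, fun k P hP h0 => ?_⟩
  have hae : ∀ᵐ v ∂((volume : Measure (Cm N)).restrict (ball (0 : Cm N) 1)),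
      MvPolynomial.eval (L v) P = 0 := by
    filter_upwards [hr', ae_restrict_of_ae hlines, ae_restrict_mem measurableSet_ball] with v h1 h2 h3
    obtain ⟨C', hC'⟩ := h1
    have hv : ‖v‖ ≤ 1 := (mem_ball_zero_iff.1 h3).le
    have hln0 : ln ζ₀ v 0 = ζ₀ := by simp [ln]
    refine h0 (L v) (fun t => Φ (ln ζ₀ v t)) ⟨line_contMDiff hU h.holo h2, by rw [hln0], fun k => ?_,
      order_line hw hU h.holo h2 hv hC'⟩
    have h4 : HasDerivAt (fun s => e (Φ (ln ζ₀ v s))) (L v) 0 := by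
      have h5 : HasFDerivAt (fun ξ => e (Φ ξ)) L (ln ζ₀ v 0) := by rw [hln0]; exact hτ.hasFDerivAt
      exact HasFDerivAt.comp_hasDerivAt (f := ln ζ₀ v) 0 h5 (ln_hasFDerivAt ζ₀ v 0)
    exact ((hasDerivAt_pi.1 h4) k).deriv
  have hcP : Continuous fun v : Cm N => MvPolynomial.eval (L v) P :=
    (MvPolynomial.continuous_eval P).comp L.continuous
  have hall : EqOn (fun v : Cm N => MvPolynomial.eval (L v) P) (fun _ => 0) (ball (0 : Cm N) 1) :=
    Measure.eqOn_open_of_ae_eq hae isOpen_ball hcP.continuousOn continuousOn_const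
  refine CR.mvpoly_eq_zero_of_interior (D := L '' ball (0 : Cm N) 1) ?_ ?_
  · rw [(L.isOpenMap hsurj _ isOpen_ball).interior_eq]
    exact (nonempty_ball.2 one_pos).image _
  · rintro _ ⟨v, hv, rfl⟩
    exact hall hv

end Vale.Agent.P284.H35.Mero
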