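import Vale.Agent.P284.H636.Slice

/-!
# P284 (helper35): functions of polynomial growth of the integral have polynomial growth of the integral
along almost every complex line through a point.
-/

open Filter Set Metric MeasureTheory
open scoped Topology ENNReal

noncomputable section

namespace Vale.Agent.P284.H35.Rays

open Vale.Agent.P284.H636 (Cv lint_translate)

variable {N : ℕ}

/-- multiplication by a complex number, as a real linear map -/
def mulT (N : ℕ) (t : ℂ) : Cv N →ₗ[ℝ] Cv N := (t • (LinearMap.id : Cv N →ₗ[ℂ] Cv N)).restrictScalars ℝ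

lemma mulT_apply (t : ℂ) (v : Cv N) : mulT N t v = t • v := rfl

lemma mulT_det {t : ℂ} (ht : t ≠ 0) : LinearMap.det (mulT N t) ≠ 0 := by
  have h : (mulT N t).comp (mulT N t⁻¹) = LinearMap.id := by
    ext v
    simp [mulT, ht]
  intro h0
  have h1 := congrArg LinearMap.det h
  rw [LinearMap.det_comp, h0, zero_mul, LinearMap.det_id] at h1
  exact zero_ne_one h1

/-- Dilation by a complex number of modulus at least one. -/
lemma lint_dil (F : Cv N → ℝ≥0∞) (hF : Measurable F) {t : ℂ} (ht : 1 ≤ ‖t‖) :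
    ∫⁻ v in ball (0 : Cv N) 1, F (t • v) ≤ ∫⁻ y in ball (0 : Cv N) ‖t‖, F y := by
  have ht0 : t ≠ 0 := fun h => by rw [h, norm_zero] at ht; linarith
  have htp : 0 < ‖t‖ := by linarith
  have hmem : ∀ v : Cv N, t • v ∈ ball (0 : Cv N) ‖t‖ ↔ v ∈ ball (0 : Cv N) 1 := fun v => by
    rw [mem_ball_zero_iff, mem_ball_zero_iff, norm_smul]
    constructor
    · intro h; nlinarith
    · intro h; nlinarith
  have hmap := Measure.map_linearMap_addHaar_eq_smul_addHaar (volume : Measure (Cv N))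
    (mulT_det (N := N) ht0)
  set c : ℝ≥0∞ := ENNReal.ofReal |(LinearMap.det (mulT N t))⁻¹| with hc
  have hcont : Continuous (mulT N t) := (continuous_const_smul t : Continuous fun v : Cv N => t • v)
  have hmeas : Measurable (mulT N t) := hcont.measurable
  -- `c ≤ 1`
  have hc1 : c ≤ 1 := by
    have h1 : Measure.map (mulT N t) volume (ball (0 : Cv N) ‖t‖) = volume (ball (0 : Cv N) 1) := by
      rw [Measure.map_apply hmeas measurableSet_ball]
      congr 1
      ext v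
      exact hmem v
    rw [hmap, Measure.smul_apply, smul_eq_mul] at h1
    have h2 : volume (ball (0 : Cv N) 1) ≤ volume (ball (0 : Cv N) ‖t‖) :=
      measure_mono (ball_subset_ball ht)
    have h3 : volume (ball (0 : Cv N) ‖t‖) ≠ 0 := (measure_ball_pos volume _ htp).ne'
    have h4 : volume (ball (0 : Cv N) ‖t‖) ≠ ⊤ := measure_ball_lt_top.ne
    rw [← h1] at h2
    by_contra hcon
    push Not at hcon
    have h5 : 1 * volume (ball (0 : Cv N) ‖t‖) < c * volume (ball (0 : Cv N) ‖t‖) :=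
      ENNReal.mul_lt_mul_left h3 h4 hcon
    rw [one_mul] at h5
    exact absurd h2 (not_le.2 h5)
  have h1 : ∫⁻ v in ball (0 : Cv N) 1, F (t • v) =
      ∫⁻ y, (ball (0 : Cv N) ‖t‖).indicator F y ∂(Measure.map (mulT N t) volume) := by
    rw [lintegral_map (hF.indicator measurableSet_ball) hmeas,
      ← lintegral_indicator measurableSet_ball]
    refine lintegral_congr fun v => ?_
    by_cases hv : v ∈ ball (0 : Cv N) 1
    · rw [indicator_of_mem hv, indicator_of_mem (show mulT N t v ∈ _ from (hmem v).2 hv)]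
      rfl
    · rw [indicator_of_notMem hv,
        indicator_of_notMem (show mulT N t v ∉ _ from fun h => hv ((hmem v).1 h))]
  rw [h1, hmap, lintegral_smul_measure, lintegral_indicator measurableSet_ball, smul_eq_mul]
  exact mul_le_of_le_one_left' hc1

/-- **Rays.** -/
theorem rays (F : Cv N → ℝ≥0∞) (hF : Measurable F) (ζ₀ : Cv N) (C ρ : ℝ)
    (h : ∀ r : ℝ, 1 ≤ r → ∫⁻ ζ in ball (0 : Cv N) r, F ζ ≤ ENNReal.ofReal (C * r ^ ρ)) :
    ∃ ρ' : ℝ, ∀ᵐ v ∂((volume : Measure (Cv N)).restrict (ball (0 : Cv N) 1)), ∃ C' : ℝ,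
      ∀ r : ℝ, 1 ≤ r →
        ∫⁻ t in ball (0 : ℂ) r \ ball (0 : ℂ) 1, F (ζ₀ + t • v) ≤
          ENNReal.ofReal (C' * r ^ ρ') := by
  obtain ⟨m, hm⟩ := exists_nat_ge ρ
  set C₀ : ℝ := |C| with hC₀
  have hC₀0 : 0 ≤ C₀ := abs_nonneg C
  have h1 : ∀ R : ℝ, 1 ≤ R → ∫⁻ ζ in ball (0 : Cv N) R, F ζ ≤ ENNReal.ofReal (C₀ * R ^ m) := by
    intro R hR
    refine (h R hR).trans (ENNReal.ofReal_le_ofReal ?_)
    calc C * R ^ ρ ≤ C₀ * R ^ ρ :=
          mul_le_mul_of_nonneg_right (le_abs_self C) (Real.rpow_nonneg (by linarith) _)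
      _ ≤ C₀ * R ^ m := by
          refine mul_le_mul_of_nonneg_left ?_ hC₀0
          rw [← Real.rpow_natCast]
          exact Real.rpow_le_rpow_of_exponent_le hR hm
  set K : ℝ := ‖ζ₀‖ + 1 with hK
  have hK1 : 1 ≤ K := by have := norm_nonneg ζ₀; linarith
  set V : ℝ≥0∞ := volume (ball (0 : ℂ) 1) with hV
  have hVt : V ≠ ⊤ := measure_ball_lt_top.ne
  set d : ℕ := Module.finrank ℝ ℂ with hd
  set C₁ : ℝ := V.toReal * (C₀ * K ^ m) with hC₁
  have hC₁0 : 0 ≤ C₁ := by positivity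
  set A : ℕ → Set ℂ := fun k => ball (0 : ℂ) ((2 : ℝ) ^ k) \ ball (0 : ℂ) 1 with hA
  have hAm : ∀ k, MeasurableSet (A k) := fun k => measurableSet_ball.diff measurableSet_ball
  set G : ℕ → Cv N → ℝ≥0∞ := fun k v => ∫⁻ t in A k, F (ζ₀ + t • v) with hG
  have hFun : Measurable (Function.uncurry fun (v : Cv N) (t : ℂ) => F (ζ₀ + t • v)) :=
    hF.comp (measurable_const.add (measurable_snd.smul measurable_fst))
  have hGm : ∀ k, Measurable (G k) := fun k => hFun.lintegral_prod_right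
  -- the mean of `G k`
  have h2 : ∀ k, ∫⁻ v in ball (0 : Cv N) 1, G k v ≤
      ENNReal.ofReal (C₁ * ((2 : ℝ) ^ k) ^ (m + d)) := by
    intro k
    have h2k : (1 : ℝ) ≤ 2 ^ k := one_le_pow₀ (by norm_num)
    have hswap : ∫⁻ v in ball (0 : Cv N) 1, G k v =
        ∫⁻ t in A k, ∫⁻ v in ball (0 : Cv N) 1, F (ζ₀ + t • v) := by
      rw [hG]
      exact lintegral_lintegral_swap hFun.aemeasurable
    rw [hswap]
    have h3 : ∀ t ∈ A k, ∫⁻ v in ball (0 : Cv N) 1, F (ζ₀ + t • v) ≤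
        ENNReal.ofReal (C₀ * (K * 2 ^ k) ^ m) := by
      intro t ht
      have ht1 : 1 ≤ ‖t‖ := by
        have := ht.2
        rwa [mem_ball_zero_iff, not_lt] at this
      have ht2 : ‖t‖ < 2 ^ k := mem_ball_zero_iff.1 ht.1
      have e1 : ∫⁻ v in ball (0 : Cv N) 1, F (ζ₀ + t • v) =
          ∫⁻ v in ball (0 : Cv N) 1, (fun y => F (y + ζ₀)) (t • v) :=
        lintegral_congr fun v => by rw [add_comm]
      rw [e1]
      refine (lint_dil (fun y => F (y + ζ₀)) (hF.comp (measurable_id.add_const ζ₀)) ht1).trans ?_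
      refine (lint_translate F 0 ζ₀ ‖t‖ (K * 2 ^ k) fun c hc => ?_).trans
        (h1 _ (one_le_mul_of_one_le_of_one_le hK1 h2k))
      rw [mem_ball_zero_iff] at hc ⊢
      have h4 := norm_add_le c ζ₀
      have h5 : ‖ζ₀‖ ≤ ‖ζ₀‖ * 2 ^ k := le_mul_of_one_le_right (norm_nonneg _) h2k
      rw [hK]
      nlinarith
    calc ∫⁻ t in A k, ∫⁻ v in ball (0 : Cv N) 1, F (ζ₀ + t • v)
        ≤ ∫⁻ t in A k, ENNReal.ofReal (C₀ * (K * 2 ^ k) ^ m) := setLIntegral_mono' (hAm k) h3
      _ = ENNReal.ofReal (C₀ * (K * 2 ^ k) ^ m) * volume (A k) := setLIntegral_const _ _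
      _ ≤ ENNReal.ofReal (C₀ * (K * 2 ^ k) ^ m) * volume (ball (0 : ℂ) ((2 : ℝ) ^ k)) := by
          gcongr
          exact sdiff_subset
      _ = ENNReal.ofReal (C₁ * ((2 : ℝ) ^ k) ^ (m + d)) := by
          rw [Measure.addHaar_ball_of_pos volume (0 : ℂ) (by positivity : (0 : ℝ) < 2 ^ k), ← hd,
            ← hV]
          rw [← ENNReal.ofReal_toReal hVt, ← ENNReal.ofReal_mul (by positivity),
            ← ENNReal.ofReal_mul (by positivity)]
          congr 1
          rw [hC₁, mul_pow, pow_add]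
          ring
  -- the sum
  set a : ℕ → ℝ≥0∞ := fun k => ENNReal.ofReal ((((2 : ℝ) ^ k) ^ (m + d + 1))⁻¹) with ha
  have h3 : ∫⁻ v in ball (0 : Cv N) 1, ∑' k, a k * G k v ≠ ⊤ := by
    rw [lintegral_tsum fun k => ((hGm k).const_mul _).aemeasurable]
    have h4 : ∀ k, ∫⁻ v in ball (0 : Cv N) 1, a k * G k v ≤ ENNReal.ofReal (C₁ * (1 / 2) ^ k) := by
      intro k
      rw [lintegral_const_mul _ (hGm k)]
      refine (mul_le_mul_right (h2 k) (a k)).trans ?_
      rw [ha]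
      simp only
      rw [← ENNReal.ofReal_mul (by positivity)]
      refine ENNReal.ofReal_le_ofReal (le_of_eq ?_)
      have h5 : ((2 : ℝ) ^ k) ≠ 0 := by positivity
      rw [pow_succ ((2 : ℝ) ^ k) (m + d), one_div, inv_pow]
      field_simp
    refine ne_top_of_le_ne_top ?_ (ENNReal.tsum_le_tsum h4)
    rw [← ENNReal.ofReal_tsum_of_nonneg (fun k => by positivity)
      ((summable_geometric_of_lt_one (by norm_num) (by norm_num)).mul_left C₁)]
    exact ENNReal.ofReal_ne_top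
  have h4 : ∀ᵐ v ∂((volume : Measure (Cv N)).restrict (ball (0 : Cv N) 1)),
      ∑' k, a k * G k v < ⊤ :=
    ae_lt_top (Measurable.tsum fun k => (hGm k).const_mul _) h3
  refine ⟨((m + d + 1 : ℕ) : ℝ), ?_⟩
  filter_upwards [h4] with v hc1
  set S : ℝ≥0∞ := ∑' k, a k * G k v with hS
  refine ⟨S.toReal * 2 ^ (m + d + 1), fun r hr => ?_⟩
  obtain ⟨k, hk1, hk2⟩ := exists_nat_pow_near hr (by norm_num : (1 : ℝ) < 2)
  have h6 : G (k + 1) v ≤ S * ENNReal.ofReal (((2 : ℝ) ^ (k + 1)) ^ (m + d + 1)) := by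
    have h7 : a (k + 1) * G (k + 1) v ≤ S := ENNReal.le_tsum (k + 1)
    have h8 : a (k + 1) * ENNReal.ofReal (((2 : ℝ) ^ (k + 1)) ^ (m + d + 1)) = 1 := by
      rw [ha]
      simp only
      rw [← ENNReal.ofReal_mul (by positivity), inv_mul_cancel₀ (by positivity), ENNReal.ofReal_one]
    calc G (k + 1) v = (a (k + 1) * ENNReal.ofReal (((2 : ℝ) ^ (k + 1)) ^ (m + d + 1))) *
          G (k + 1) v := by rw [h8, one_mul]
      _ = (a (k + 1) * G (k + 1) v) * ENNReal.ofReal (((2 : ℝ) ^ (k + 1)) ^ (m + d + 1)) := by ring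
      _ ≤ _ := by gcongr
  have h9 : ∫⁻ t in ball (0 : ℂ) r \ ball (0 : ℂ) 1, F (ζ₀ + t • v) ≤ G (k + 1) v :=
    lintegral_mono_set (sdiff_subset_sdiff_left (ball_subset_ball hk2.le))
  refine h9.trans (h6.trans ?_)
  have hSt : S ≠ ⊤ := hc1.ne
  calc S * ENNReal.ofReal (((2 : ℝ) ^ (k + 1)) ^ (m + d + 1))
      = ENNReal.ofReal (S.toReal * ((2 : ℝ) ^ (k + 1)) ^ (m + d + 1)) := by
        rw [ENNReal.ofReal_mul ENNReal.toReal_nonneg, ENNReal.ofReal_toReal hSt]
    _ ≤ ENNReal.ofReal (S.toReal * 2 ^ (m + d + 1) * r ^ ((m + d + 1 : ℕ) : ℝ)) := by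
        refine ENNReal.ofReal_le_ofReal ?_
        calc S.toReal * ((2 : ℝ) ^ (k + 1)) ^ (m + d + 1) ≤ S.toReal * (2 * r) ^ (m + d + 1) := by
              refine mul_le_mul_of_nonneg_left ?_ ENNReal.toReal_nonneg
              refine pow_le_pow_left₀ (by positivity) ?_ _
              rw [pow_succ]
              linarith
          _ = S.toReal * 2 ^ (m + d + 1) * r ^ ((m + d + 1 : ℕ) : ℝ) := by
              rw [Real.rpow_natCast, mul_pow]
              ring

end Vale.Agent.P284.H35.Rays
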