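import Vale.Agent.P284.H35.Mero2
import Vale.Agent.P284.H35.Mero3
import Vale.Agent.P284.H35.Rays

/-!
# P284 (helper35): `CurveDense` from maps of finite order (holomorphic or meromorphic).
-/

open scoped Manifold ContDiff Topology ComplexConjugate ComplexOrder ENNReal
open Filter Set Metric MeasureTheory

noncomputable section

namespace Vale.Agent.P284.H35.Mero

open Vale.Agent.P272.K Vale.Agent.P284.H894.V Vale.Agent.P284.H894.F Vale.Agent.P284.H5.V
  Vale.Agent.P284.H636 Vale.Agent.P284.H894.G

theorem raysStmt (N : ℕ) : RaysStmt N := fun F hF ζ₀ C ρ h => Rays.rays F hF ζ₀ C ρ h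

variable {N n : ℕ} {X : Type} [TopologicalSpace X] [ChartedSpace (Cm n) X]
  [IsManifold 𝓘(ℂ, Cm n) ω X]
  {w : Chart n X → Cm n → Matrix (Fin n) (Fin n) ℂ} {Φ : Cm N → X} {U : Set (Cm N)}

/-- A meromorphic map `ℂᴺ ⇢ X` of finite order gives entire curves of finite order through one point in
a Zariski dense set of directions. -/
theorem curveDense_of_M (hw : IsHermitian w) (h : HasFiniteOrderM w U Φ) : ∃ x, CurveDense w x :=
  curveDense_of_mero (raysStmt N) hw h

theorem hasFiniteOrderM_of_N (hw : IsHermitian w) (h : HasFiniteOrderN w Φ) :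
    HasFiniteOrderM w univ Φ := by
  obtain ⟨C, ρ, ho⟩ := h.order
  obtain ⟨ζ, i, hd⟩ := h.nondeg
  refine ⟨isOpen_univ, fun ζ _ => Eventually.of_forall fun η t => mem_univ _, h.holo.contMDiffOn,
    ⟨ζ, mem_univ _, i, hd⟩, C, ρ, fun r hr => ?_⟩
  rw [inter_univ, ← ofReal_integral_eq_lintegral_ofReal]
  · exact ENNReal.ofReal_le_ofReal (ho r hr)
  · exact ((enDensN_continuous hw h.holo).continuousOn.integrableOn_compact
      (isCompact_closedBall (0 : Cm N) r)).mono_set ball_subset_closedBall
  · exact ae_of_all _ fun ζ => enDensN_nonneg hw h.holo ζ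

/-- A holomorphic map `ℂᴺ → X` of finite order gives entire curves of finite order through one point in
a Zariski dense set of directions. -/
theorem curveDense_of_N (hw : IsHermitian w) (h : HasFiniteOrderN w Φ) : ∃ x, CurveDense w x :=
  curveDense_of_M hw (hasFiniteOrderM_of_N hw h)

theorem curveConnected_of_M (h : HasFiniteOrderM w U Φ) (hs : Φ '' U = univ) (x : X) :
    CurveConnected n X x :=
  curveConnected_of_image h.isOpen h.lines h.holo hs x

theorem chain_of_M (h : HasFiniteOrderM w U Φ) {ζ ζ' : Cm N} (hζ : ζ ∈ U) (hζ' : ζ' ∈ U) :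
    Chain n X (Φ ζ) (Φ ζ') :=
  chain_of_lines h.isOpen h.lines h.holo hζ hζ'

end Vale.Agent.P284.H35.Mero
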