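import Vale.Agent.P284.H636.NN
import Vale.Agent.P284.H35.CR

/-!
# P284 (helper35): meromorphic maps `ℂᴺ ⇢ X` of finite order. Definitions and local facts.
-/

open scoped Manifold ContDiff Topology ComplexConjugate ComplexOrder ENNReal
open Filter Set Metric MeasureTheory

noncomputable section

namespace Vale.Agent.P284.H35.Mero

open Vale.Agent.P272.K Vale.Agent.P284.H894.V Vale.Agent.P284.H894.F Vale.Agent.P284.H5.V
  Vale.Agent.P284.H636 Vale.Agent.P284.H894.G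

variable {N n : ℕ}

section
variable {X : Type} [TopologicalSpace X] [ChartedSpace (Cm n) X]

/-- `Φ` is a holomorphic map to `X` defined on the open subset `U` of `ℂᴺ`; almost every complex line
through a point of `U` lies in `U` (for instance the complement of `U` is analytic of codimension at least
two, and `Φ` is a meromorphic map on `ℂᴺ`); `Φ` is nondegenerate (at some point of `U`, its derivative
with respect to some `n` of the coordinates is invertible) and of finite order: the energy of the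
polydiscs of radius `r` is at most `C r ^ ρ`. -/
structure HasFiniteOrderM (w : Chart n X → Cm n → Matrix (Fin n) (Fin n) ℂ) (U : Set (Cm N))
    (Φ : Cm N → X) : Prop where
  isOpen : IsOpen U
  lines : ∀ ζ ∈ U, ∀ᵐ η : Cm N, ∀ t : ℂ, ζ + t • (η - ζ) ∈ U
  holo : ContMDiffOn 𝓘(ℂ, Cm N) 𝓘(ℂ, Cm n) ω Φ U
  nondeg : ∃ ζ ∈ U, ∃ i : Fin n → Fin N,
    (Matrix.of fun k j => dz (i j) (fun ξ => chartAt (Cm n) (Φ ζ) (Φ ξ) k) ζ).det ≠ 0
  order : ∃ C ρ : ℝ, ∀ r : ℝ, 1 ≤ r →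
    ∫⁻ ζ in ball (0 : Cm N) r ∩ U, ENNReal.ofReal (enDensN w Φ ζ) ≤ ENNReal.ofReal (C * r ^ ρ)

end

section
variable {X : Type} [TopologicalSpace X] [ChartedSpace (Cm n) X] [IsManifold 𝓘(ℂ, Cm n) ω X]
  {w : Chart n X → Cm n → Matrix (Fin n) (Fin n) ℂ} {Φ : Cm N → X} {U : Set (Cm N)}

lemma tau_smooth {ζ : Cm N} (hΦ : ContMDiffAt 𝓘(ℂ, Cm N) 𝓘(ℂ, Cm n) ω Φ ζ) {e : Chart n X}
    (he : At e (Φ ζ)) : ContDiffAt ℂ ω (fun ξ => e (Φ ξ)) ζ := by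
  rw [← contMDiffAt_iff_contDiffAt]
  exact ContMDiffAt.comp ζ (chart_contMDiffAt he) hΦ

omit [IsManifold 𝓘(ℂ, Cm n) ω X] in
lemma at_near {ζ : Cm N} (hΦ : ContMDiffAt 𝓘(ℂ, Cm N) 𝓘(ℂ, Cm n) ω Φ ζ) {e : Chart n X}
    (he : At e (Φ ζ)) : ∀ᶠ ξ in 𝓝 ζ, At e (Φ ξ) := by
  filter_upwards [hΦ.continuousAt.eventually (e.open_source.mem_nhds he.2)] with ξ hξ
  exact ⟨he.1, hξ⟩

lemma pd_eq' {ζ : Cm N} (hΦ : ContMDiffAt 𝓘(ℂ, Cm N) 𝓘(ℂ, Cm n) ω Φ ζ) {e : Chart n X}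
    (he : At e (Φ ζ)) (j : Fin N) :
    pd e Φ j ζ = fderiv ℂ (fun ξ => e (Φ ξ)) ζ (Pi.single j 1) := by
  have h := (tau_smooth hΦ he).differentiableAt (by simp)
  funext k
  unfold pd
  rw [dzN_holo ((differentiableAt_pi.1 h) k), fderiv_apply h k]
  rfl

/-- Change of charts. -/
lemma pd_change' {ζ : Cm N} (hΦ : ContMDiffAt 𝓘(ℂ, Cm N) 𝓘(ℂ, Cm n) ω Φ ζ) {e₁ e : Chart n X}
    (h₁ : At e₁ (Φ ζ)) (he : At e (Φ ζ)) (j : Fin N) :
    pd e Φ j ζ = (jacM e₁ e (Φ ζ)).mulVec (pd e₁ Φ j ζ) := by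
  have h1 : (fun ξ => e (Φ ξ)) =ᶠ[𝓝 ζ] fun ξ => e (e₁.symm (e₁ (Φ ξ))) := by
    filter_upwards [at_near hΦ h₁] with ξ hξ
    rw [hξ.left_inv]
  have hτ := (tau_smooth hΦ h₁).differentiableAt (by simp)
  have hσ : DifferentiableAt ℂ (fun z => e (e₁.symm z)) (e₁ (Φ ζ)) :=
    transition_differentiableAt h₁ he
  rw [pd_eq' hΦ he, pd_eq' hΦ h₁, h1.fderiv_eq]
  rw [show (fun ξ => e (e₁.symm (e₁ (Φ ξ)))) = (fun z => e (e₁.symm z)) ∘ (fun ξ => e₁ (Φ ξ))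
    from rfl, fderiv_comp ζ hσ hτ, ContinuousLinearMap.comp_apply]
  funext p
  rw [jmat_mulVec hσ]
  rfl

/-- The energy density in a chart. -/
lemma enDensN_eq' (hw : IsHermitian w) {ζ : Cm N}
    (hΦ : ContMDiffAt 𝓘(ℂ, Cm N) 𝓘(ℂ, Cm n) ω Φ ζ)
    {e : Chart n X} (he : At e (Φ ζ)) :
    enDensN w Φ ζ = ∑ j, (qf (w e (e (Φ ζ))) (pd e Φ j ζ)).re := by
  have h0 : enDensN w Φ ζ = ∑ j, (qf (w (chartAt (Cm n) (Φ ζ)) (chartAt (Cm n) (Φ ζ) (Φ ζ)))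
      (pd (chartAt (Cm n) (Φ ζ)) Φ j ζ)).re := by
    rw [← Complex.re_sum]
    rfl
  rw [h0]
  have hAt : At (chartAt (Cm n) (Φ ζ)) (Φ ζ) := at_chartAt _
  refine Finset.sum_congr rfl fun j _ => ?_
  rw [hw.change _ e (Φ ζ) hAt he, qf_change, ← pd_change' hΦ hAt he]

lemma pd_continuousAt' {ζ : Cm N} (hΦ : ContMDiffAt 𝓘(ℂ, Cm N) 𝓘(ℂ, Cm n) ω Φ ζ) {e : Chart n X}
    (he : At e (Φ ζ)) (j : Fin N) (k : Fin n) : ContinuousAt (fun ξ => pd e Φ j ξ k) ζ := by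
  have h2 : ContDiffAt ℝ ω (fun ξ => e (Φ ξ) k) ζ :=
    (contDiffAt_pi.1 ((tau_smooth hΦ he).restrict_scalars ℝ)) k
  exact (contDiffAt_dz (m := 0) h2 (by simp)).continuousAt

lemma enDensN_continuousAt (hw : IsHermitian w) (hU : IsOpen U)
    (hΦ : ContMDiffOn 𝓘(ℂ, Cm N) 𝓘(ℂ, Cm n) ω Φ U) {ζ : Cm N} (hζ : ζ ∈ U) :
    ContinuousAt (enDensN w Φ) ζ := by
  have hΦa : ∀ ξ ∈ U, ContMDiffAt 𝓘(ℂ, Cm N) 𝓘(ℂ, Cm n) ω Φ ξ := fun ξ hξ =>
    hΦ.contMDiffAt (hU.mem_nhds hξ)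
  set e := chartAt (Cm n) (Φ ζ) with he
  have hAt : At e (Φ ζ) := at_chartAt _
  have h1 : enDensN w Φ =ᶠ[𝓝 ζ] fun ξ => ∑ j, (qf (w e (e (Φ ξ))) (pd e Φ j ξ)).re := by
    filter_upwards [at_near (hΦa ζ hζ) hAt, hU.mem_nhds hζ] with ξ hξ hξU
    exact enDensN_eq' hw (hΦa ξ hξU) hξ
  refine ContinuousAt.congr ?_ h1.symm
  have hw' : ∀ k l, ContinuousAt (fun ξ => w e (e (Φ ξ)) k l) ζ := fun k l =>
    ContinuousAt.comp (f := fun ξ => e (Φ ξ)) (g := fun z => w e z k l)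
      (hw.smooth e _ hAt k l).continuousAt (tau_smooth (hΦa ζ hζ) hAt).continuousAt
  refine tendsto_finsetSum _ fun j _ => ?_
  refine Complex.continuous_re.continuousAt.comp (f := fun ξ => qf (w e (e (Φ ξ))) (pd e Φ j ξ)) ?_
  refine tendsto_finsetSum _ fun k _ => tendsto_finsetSum _ fun l _ => ?_
  exact ((hw' k l).mul (pd_continuousAt' (hΦa ζ hζ) hAt j k)).mul
    (Complex.continuous_conj.continuousAt.comp (pd_continuousAt' (hΦa ζ hζ) hAt j l))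

lemma enDensN_nonneg' (hw : IsHermitian w) {ζ : Cm N}
    (hΦ : ContMDiffAt 𝓘(ℂ, Cm N) 𝓘(ℂ, Cm n) ω Φ ζ) : 0 ≤ enDensN w Φ ζ := by
  have hAt := at_chartAt (n := n) (Φ ζ)
  rw [enDensN_eq' hw hΦ hAt]
  exact Finset.sum_nonneg fun j _ => qf_nonneg (hw.posDef _ _ hAt) _

/-! ### Quadratic forms -/

lemma qf_add_le {A : Matrix (Fin n) (Fin n) ℂ} (hA : A.PosDef) (u v : Cm n) :
    (qf A (u + v)).re ≤ 2 * (qf A u).re + 2 * (qf A v).re := by
  have h1 : qf A (u + v) + qf A (u - v) = 2 * qf A u + 2 * qf A v := by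
    unfold qf
    rw [← Finset.sum_add_distrib, Finset.mul_sum, Finset.mul_sum, ← Finset.sum_add_distrib]
    refine Finset.sum_congr rfl fun j _ => ?_
    rw [← Finset.sum_add_distrib, Finset.mul_sum, Finset.mul_sum, ← Finset.sum_add_distrib]
    refine Finset.sum_congr rfl fun k _ => ?_
    simp only [Pi.add_apply, Pi.sub_apply, map_add, map_sub]
    ring
  have h2 := congrArg Complex.re h1
  have h3 := qf_nonneg hA (u - v)
  simp only [Complex.add_re, Complex.mul_re, Complex.re_ofNat, Complex.im_ofNat, zero_mul,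
    sub_zero] at h2
  linarith

lemma qf_smul (A : Matrix (Fin n) (Fin n) ℂ) (c : ℂ) (v : Cm n) :
    qf A (c • v) = (‖c‖ ^ 2 : ℝ) * qf A v := by
  unfold qf
  rw [Finset.mul_sum]
  refine Finset.sum_congr rfl fun j _ => ?_
  rw [Finset.mul_sum]
  refine Finset.sum_congr rfl fun k _ => ?_
  have h : (c * conj c : ℂ) = ((‖c‖ ^ 2 : ℝ) : ℂ) := by
    rw [Complex.mul_conj, Complex.normSq_eq_norm_sq]
  simp only [Pi.smul_apply, smul_eq_mul, map_mul]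
  rw [← h]
  ring

lemma qf_sum_le {A : Matrix (Fin n) (Fin n) ℂ} (hA : A.PosDef) {ι : Type*} (s : Finset ι)
    (c : ι → ℂ) (hc : ∀ i, ‖c i‖ ≤ 1) (u : ι → Cm n) :
    (qf A (∑ i ∈ s, c i • u i)).re ≤ 2 ^ s.card * ∑ i ∈ s, (qf A (u i)).re := by
  classical
  induction s using Finset.induction_on with
  | empty => simp [qf]
  | insert a s ha ih =>
    rw [Finset.sum_insert ha, Finset.sum_insert ha, Finset.card_insert_of_notMem ha]
    have h1 := qf_add_le hA (c a • u a) (∑ i ∈ s, c i • u i)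
    have h2 : (qf A (c a • u a)).re ≤ (qf A (u a)).re := by
      rw [qf_smul, Complex.re_ofReal_mul]
      have h3 := qf_nonneg hA (u a)
      have h4 : ‖c a‖ ^ 2 ≤ 1 := pow_le_one₀ (norm_nonneg _) (hc a)
      nlinarith
    have h3 := qf_nonneg hA (u a)
    have h4 : (0 : ℝ) ≤ ∑ i ∈ s, (qf A (u i)).re := Finset.sum_nonneg fun i _ => qf_nonneg hA _
    have h5 : (1 : ℝ) ≤ 2 ^ s.card := one_le_pow₀ (by norm_num)
    rw [pow_succ]
    nlinarith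

/-! ### Restriction to a line -/

/-- the complex line through `ζ` in the direction `v` -/
def ln (ζ v : Cm N) (t : ℂ) : Cm N := ζ + t • v

lemma ln_hasFDerivAt (ζ v : Cm N) (t : ℂ) :
    HasDerivAt (ln ζ v) v t := by
  have h := ((hasDerivAt_id t).smul_const v).const_add ζ
  rw [one_smul] at h
  exact h

lemma ln_contDiff (ζ v : Cm N) : ContDiff ℂ ω (ln ζ v) :=
  contDiff_const.add (contDiff_id.smul contDiff_const)

omit [IsManifold 𝓘(ℂ, Cm n) ω X] in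
lemma line_contMDiff (hU : IsOpen U) (hΦ : ContMDiffOn 𝓘(ℂ, Cm N) 𝓘(ℂ, Cm n) ω Φ U) {ζ v : Cm N}
    (hl : ∀ t : ℂ, ln ζ v t ∈ U) :
    ContMDiff 𝓘(ℂ) 𝓘(ℂ, Cm n) ω fun t : ℂ => Φ (ln ζ v t) := by
  intro t
  exact ContMDiffAt.comp t (hΦ.contMDiffAt (hU.mem_nhds (hl t)))
    (contMDiff_iff_contDiff.2 (ln_contDiff ζ v)).contMDiffAt

/-- The velocity of the restriction to a line. -/
lemma deriv_line {ζ v : Cm N} {t : ℂ} (hΦ : ContMDiffAt 𝓘(ℂ, Cm N) 𝓘(ℂ, Cm n) ω Φ (ln ζ v t))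
    {e : Chart n X} (he : At e (Φ (ln ζ v t))) (k : Fin n) :
    deriv (fun s => e (Φ (ln ζ v s)) k) t = (∑ j, v j • pd e Φ j (ln ζ v t)) k := by
  have hτ := (tau_smooth hΦ he).differentiableAt (by simp)
  have h1 : HasDerivAt (fun s => e (Φ (ln ζ v s))) (fderiv ℂ (fun ξ => e (Φ ξ)) (ln ζ v t) v) t :=
    HasFDerivAt.comp_hasDerivAt (f := ln ζ v) t hτ.hasFDerivAt (ln_hasFDerivAt ζ v t)
  rw [((hasDerivAt_pi.1 h1) k).deriv]
  have h3 : ∀ L : Cm N →L[ℂ] Cm n, L v = ∑ j, v j • L (Pi.single j (1 : ℂ)) := by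
    intro L
    have h2 : v = ∑ j, v j • (Pi.single j (1 : ℂ) : Cm N) := by
      funext i
      rw [Finset.sum_apply, Finset.sum_eq_single i]
      · simp
      · intro j _ hj
        simp [hj.symm]
      · simp
    conv_lhs => rw [h2, map_sum]
    exact Finset.sum_congr rfl fun j _ => map_smul _ _ _
  have h4 : (∑ j, v j • pd e Φ j (ln ζ v t)) =
      ∑ j, v j • fderiv ℂ (fun ξ => e (Φ ξ)) (ln ζ v t) (Pi.single j (1 : ℂ)) :=
    Finset.sum_congr rfl fun j _ => by rw [pd_eq' hΦ he]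
  rw [h3, h4]

/-- The speed of the restriction to a line. -/
lemma speedSq_le (hw : IsHermitian w) {ζ v : Cm N} {t : ℂ}
    (hΦ : ContMDiffAt 𝓘(ℂ, Cm N) 𝓘(ℂ, Cm n) ω Φ (ln ζ v t)) (hv : ‖v‖ ≤ 1) :
    speedSq w (fun t => Φ (ln ζ v t)) t ≤ 2 ^ N * enDensN w Φ (ln ζ v t) := by
  have hAt := at_chartAt (n := n) (Φ (ln ζ v t))
  have h1 : speedSq w (fun t => Φ (ln ζ v t)) t =
      (qf (w (chartAt (Cm n) (Φ (ln ζ v t))) (chartAt (Cm n) (Φ (ln ζ v t)) (Φ (ln ζ v t))))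
        (∑ j, v j • pd (chartAt (Cm n) (Φ (ln ζ v t))) Φ j (ln ζ v t))).re := by
    unfold speedSq qf
    congr 1
    refine Finset.sum_congr rfl fun k _ => Finset.sum_congr rfl fun l _ => ?_
    rw [deriv_line hΦ hAt k, deriv_line hΦ hAt l]
  rw [h1, enDensN_eq' hw hΦ hAt]
  have h2 := qf_sum_le (hw.posDef _ _ hAt) (Finset.univ : Finset (Fin N)) v
    (fun i => (norm_le_pi_norm v i).trans hv)
    (fun j => pd (chartAt (Cm n) (Φ (ln ζ v t))) Φ j (ln ζ v t))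
  simpa using h2

omit [IsManifold 𝓘(ℂ, Cm n) ω X] in
lemma speedSq_nonneg (hw : IsHermitian w) (f : ℂ → X) (t : ℂ) : 0 ≤ speedSq w f t := by
  have hAt := at_chartAt (n := n) (f t)
  exact qf_nonneg (hw.posDef _ _ hAt) fun k => deriv (fun s => chartAt (Cm n) (f t) (f s) k) t

end

end Vale.Agent.P284.H35.Mero
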