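import Vale.Agent.P284.H35.Mero1
import Vale.Agent.P284.H894.G.Defs

/-!
# P284 (helper35): meromorphic maps `ℂᴺ ⇢ X`: chains of entire curves.
-/

open scoped Manifold ContDiff Topology ComplexConjugate ComplexOrder ENNReal
open Filter Set Metric MeasureTheory

noncomputable section

namespace Vale.Agent.P284.H35.Mero

open Vale.Agent.P272.K Vale.Agent.P284.H894.V Vale.Agent.P284.H894.F Vale.Agent.P284.H5.V
  Vale.Agent.P284.H636 Vale.Agent.P284.H894.G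

variable {N n : ℕ} {X : Type} [TopologicalSpace X] [ChartedSpace (Cm n) X]
  {w : Chart n X → Cm n → Matrix (Fin n) (Fin n) ℂ} {Φ : Cm N → X} {U : Set (Cm N)}

/-- Any two points of the image are joined by a chain of two entire curves. -/
theorem chain_of_lines (hU : IsOpen U) (hl : ∀ ζ ∈ U, ∀ᵐ η : Cm N, ∀ t : ℂ, ζ + t • (η - ζ) ∈ U)
    (hΦ : ContMDiffOn 𝓘(ℂ, Cm N) 𝓘(ℂ, Cm n) ω Φ U) {ζ ζ' : Cm N} (hζ : ζ ∈ U) (hζ' : ζ' ∈ U) :
    Chain n X (Φ ζ) (Φ ζ') := by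
  obtain ⟨η, h1, h2⟩ := ((hl ζ hζ).and (hl ζ' hζ')).exists
  have e1 : OnCurve n X (Φ ζ) (Φ η) := by
    refine ⟨fun t => Φ (ln ζ (η - ζ) t), line_contMDiff hU hΦ fun t => h1 t, ?_, ?_⟩
    · simp [ln]
    · simp [ln]
  have e2 : OnCurve n X (Φ η) (Φ ζ') := by
    refine ⟨fun t => Φ (ln η (ζ' - η) t), line_contMDiff hU hΦ fun t => ?_, ?_, ?_⟩
    · have h3 : ln η (ζ' - η) t = ζ' + (1 - t) • (η - ζ') := by
        unfold ln
        rw [sub_smul, one_smul, smul_sub, smul_sub]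
        abel
      rw [h3]
      exact h2 _
    · simp [ln]
    · simp [ln]
  exact (Relation.ReflTransGen.single e1).tail e2

/-- If the map is onto, `X` is connected by entire curves. -/
theorem curveConnected_of_image (hU : IsOpen U)
    (hl : ∀ ζ ∈ U, ∀ᵐ η : Cm N, ∀ t : ℂ, ζ + t • (η - ζ) ∈ U)
    (hΦ : ContMDiffOn 𝓘(ℂ, Cm N) 𝓘(ℂ, Cm n) ω Φ U) (hs : Φ '' U = univ) (x : X) :
    CurveConnected n X x := by
  obtain ⟨ζ₀, hζ₀, -⟩ : x ∈ Φ '' U := by rw [hs]; exact mem_univ x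
  refine ⟨univ, {Φ ζ₀}, isOpen_univ, mem_univ _,
    fun c => ⟨c, Path.Homotopic.refl c, fun t => mem_univ _⟩, countable_singleton _,
    fun y _ => ⟨Φ ζ₀, rfl, ?_⟩⟩
  obtain ⟨ζ, hζ, rfl⟩ : y ∈ Φ '' U := by rw [hs]; exact mem_univ y
  exact chain_of_lines hU hl hΦ hζ hζ₀

end Vale.Agent.P284.H35.Mero
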