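import Vale.Agent.P284.H287.T.Calc
import Vale.Agent.P284.H66.PP

/-!
# P284, theorem T (helper35): the quadratic form `qq` and the components of an `H`-valued function
-/

open scoped Manifold ContDiff Topology Pointwise ComplexConjugate ComplexOrder InnerProductSpace Matrix
open Filter Set Metric MeasureTheory

noncomputable section

namespace Vale.Agent.P284.H35.T

open Vale.Agent.P272.K Vale.Agent.P284.H248 Vale.Agent.P284.H894 Vale.Agent.P284.H894.G
  Vale.Agent.P284.H894.V Vale.Agent.P284.H287.T Vale.Agent.P284.H66.TK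

variable {n : ℕ} {H : Type} [NormedAddCommGroup H] [InnerProductSpace ℝ H]

/-- the trace of the product of two Hermitian matrices is real -/
theorem trace_im {g X : Matrix (Fin n) (Fin n) ℂ} (hg : g.IsHermitian) (hX : X.IsHermitian) :
    (g * X).trace.im = 0 := by
  have h1 : star (g * X).trace = (g * X).trace := by
    rw [← Matrix.trace_conjTranspose, Matrix.conjTranspose_mul, hg.eq, hX.eq, Matrix.trace_mul_comm]
  exact Complex.conj_eq_iff_im.1 h1

/-- scalar functions -/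
theorem qq_scalar {w : Cm n → Matrix (Fin n) (Fin n) ℂ} {f h : Cm n → ℝ} {z : Cm n}
    (hw : (w z).PosDef) (hf : ContDiffAt ℝ 2 f z) (hh' : ContDiffAt ℝ 2 h z) :
    (qq (w z)⁻¹ (cHess f z) (cHess h z)).re = lap w f z * lap w h z - hh w f h z := by
  have hg : (w z)⁻¹.IsHermitian := hw.isHermitian.inv
  have h1 := trace_im hg (C2.cHess_isHermitian hf)
  have h2 := trace_im hg (C2.cHess_isHermitian hh')
  unfold qq lap hh
  rw [Complex.sub_re, Complex.mul_re, h1, h2]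
  ring

/-- the sum over a family spanning the derivatives -/
theorem qq_good {m : ℕ} {w : Cm n → Matrix (Fin n) (Fin n) ℂ} {u v : Cm n → H} {z : Cm n}
    {e : Fin m → H} (h : Good u z e) (hw : (w z).PosDef) (hu : ContDiffAt ℝ 2 u z)
    (hv : ContDiffAt ℝ 2 v z) :
    ∑ i, (qq (w z)⁻¹ (cHess (cmp u (e i)) z) (cHess (cmp v (e i)) z)).re =
      ⟪lapH w u z, lapH w v z⟫_ℝ - hhH w u v z := by
  rw [h.lap w hu hv, h.hh w hu hv, ← Finset.sum_sub_distrib]
  exact Finset.sum_congr rfl fun i _ =>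
    qq_scalar hw (cmp_contDiffAt hu (e i)) (cmp_contDiffAt hv (e i))

/-- the same with `⟪u y, e i⟫` written out -/
theorem qq_good' {m : ℕ} {w : Cm n → Matrix (Fin n) (Fin n) ℂ} {u v : Cm n → H} {z : Cm n}
    {e : Fin m → H} (h : Good u z e) (hw : (w z).PosDef) (hu : ContDiffAt ℝ 2 u z)
    (hv : ContDiffAt ℝ 2 v z) :
    ∑ i, (qq (w z)⁻¹ (cHess (fun y => ⟪u y, e i⟫_ℝ) z) (cHess (fun y => ⟪v y, e i⟫_ℝ) z)).re =
      ⟪lapH w u z, lapH w v z⟫_ℝ - hhH w u v z :=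
  qq_good h hw hu hv

/-- existence form -/
theorem exists_qq {w : Cm n → Matrix (Fin n) (Fin n) ℂ} {u v : Cm n → H} {z : Cm n}
    (hw : (w z).PosDef) (hu : ContDiffAt ℝ 2 u z) (hv : ContDiffAt ℝ 2 v z) :
    ∃ (m : ℕ) (e : Fin m → H), Good u z e ∧ Good v z e ∧
      ∑ i, (qq (w z)⁻¹ (cHess (cmp u (e i)) z) (cHess (cmp v (e i)) z)).re =
        ⟪lapH w u z, lapH w v z⟫_ℝ - hhH w u v z := by
  obtain ⟨m, e, h1, h2⟩ := exists_good₂ u z v z
  exact ⟨m, e, h1, h2, qq_good h1 hw hu hv⟩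

/-- `H`-valued form of the polarised form: in real letters -/
theorem qq_inner {w : Cm n → Matrix (Fin n) (Fin n) ℂ} {u v : Cm n → H} {z : Cm n} (η : H)
    (hw : (w z).PosDef) (hu : ContDiffAt ℝ 2 u z) (hv : ContDiffAt ℝ 2 v z) :
    (qq (w z)⁻¹ (cHess (cmp u η) z) (cHess (cmp v η) z)).re =
      ⟪lapH w u z, η⟫_ℝ * ⟪lapH w v z, η⟫_ℝ -
        ∑ a, ∑ b, ∑ c, ∑ d, (1 / 16) *
          ((w z)⁻¹ d.1 a.1 * (w z)⁻¹ b.1 c.1 * sg a.2 b.2 * sg c.2 d.2).re *
            (⟪ddH u z a b, η⟫_ℝ * ⟪ddH v z c d, η⟫_ℝ) := by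
  rw [qq_scalar hw (cmp_contDiffAt hu η) (cmp_contDiffAt hv η), inner_lapH w hu, inner_lapH w hv,
    hh_eq' w (cmp_contDiffAt hu _) (cmp_contDiffAt hv _)]
  congr 1
  unfold hhH
  refine Finset.sum_congr rfl fun a _ => Finset.sum_congr rfl fun b _ =>
    Finset.sum_congr rfl fun c _ => Finset.sum_congr rfl fun d _ => ?_
  rw [ddH_cmp hu, ddH_cmp hv, innR]

end Vale.Agent.P284.H35.T
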