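import Vale.Agent.P284.H35.ExPU
import Vale.Agent.P284.H446.CocSub
import Vale.Agent.P284.H639.V15
import Vale.Agent.P284.H894.W.Spec

/-!
# P284, theorem W, WSTK: the Stokes statement on the covering space, from the statement `S7b` on the
level of `Coc` (helper66)
-/

open scoped Manifold ContDiff Topology Pointwise ComplexConjugate ComplexOrder
open Filter Set Metric MeasureTheory

noncomputable section

namespace Vale.Agent.P284.H35.W

open Vale.Agent.P272.K Vale.Agent.P284.H248 Vale.Agent.P284.H894 Vale.Agent.P284.H678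
  Vale.Agent.P284.H894.G Vale.Agent.P284.H894.V Vale.Agent.P284.H639 Vale.Agent.P284.H639.V
  Vale.Agent.P284.H446.V Vale.Agent.P284.H894.W

/-- **S7b** (helper66, board P284 #14530) -/
def S7b : Prop :=
  ∀ (n : ℕ) (Γ : Type) [Group Γ] (C : Coc n Γ) (_ : PU C) (_ : KM C) (N : ℕ)
    (F : Γ → C.I → Cm n → Cm N) (c : Γ → Cm N),
    (∀ γ a, DifferentiableOn ℂ (F γ a) (C.Ω a)) →
    (∀ γ a b, ∀ z ∈ C.O a b, F γ a z = F (γ * C.κ a b z) b (C.T a b z)) →
    (∀ g γ a, ∀ z ∈ C.Ω a, F (g * γ) a z = F γ a z + c g) →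
    (∃ γ a, ∃ z ∈ C.Ω a, Function.Surjective (fderiv ℂ (F γ a) z)) →
    ∀ (B : Cm N →ₗ[ℝ] Cm N →ₗ[ℝ] ℝ) (f : Γ → ℝ),
      (∀ g' g, f (g' * g) = f g' + f g + B (c g') (c g)) → ∀ x y, B x y = B y x

/-- the pieces of a Galois covering, with the sheets -/
theorem exists_pieces {n : ℕ} {X : Type} [TopologicalSpace X] [T2Space X] [CompactSpace X]
    [ConnectedSpace X] [ChartedSpace (Cm n) X] [IsManifold 𝓘(ℂ, Cm n) ω X]
    {E Γ : Type} [TopologicalSpace E] [ConnectedSpace E] [Group Γ] [MulAction Γ E] {p : E → X}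
    (hG : IsGalois Γ p) :
    ∃ (P : Pcs (trivL n X)) (K : KD P Γ) (σ : P.I → Cm n → E),
      (∀ a, ContinuousOn (σ a) (ball (P.c a) (4 * P.r a))) ∧
      (∀ a, ∀ z ∈ ball (P.c a) (4 * P.r a), p (σ a z) = (P.e a).symm z) ∧
      ∀ a b z, z ∈ P.O a b → K.κ a b z • σ b (P.T a b z) = σ a z := by
  obtain ⟨P⟩ := Vale.Agent.P284.H790.a1Stmt n X (trivL n X)
  have hy : ∀ a : P.I, ∃ y : E, p y = (P.e a).symm (P.c a) := fun a => hG.surj _
  choose y hy using hy
  have hlift : ∀ a, ∃ σ : Cm n → E, ContinuousOn σ (ball (P.c a) (4 * P.r a)) ∧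
      (∀ z ∈ ball (P.c a) (4 * P.r a), p (σ z) = (P.e a).symm z) ∧ σ (P.c a) = y a := fun a =>
    exists_lift_at hG.cov (by have := P.r_pos a; positivity)
      ((P.e a).continuousOn_symm.mono fun w hw => P.target hw) (y a) (hy a)
  choose σ hσ hπ hc using hlift
  let K : KD P Γ :=
    { κ := kap σ Γ
      self := fun a z hz => kap_eq hG.free hG.orb hπ hz (by rw [P.T_self hz.1, one_smul])
      trans := fun a b d z hz h => kap_eq hG.free hG.orb hπ (P.trans_mem hz h) (by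
        rw [mul_smul, ← P.T_T (d := d) hz, kap_spec hG.orb hπ h, kap_spec hG.orb hπ hz])
      loc := fun a b z hz => kap_loc hG.cov hG.cont hG.free hG.orb hσ hπ hz
      conn := fun Q hQ => kap_conn hG.cov hG.cont hG.free hG.orb hσ hπ Q hQ }
  exact ⟨P, K, σ, hσ, hπ, fun a b z hz => kap_spec hG.orb hπ hz⟩

theorem stk_of (h7 : S7b) : StkStmt := by
  intro n X _ _ _ _ _ _ w hw E Γ _ _ _ _ p hG N F hF hreg G₂ c hfi heq f B hf
  obtain ⟨P, K, σ, hσ, hπ, hK⟩ := exists_pieces (n := n) hG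
  have hπ1 : Function.Surjective (MonoidHom.id G₂) := Function.surjective_id
  set C : Coc n Γ := mkCoc P K with hC
  obtain ⟨KMc⟩ := exists_KM P K hw
  obtain ⟨PUc⟩ := exists_PU (sub C G₂ (MonoidHom.id G₂) hπ1)
  obtain ⟨BF, hBF⟩ := hF
  -- one sheet
  have hsheet : ∀ (γ : Γ) (a : P.I), ∀ z ∈ ball (P.c a) (4 * P.r a), ∃ φ : Cm n → Cm N,
      (∀ᶠ y' in 𝓝 (γ • σ a z), F y' = φ (P.e a (p y'))) ∧ DifferentiableAt ℂ φ z ∧
      (fun z' => F (γ • σ a z')) =ᶠ[𝓝 z] φ := by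
    intro γ a z hz
    have hpy : p (γ • σ a z) = (P.e a).symm z := by
      rw [← hπ a z hz]; exact ((hG.orb _ _).2 ⟨_, rfl⟩).symm
    have hval : P.e a (p (γ • σ a z)) = z := by
      rw [hpy, (P.e a).right_inv (P.target hz)]
    have hAt : At (P.e a) (p (γ • σ a z)) :=
      ⟨P.mem a, by rw [hpy]; exact (P.e a).map_target (P.target hz)⟩
    obtain ⟨φ, h1, h2, -⟩ := hBF (γ • σ a z) (P.e a) hAt
    refine ⟨φ, h1, ?_, ?_⟩
    · rw [hval] at h2
      exact h2.self_of_nhds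
    · have hc : ContinuousAt (fun z' => γ • σ a z') z :=
        ContinuousAt.comp (g := fun y => γ • y) (hG.cont γ).continuousAt
          ((hσ a).continuousAt (isOpen_ball.mem_nhds hz))
      have h3 := hc.eventually h1
      filter_upwards [h3, isOpen_ball.mem_nhds hz] with z' h4 hz'
      rw [h4]
      have hpy' : p (γ • σ a z') = (P.e a).symm z' := by
        rw [← hπ a z' hz']; exact ((hG.orb _ _).2 ⟨_, rfl⟩).symm
      rw [hpy', (P.e a).right_inv (P.target hz')]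
  refine h7 n G₂ (sub C G₂ (MonoidHom.id G₂) hπ1) PUc
    (KMsub (C := C) G₂ (MonoidHom.id G₂) hπ1 KMc) N
    (fun s a z => F (((s : Γ) * rp G₂ a.2) • σ a.1 z)) (fun g => c g) ?_ ?_ ?_ ?_ B
    (fun g => f g) (fun g' g => hf g' g'.2 g g.2)
  · -- holomorphic
    intro s a z hz
    obtain ⟨φ, -, h2, h3⟩ := hsheet ((s : Γ) * rp G₂ a.2) a.1 z hz
    exact (h2.congr_of_eventuallyEq h3).differentiableWithinAt
  · -- compatible
    intro s a b z hz
    have hz1 : z ∈ P.O a.1 b.1 := hz.1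
    show F (((s : Γ) * rp G₂ a.2) • σ a.1 z) =
      F ((((s * hp G₂ (rp G₂ a.2 * C.κ a.1 b.1 z) : G₂) : Γ) * rp G₂ b.2) • σ b.1 (P.T a.1 b.1 z))
    rw [← hz.2, Subgroup.coe_mul, mul_assoc, hp_mul_rp]
    rw [← hK a.1 b.1 z hz1, smul_smul, mul_assoc]
    rfl
  · -- periods
    intro g s a z hz
    show F ((((g * s : G₂) : Γ) * rp G₂ a.2) • σ a.1 z) = _
    rw [Subgroup.coe_mul, mul_assoc, mul_smul, heq g g.2]
  · -- a regular point
    obtain ⟨y, hy⟩ := hreg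
    obtain ⟨γ, a, h1, h2, h3⟩ := exists_sheet2 hG hπ y
    have hz4 : P.e a (p y) ∈ ball (P.c a) (4 * P.r a) :=
      ball_subset_ball (by linarith [P.r_pos a]) h2
    refine ⟨hp G₂ γ, (a, cl G₂ γ), P.e a (p y), hz4, ?_⟩
    show Function.Surjective (fderiv ℂ (fun z => F (((hp G₂ γ : Γ) * rp G₂ (cl G₂ γ)) • σ a z)) _)
    rw [hp_mul_rp]
    obtain ⟨φ, g1, g2, g3⟩ := hsheet γ a _ hz4
    rw [h3] at g1
    rw [g3.fderiv_eq]
    exact hy (P.e a) φ ⟨P.mem a, h1⟩ g1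

end Vale.Agent.P284.H35.W
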