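import Vale.Agent.P284.H446.S1
import Vale.Agent.P284.H10.T10a

/-!
# P284, theorem T, row T10G (helper35): the geometric hypotheses of the abstract theorem T10
-/

open scoped Manifold ContDiff Topology Pointwise ComplexConjugate ComplexOrder
open Filter Set Metric MeasureTheory

noncomputable section

namespace Vale.Agent.P284.H35.T

open Vale.Agent.P272.K Vale.Agent.P284.H248 Vale.Agent.P284.H894 Vale.Agent.P284.H678
  Vale.Agent.P284.H894.G Vale.Agent.P284.H894.V Vale.Agent.P284.H639 Vale.Agent.P284.H639.V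
  Vale.Agent.P284.H465.V17 Vale.Agent.P284.H446.V

section
variable {n : ℕ} {X : Type} [TopologicalSpace X] [ChartedSpace (Cm n) X]
  {w : Chart n X → Cm n → Matrix (Fin n) (Fin n) ℂ}
  {E S : Type} [TopologicalSpace E] [Group S] [MulAction S E] {p : E → X}

/-- (h1): translates of pluriharmonic functions with bounded gradient -/
theorem t10_h1 (hG : IsGalois S p) (V : Submodule ℝ (E → ℝ))
    (hV : ∀ u, u ∈ V ↔ ∃ B, IsPHB p w u B) {u : E → ℝ} (hu : u ∈ V) (s : S) :
    (fun y => u (s • y)) ∈ V := by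
  obtain ⟨B, hB⟩ := (hV u).1 hu
  exact (hV _).2 ⟨B, phb_smul hG hB s⟩

end

section
variable {n : ℕ} {X : Type} [TopologicalSpace X] [T2Space X] [CompactSpace X] [ConnectedSpace X]
  [ChartedSpace (Cm n) X] [IsManifold 𝓘(ℂ, Cm n) ω X]
  {w : Chart n X → Cm n → Matrix (Fin n) (Fin n) ℂ}
  {E S : Type} [TopologicalSpace E] [ConnectedSpace E] [Group S] [MulAction S E] {p : E → X}

/-- (h5), general form: bounded displacement of the translates -/
theorem t10_disp (hw : IsKahler w) (hG : IsGalois S p) {u : E → ℝ} {B : ℝ} (hu : IsPHB p w u B)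
    (x x' : E) : ∃ C : ℝ, ∀ t : S, |u (t • x) - u (t • x')| ≤ C := by
  obtain ⟨C, _, _, ⟨Sh⟩⟩ := exists_sheets n X w hw E S p hG
  obtain ⟨γ, a, z, hz, rfl⟩ := Sh.cover x
  obtain ⟨γ', a', z', hz', rfl⟩ := Sh.cover x'
  obtain ⟨L, hL⟩ := Sh.disp hG hu γ a γ' a'
  exact ⟨L, fun t => hL t z hz z' hz'⟩

/-- (h5) -/
theorem t10_h5 (hw : IsKahler w) (hG : IsGalois S p) {u : E → ℝ} {B : ℝ} (hu : IsPHB p w u B)
    (s : S) (x : E) : ∃ C : ℝ, ∀ t : S, |u (t • s • x) - u (t • x)| ≤ C :=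
  t10_disp hw hG hu _ _

/-- a pluriharmonic function with bounded gradient which is bounded on one orbit is bounded -/
theorem t10_bdd (hw : IsKahler w) (hG : IsGalois S p) {u : E → ℝ} {B : ℝ} (hu : IsPHB p w u B)
    {x : E} {M : ℝ} (hM : ∀ t : S, |u (t • x)| ≤ M) : ∃ M' : ℝ, ∀ y, |u y| ≤ M' := by
  obtain ⟨C, _, _, ⟨Sh⟩⟩ := exists_sheets n X w hw E S p hG
  obtain ⟨γ, a, z, hz, rfl⟩ := Sh.cover x
  have h1 : ∀ b : C.I, ∃ L : ℝ, ∀ g : S, ∀ z ∈ ball (C.c a) (2 * C.r a),
      ∀ z' ∈ ball (C.c b) (2 * C.r b),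
      |u (g • γ • Sh.σ a z) - u (g • (1 : S) • Sh.σ b z')| ≤ L := fun b => Sh.disp hG hu γ a 1 b
  choose L hL using h1
  refine ⟨M + ∑ b, |L b|, fun y => ?_⟩
  obtain ⟨g, b, z', hz', rfl⟩ := Sh.cover y
  have h2 := hL b g z hz z' hz'
  rw [one_smul] at h2
  have h3 := hM g
  have h4 : |L b| ≤ ∑ b, |L b| :=
    Finset.single_le_sum (f := fun b => |L b|) (fun b _ => abs_nonneg _) (Finset.mem_univ b)
  have h5 : |u (g • Sh.σ b z')| ≤ |u (g • γ • Sh.σ a z)| + |u (g • γ • Sh.σ a z) - u (g • Sh.σ b z')| := by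
    have := abs_sub_abs_le_abs_sub (u (g • Sh.σ b z')) (u (g • γ • Sh.σ a z))
    rw [abs_sub_comm] at this
    linarith
  linarith [le_abs_self (L b)]

/-- (h2): a pluriharmonic function with bounded gradient which is bounded on one orbit is constant -/
theorem t10_h2 (hw : IsKahler w) (hG : IsGalois S p) (V : Submodule ℝ (E → ℝ))
    [FiniteDimensional ℝ V] (hV : ∀ u, u ∈ V ↔ ∃ B, IsPHB p w u B) {u : E → ℝ} (hu : u ∈ V)
    {x : E} {M : ℝ} (hM : ∀ t : S, |u (t • x)| ≤ M) (y y' : E) : u y = u y' := by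
  obtain ⟨B, hB⟩ := (hV u).1 hu
  obtain ⟨M', hM'⟩ := t10_bdd hw hG hB hM
  obtain ⟨C, _, _, ⟨Sh⟩⟩ := exists_sheets n X w hw E S p hG
  obtain ⟨D, hD, hcov⟩ := Sh.exists_compact
  exact bdd_const hG hD hcov V hV hu hM' y y'

/-- (h6): a pluriharmonic function with bounded gradient which is invariant under a subgroup of finite
index is constant -/
theorem t10_h6 (hw : IsKahler w) (hG : IsGalois S p) (V : Submodule ℝ (E → ℝ))
    [FiniteDimensional ℝ V] (hV : ∀ u, u ∈ V ↔ ∃ B, IsPHB p w u B) {u : E → ℝ} (hu : u ∈ V)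
    (H : Subgroup S) [H.FiniteIndex] (hH : ∀ s ∈ H, ∀ y, u (s • y) = u y) (y y' : E) :
    u y = u y' := by
  obtain ⟨x⟩ : Nonempty E := inferInstance
  -- representatives of the cosets `H s`
  have hf : Finite (Quotient (QuotientGroup.rightRel H)) := by
    have : Finite (S ⧸ H) := Subgroup.finite_quotient_of_finiteIndex
    exact Finite.of_equiv _ (QuotientGroup.quotientRightRelEquivQuotientLeftRel H).symm
  have hb : ∃ M : ℝ, ∀ t : S, |u (t • x)| ≤ M := by
    have := Fintype.ofFinite (Quotient (QuotientGroup.rightRel H))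
    refine ⟨∑ q : Quotient (QuotientGroup.rightRel H), |u (q.out • x)|, fun t => ?_⟩
    set q : Quotient (QuotientGroup.rightRel H) := Quotient.mk _ t with hq
    have h1 : (QuotientGroup.rightRel H) q.out t := by
      have := Quotient.out_eq q
      rw [hq] at this
      exact Quotient.exact this
    rw [QuotientGroup.rightRel_apply] at h1
    have h2 : u (t • x) = u (q.out • x) := by
      have := hH _ h1 (q.out • x)
      rw [← mul_smul, inv_mul_cancel_right] at this
      exact this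
    rw [h2]
    exact Finset.single_le_sum (f := fun q : Quotient (QuotientGroup.rightRel H) => |u (q.out • x)|)
      (fun q _ => abs_nonneg _) (Finset.mem_univ q)
  obtain ⟨M, hM⟩ := hb
  exact t10_h2 hw hG V hV hu hM y y'

/-- the group acts on the space of pluriharmonic functions with bounded gradient -/
def rho (hG : IsGalois S p) (V : Submodule ℝ (E → ℝ)) (hV : ∀ u, u ∈ V ↔ ∃ B, IsPHB p w u B) :
    S →* (V →ₗ[ℝ] V) where
  toFun s :=
    { toFun := fun u => ⟨fun y => (u : E → ℝ) (s⁻¹ • y), t10_h1 hG V hV u.2 s⁻¹⟩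
      map_add' := fun u u' => by ext y; rfl
      map_smul' := fun c u => by ext y; rfl }
  map_one' := by
    ext u y
    show (u : E → ℝ) ((1 : S)⁻¹ • y) = (u : E → ℝ) y
    simp
  map_mul' s s' := by
    ext u y
    show (u : E → ℝ) ((s * s')⁻¹ • y) = (u : E → ℝ) (s'⁻¹ • s⁻¹ • y)
    rw [mul_inv_rev, mul_smul]

/-- the abstract theorem T10 applied to the pluriharmonic functions with bounded gradient: the only
hypotheses left are the approximation property (h4) and the existence of a nonconstant function -/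
theorem t10g {G : Type} [Group G] (S : Subgroup G) [S.Normal] (hfg : Group.FG S)
    {E : Type} [TopologicalSpace E] [ConnectedSpace E] [MulAction S E] {p : E → X}
    (hw : IsKahler w) (hG : IsGalois S p) (V : Submodule ℝ (E → ℝ)) [FiniteDimensional ℝ V]
    (hV : ∀ u, u ∈ V ↔ ∃ B, IsPHB p w u B) (x : E)
    (h4 : ∀ b ∈ Vale.Agent.P284.H10.T.AA S, ∃ u ∈ V, ∃ C : ℝ, ∀ t : S, |b t - u (t • x)| ≤ C)
    (hne : ∃ u ∈ V, ∃ y y', u y ≠ u y') :
    VirtIndicable S ∨ ∃ (d : ℕ) (R : G →* Matrix.GeneralLinearGroup (Fin d) ℝ),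
      ¬ Vale.Agent.P284.H10.T.VSol R.range := by
  let ev : V →ₗ[ℝ] (S → ℝ) :=
    { toFun := fun u t => (u : E → ℝ) (t • x)
      map_add' := fun u u' => by funext t; rfl
      map_smul' := fun c u => by funext t; rfl }
  let K₀ : Submodule ℝ V :=
    { carrier := {u | ∀ y y', (u : E → ℝ) y = (u : E → ℝ) y'}
      add_mem' := fun {u u'} h h' y y' => by
        show (u : E → ℝ) y + (u' : E → ℝ) y = (u : E → ℝ) y' + (u' : E → ℝ) y'
        rw [h y y', h' y y']
      zero_mem' := fun y y' => rfl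
      smul_mem' := fun c u h y y' => by
        show c * (u : E → ℝ) y = c * (u : E → ℝ) y'
        rw [h y y'] }
  refine Vale.Agent.P284.H10.T.t10_abs S hfg (rho hG V hV) ev ?_ K₀ ?_ ?_ ?_ ?_ ?_
  · intro s u t
    show (u : E → ℝ) (s⁻¹ • t • x) = (u : E → ℝ) ((s⁻¹ * t) • x)
    rw [mul_smul]
  · intro s u hu
    ext y
    exact hu _ _
  · rintro u ⟨C, hC⟩
    exact fun y y' => t10_h2 hw hG V hV u.2 hC y y'
  · intro b hb
    obtain ⟨u, hu, C, hC⟩ := h4 b hb
    exact ⟨⟨u, hu⟩, C, hC⟩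
  · intro u s
    obtain ⟨B, hB⟩ := (hV _).1 u.2
    obtain ⟨C, hC⟩ := t10_h5 hw hG hB s x
    refine ⟨C, fun t => ?_⟩
    show |(u : E → ℝ) ((t * s) • x) - (u : E → ℝ) (t • x)| ≤ C
    rw [mul_smul]
    exact hC t
  · intro H hH h
    obtain ⟨u, hu, y, y', hne⟩ := hne
    refine hne (t10_h6 hw hG V hV hu H (fun s hs y => ?_) y y')
    have h1 := congrArg (fun v : V => (v : E → ℝ) (s • y)) (h s hs ⟨u, hu⟩)
    have h2 : u (s⁻¹ • s • y) = u (s • y) := h1
    rw [inv_smul_smul] at h2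
    exact h2.symm

end

end Vale.Agent.P284.H35.T
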