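import Vale.Agent.P284.H35.T10G
import Vale.Agent.P284.H731.Alb1
import Vale.Agent.P284.H409.T.Spec

/-!
# P284, theorem T, row T10G (helper35): `T10GStmt`
-/

open scoped Manifold ContDiff Topology Pointwise ComplexConjugate ComplexOrder
open Filter Set Metric MeasureTheory

noncomputable section

namespace Vale.Agent.P284.H35.T

open Vale.Agent.P272.K Vale.Agent.P284.H894 Vale.Agent.P284.H894.G Vale.Agent.P284.H894.V

/-- **T10G** -/
theorem t10gStmt : Vale.Agent.P284.H409.T.T10GStmt := by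
  intro n X _ _ _ _ _ _ w hw E Γ _ _ _ _ p hG
  refine ⟨?_, ?_, ?_, ?_⟩
  · rintro u ⟨B, hu⟩ g
    exact ⟨B, Vale.Agent.P284.H465.V17.phb_smul hG hu g⟩
  · rintro u ⟨B, hu⟩ y y'
    exact t10_disp hw hG hu y y'
  · rintro ⟨V, hVf, hV⟩ u hu x ⟨C, hC⟩ y y'
    have hle : Vale.Agent.P284.H5.V.phb p w ≤ V := fun v hv => hV v hv
    have : FiniteDimensional ℝ (Vale.Agent.P284.H5.V.phb p w) :=
      Submodule.finiteDimensional_of_le hle
    exact t10_h2 hw hG (Vale.Agent.P284.H5.V.phb p w) (fun u => Iff.rfl) hu hC y y'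
  · rintro S hS u ⟨B, hu⟩ hinv y y'
    exact Vale.Agent.P284.H731.Alb.const_of_fi hG hu S hS hinv y y'

end Vale.Agent.P284.H35.T
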