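import Vale.Agent.P284.H35.ToE
import Vale.Agent.P284.H409.T.Spec

/-!
# P284, theorem T, row T9E (helper35): pluriharmonic sections, from the pieces to the covering space
-/

open scoped Manifold ContDiff Topology Pointwise ComplexConjugate ComplexOrder InnerProductSpace
open Filter Set Metric MeasureTheory

noncomputable section

namespace Vale.Agent.P284.H35.T

open Vale.Agent.P272.K Vale.Agent.P284.H248 Vale.Agent.P284.H894 Vale.Agent.P284.H678
  Vale.Agent.P284.H894.G Vale.Agent.P284.H894.V Vale.Agent.P284.H639 Vale.Agent.P284.H639.V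
  Vale.Agent.P284.H446.V Vale.Agent.P284.H35.A9

section
variable {n : ℕ} {X : Type} [TopologicalSpace X] [ChartedSpace (Cm n) X]
  {E Γ : Type} [TopologicalSpace E] [Group Γ] [MulAction Γ E] {p : E → X} {C : Coc n Γ}

/-- a compatible family on the balls of radius `2 r` is a function on the covering space -/
theorem exists_toE2 {α : Type*} (S : Shs p C) (h : Γ → C.I → Cm n → α)
    (hc : ∀ γ a b z, z ∈ C.O a b → z ∈ ball (C.c a) (2 * C.r a) →
      C.T a b z ∈ ball (C.c b) (2 * C.r b) → h γ a z = h (γ * C.κ a b z) b (C.T a b z)) :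
    ∃ U : E → α, ∀ (γ : Γ) (a : C.I), ∀ z ∈ ball (C.c a) (2 * C.r a),
      U (γ • S.σ a z) = h γ a z := by
  choose g b y hy hgy using S.cover
  refine ⟨fun x => h (g x) (b x) (y x), fun γ a z hz => ?_⟩
  set x := γ • S.σ a z with hx
  have hy2 : y x ∈ ball (C.c (b x)) (2 * C.r (b x)) :=
    ball_subset_ball (by linarith [C.r_pos (b x)]) (hy x)
  have hyΩ : y x ∈ C.Ω (b x) := ball_subset_ball (by linarith [C.r_pos (b x)]) (hy x)
  have hzΩ : z ∈ C.Ω a := ball_subset_ball (by linarith [C.r_pos a]) hz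
  obtain ⟨h1, h2, h3⟩ := S.rel γ (g x) a (b x) z (y x) hzΩ hyΩ (by rw [hgy x])
  have h4 := hc γ a (b x) z h1 hz (by rw [h2]; exact hy2)
  rw [h2, ← h3] at h4
  exact h4.symm

variable [IsManifold 𝓘(ℂ, Cm n) ω X]

/-- a function on the covering space which is pluriharmonic with bounded gradient on the pieces -/
theorem phb_of_fam (hG : IsGalois Γ p) {w : Chart n X → Cm n → Matrix (Fin n) (Fin n) ℂ}
    (hw : IsHermitian w) (S : Shs p C) (K : KM C) (hK : ∀ a, K.w a = w (S.e a))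
    {u : Γ → C.I → Cm n → ℝ} {U : E → ℝ} {B : ℝ}
    (hsm : ∀ γ a, ∀ z ∈ ball (C.c a) (2 * C.r a), ContDiffAt ℝ ∞ (u γ a) z)
    (hh : ∀ γ a, ∀ z ∈ ball (C.c a) (2 * C.r a), cHess (u γ a) z = 0)
    (hg : ∀ γ a, ∀ z ∈ ball (C.c a) (2 * C.r a), ‖fderiv ℝ (u γ a) z‖ ≤ B)
    (hU : ∀ (γ : Γ) (a : C.I), ∀ z ∈ ball (C.c a) (2 * C.r a), U (γ • S.σ a z) = u γ a z) :
    ∃ B' : ℝ, IsPHB p w U B' := by
  refine ⟨B ^ 2 * K.lam⁻¹, fun y e hAt => ?_⟩
  obtain ⟨γ, a, z₀, hz₀, hy⟩ := S.cover y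
  have hz2 : z₀ ∈ ball (C.c a) (2 * C.r a) := ball_subset_ball (by linarith [C.r_pos a]) hz₀
  have hzΩ : z₀ ∈ C.Ω a := ball_subset_ball (by linarith [C.r_pos a]) hz₀
  obtain ⟨hAt', hval⟩ := p_sheet S hG γ a z₀ hzΩ
  rw [hy] at hAt' hval
  set T : Cm n → Cm n := fun z => S.e a (e.symm z) with hT
  have hTz : T (e (p y)) = z₀ := by
    rw [hT]; simp only [hAt.left_inv, hval]
  have hTc : ContDiffAt ℂ ω T (e (p y)) := transition hAt hAt'
  refine ⟨fun z => u γ a (T z), ?_, ?_, fun v => ?_⟩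
  · have hev := S.near γ a z₀ hzΩ
    rw [hy] at hev
    have hsrc : ∀ᶠ y' in 𝓝 y, p y' ∈ e.source :=
      hG.cov.continuous.continuousAt.eventually (e.open_source.mem_nhds hAt.2)
    have hsrc' : ∀ᶠ y' in 𝓝 y, p y' ∈ (S.e a).source :=
      hG.cov.continuous.continuousAt.eventually ((S.e a).open_source.mem_nhds hAt'.2)
    have hb : ∀ᶠ y' in 𝓝 y, S.e a (p y') ∈ ball (C.c a) (2 * C.r a) := by
      have hc : ContinuousAt (fun y' => S.e a (p y')) y := by
        refine ContinuousAt.comp ?_ hG.cov.continuous.continuousAt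
        exact (S.e a).continuousAt hAt'.2
      refine hc.eventually ?_
      show ∀ᶠ y' in 𝓝 (S.e a (p y)), y' ∈ ball (C.c a) (2 * C.r a)
      rw [hval]
      exact isOpen_ball.mem_nhds hz2
    filter_upwards [hev, hsrc, hb] with y' h4 h5 h7
    have h6 := hU γ a _ h7
    rw [h4.2] at h6
    rw [h6, hT]
    simp only [e.left_inv h5]
  · have hev1 : ∀ᶠ z in 𝓝 (e (p y)), T z ∈ ball (C.c a) (2 * C.r a) := by
      refine hTc.continuousAt.eventually ?_
      show ∀ᶠ z in 𝓝 (T (e (p y))), z ∈ ball (C.c a) (2 * C.r a)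
      rw [hTz]
      exact isOpen_ball.mem_nhds hz2
    filter_upwards [hev1, hAt.nhds_at hAt'] with z h4 h5
    have h6 : ContDiffAt ℂ ω T z := by
      have := transition h5.2.1 h5.2.2
      rwa [e.right_inv h5.1] at this
    refine ⟨?_, ?_⟩
    · have h7 : ContDiffAt ℝ ∞ T z := (h6.restrict_scalars ℝ).of_le le_top
      exact (hsm γ a (T z) h4).comp z h7
    · have h8 := cHess_comp (f := u γ a) (τ := T) (z := z)
        ((hsm γ a (T z) h4).of_le
          (WithTop.coe_le_coe.2 le_top : ((2 : ℕ∞) : WithTop ℕ∞) ≤ ((⊤ : ℕ∞) : WithTop ℕ∞))) h6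
      rw [h8, hh γ a (T z) h4]
      simp
  · have hd : DifferentiableAt ℂ T (e (p y)) := hTc.differentiableAt (by simp)
    have h4 : fderiv ℝ (fun z => u γ a (T z)) (e (p y)) v =
        fderiv ℝ (u γ a) z₀ (fderiv ℂ T (e (p y)) v) := by
      have h5 : DifferentiableAt ℝ (u γ a) (T (e (p y))) := by
        rw [hTz]
        exact (hsm γ a _ hz2).differentiableAt (by simp)
      have h6 : DifferentiableAt ℝ T (e (p y)) := hd.restrictScalars ℝ
      rw [show (fun z => u γ a (T z)) = u γ a ∘ T from rfl, fderiv_comp _ h5 h6, hTz]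
      show fderiv ℝ (u γ a) z₀ (fderiv ℝ T (e (p y)) v) = _
      rw [hd.fderiv_restrictScalars ℝ]
      rfl
    rw [h4, sum_eq_quad]
    have hch := hw.change e (S.e a) (p y) hAt hAt'
    rw [hch, quad_pull']
    have hJ : fderiv ℂ T (e (p y)) v = (jacM e (S.e a) (p y)).mulVec v := by
      funext q
      rw [jmat_mulVec hd v q]
      rfl
    rw [← hJ]
    set v' : Cm n := fderiv ℂ T (e (p y)) v with hv'
    have hg' := hg γ a _ hz2
    have h5 : |fderiv ℝ (u γ a) z₀ v'| ≤ B * ‖v'‖ := by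
      rw [← Real.norm_eq_abs]
      exact (ContinuousLinearMap.le_opNorm _ _).trans
        (mul_le_mul_of_nonneg_right hg' (norm_nonneg _))
    have h6 : fderiv ℝ (u γ a) z₀ v' ^ 2 ≤ B ^ 2 * ‖v'‖ ^ 2 := by
      rw [← sq_abs, ← mul_pow]
      exact pow_le_pow_left₀ (abs_nonneg _) h5 2
    have h7 := K.low a z₀ hzΩ v'
    rw [sum_eq_quad, hK a] at h7
    rw [hval]
    have h8 : ‖v'‖ ^ 2 ≤ K.lam⁻¹ * (quad (w (S.e a) z₀) v').re := by
      have h9 := mul_le_mul_of_nonneg_left (norm_sq_le v') K.lam_pos.le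
      rw [inv_mul_eq_div, le_div_iff₀ K.lam_pos, mul_comm]
      exact h9.trans h7
    calc fderiv ℝ (u γ a) z₀ v' ^ 2 ≤ B ^ 2 * ‖v'‖ ^ 2 := h6
      _ ≤ B ^ 2 * (K.lam⁻¹ * (quad (w (S.e a) z₀) v').re) :=
        mul_le_mul_of_nonneg_left h8 (sq_nonneg B)
      _ = _ := by ring

end

/-- **T9E** -/
theorem t9eStmt : Vale.Agent.P284.H409.T.T9EStmt := by
  intro hP n X _ _ _ _ _ _ w hw E Γ _ _ _ _ p hG H _ _ _ π b hb
  obtain ⟨C, P, K, S, hK⟩ := exists_shsK n X w hw E Γ p hG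
  obtain ⟨h, hh⟩ := hP n Γ C P K H π b hb
  obtain ⟨U, hU⟩ := exists_toE2 S h hh.compat
  obtain ⟨B, hB⟩ := hh.grad
  refine ⟨U, fun g y => ?_, fun η => ?_⟩
  · obtain ⟨γ, a, z, hz, rfl⟩ := S.cover y
    have hz2 : z ∈ ball (C.c a) (2 * C.r a) := ball_subset_ball (by linarith [C.r_pos a]) hz
    rw [smul_smul, hU _ a z hz2, hU _ a z hz2, hh.equi g γ a z hz2]
  · refine phb_of_fam hG hw.toIsHermitian S K hK (u := fun γ a z => ⟪h γ a z, η⟫_ℝ)
      (B := B * ‖η‖) (fun γ a z hz => (hh.smooth γ a z hz).inner ℝ contDiffAt_const)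
      (fun γ a z hz => hh.hess γ a z hz η) (fun γ a z hz => ?_) fun γ a z hz => by rw [hU γ a z hz]
    have hd : DifferentiableAt ℝ (h γ a) z := (hh.smooth γ a z hz).differentiableAt (by simp)
    refine ContinuousLinearMap.opNorm_le_bound _
      (mul_nonneg ((norm_nonneg _).trans (hB γ a z hz)) (norm_nonneg _)) fun v => ?_
    rw [fderiv_inner_apply ℝ hd (differentiableAt_const _)]
    simp only [fderiv_const_apply, _root_.zero_apply, inner_zero_right, zero_add]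
    calc ‖⟪fderiv ℝ (h γ a) z v, η⟫_ℝ‖ ≤ ‖fderiv ℝ (h γ a) z v‖ * ‖η‖ := norm_inner_le_norm _ _
      _ ≤ (B * ‖v‖) * ‖η‖ := by
        refine mul_le_mul_of_nonneg_right ?_ (norm_nonneg _)
        exact (ContinuousLinearMap.le_opNorm _ _).trans
          (mul_le_mul_of_nonneg_right (hB γ a z hz) (norm_nonneg _))
      _ = _ := by ring

end Vale.Agent.P284.H35.T
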