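import Vale.Agent.P284.H35.Stk

/-!
# P284, theorem A, A9: from the pieces of a covering to the covering space and back
-/

open scoped Manifold ContDiff Topology Pointwise ComplexConjugate ComplexOrder
open Filter Set Metric MeasureTheory

noncomputable section

namespace Vale.Agent.P284.H35.A9

open Vale.Agent.P272.K Vale.Agent.P284.H248 Vale.Agent.P284.H894 Vale.Agent.P284.H678
  Vale.Agent.P284.H894.G Vale.Agent.P284.H894.V Vale.Agent.P284.H639 Vale.Agent.P284.H639.V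
  Vale.Agent.P284.H446.V Vale.Agent.P284.H894.W

/-- the sheets of the covering `p : E → X` over the balls of `C`, with all relations -/
structure Shs {n : ℕ} {X : Type} [TopologicalSpace X] [ChartedSpace (Cm n) X]
    {E Γ : Type} [TopologicalSpace E] [Group Γ] [MulAction Γ E] (p : E → X) (C : Coc n Γ) where
  σ : C.I → Cm n → E
  e : C.I → Chart n X
  cont : ∀ a, ContinuousOn (σ a) (C.Ω a)
  src : ∀ a, ∀ z ∈ C.Ω a, At (e a) (p (σ a z)) ∧ e a (p (σ a z)) = z
  cover : ∀ y : E, ∃ (γ : Γ) (a : C.I) (z : Cm n), z ∈ C.W a ∧ γ • σ a z = y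
  glue : ∀ a b, ∀ z ∈ C.O a b, C.κ a b z • σ b (C.T a b z) = σ a z
  rel : ∀ (γ γ' : Γ) (a b : C.I) (z z' : Cm n), z ∈ C.Ω a → z' ∈ C.Ω b →
    γ • σ a z = γ' • σ b z' → z ∈ C.O a b ∧ C.T a b z = z' ∧ γ' = γ * C.κ a b z
  near : ∀ (γ : Γ) (a : C.I), ∀ z ∈ C.Ω a, ∀ᶠ y in 𝓝 (γ • σ a z),
    e a (p y) ∈ C.Ω a ∧ γ • σ a (e a (p y)) = y

/-- `exists_KM` with the matrices of the metric -/
theorem exists_KM' {n : ℕ} {X : Type} [TopologicalSpace X] [ChartedSpace (Cm n) X]
    {L : LineBundle n X} [T2Space X] [IsManifold 𝓘(ℂ, Cm n) ω X] (P : Pcs L) {Γ : Type} [Group Γ]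
    (K : KD P Γ) {w : Chart n X → Cm n → Matrix (Fin n) (Fin n) ℂ} (hw : IsKahler w) :
    ∃ Kc : KM (mkCoc P K), ∀ a, Kc.w a = w (P.e a) := by
  obtain ⟨B, hB, h⟩ := exists_bds_pcs P hw.toIsHermitian
  have hcl : ∀ a, ball (P.c a) (4 * P.r a) ⊆ closedBall (P.c a) (4 * P.r a) := fun a =>
    ball_subset_closedBall
  exact ⟨{
    w := fun a => w (P.e a)
    ku := fun a =>
      { isOpen := isOpen_ball
        smooth := fun z hz => hw.smooth_target (P.mem a) (P.target hz)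
        pos := fun z hz => hw.posDef_target (P.mem a) (P.target hz)
        closed := fun z hz i j k => by
          have := hw.closed (P.e a) ((P.e a).symm z) (P.at' hz) i j k
          rwa [(P.e a).right_inv (P.target hz)] at this }
    change := fun a b z hz => by
      have h1 := hw.change (P.e a) (P.e b) ((P.e a).symm z) (P.at_left hz) (P.at_right hz)
      rw [jacM_eq, (P.e a).right_inv (P.target hz.1)] at h1
      exact h1
    lam := B⁻¹
    lam_pos := inv_pos.2 hB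
    Lam := B
    low := fun a z hz v => by
      rw [sum_eq_quad, inv_mul_le_iff₀ hB]
      exact (h a z (hcl a hz)).1 v
    up := fun a z hz v => by
      rw [sum_eq_quad]
      exact (h a z (hcl a hz)).2.1 v
    vol_up := fun a z hz => (h a z (hcl a hz)).2.2.1
    vol_low := fun a z hz => by
      rw [inv_le_iff_one_le_mul₀' hB]
      exact (h a z (hcl a hz)).2.2.2 }, fun a => rfl⟩

theorem exists_shsK (n : ℕ) (X : Type) [TopologicalSpace X] [T2Space X] [CompactSpace X]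
    [ConnectedSpace X] [ChartedSpace (Cm n) X] [IsManifold 𝓘(ℂ, Cm n) ω X]
    (w : Chart n X → Cm n → Matrix (Fin n) (Fin n) ℂ) (hw : IsKahler w)
    (E Γ : Type) [TopologicalSpace E] [ConnectedSpace E] [Group Γ] [MulAction Γ E] (p : E → X)
    (hG : IsGalois Γ p) : ∃ (C : Coc n Γ) (_ : PU C) (K : KM C) (S : Shs p C),
      ∀ a, K.w a = w (S.e a) := by
  obtain ⟨P, K, σ, hσ, hπ, hK⟩ := Vale.Agent.P284.H35.W.exists_pieces (n := n) hG
  obtain ⟨KMc, hKMc⟩ := exists_KM' P K hw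
  obtain ⟨PUc⟩ := Vale.Agent.P284.H35.W.exists_PU (mkCoc P K)
  have hpp : ∀ (k : Γ) (y : E), p (k • y) = p y := fun k y => ((hG.orb _ _).2 ⟨k, rfl⟩).symm
  refine ⟨mkCoc P K, PUc, KMc, {
    σ := σ
    e := P.e
    cont := hσ
    src := fun a z hz => ?_
    cover := fun y => ?_
    glue := hK
    rel := fun γ γ' a b z z' hz hz' h => ?_
    near := fun γ a z hz => ?_ }, hKMc⟩
  · have hz' : z ∈ ball (P.c a) (4 * P.r a) := hz
    refine ⟨⟨P.mem a, ?_⟩, ?_⟩
    · rw [hπ a z hz]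
      exact (P.e a).map_target (P.target hz')
    · rw [hπ a z hz, (P.e a).right_inv (P.target hz')]
  · obtain ⟨a, ha1, ha2⟩ := P.cover (p y)
    have h3 : P.e a (p y) ∈ ball (P.c a) (4 * P.r a) :=
      ball_subset_ball (by linarith [P.r_pos a]) ha2
    have h4 : p (σ a (P.e a (p y))) = p y := by
      rw [hπ a _ h3, (P.e a).left_inv ha1]
    obtain ⟨γ, hγ⟩ := (hG.orb _ _).1 h4
    exact ⟨γ, a, _, ha2, hγ⟩
  · have hz1 : z ∈ ball (P.c a) (4 * P.r a) := hz
    have hz2 : z' ∈ ball (P.c b) (4 * P.r b) := hz'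
    have h1 : (P.e a).symm z = (P.e b).symm z' := by
      rw [← hπ a z hz1, ← hπ b z' hz2, ← hpp γ, h, hpp]
    have h2 : P.T a b z = z' := by
      show P.e b ((P.e a).symm z) = z'
      rw [h1, (P.e b).right_inv (P.target hz2)]
    have hO : z ∈ P.O a b := by
      refine ⟨hz1, ?_, ?_⟩
      · rw [h1]
        exact (P.e b).map_target (P.target hz2)
      · rw [h2]
        exact hz2
    refine ⟨hO, h2, ?_⟩
    refine smul_cancel (Γ := Γ) hG.free (y := σ b z') ?_
    rw [← h, ← hK a b z hO, h2, smul_smul]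
    rfl
  · have hz4 : z ∈ ball (P.c a) (4 * P.r a) := hz
    have hpy : p (γ • σ a z) = (P.e a).symm z := by
      rw [← hπ a z hz4]; exact ((hG.orb _ _).2 ⟨_, rfl⟩).symm
    have hcπ : ContinuousAt p (γ • σ a z) := hG.cov.continuous.continuousAt
    have hsrc : (P.e a).symm z ∈ (P.e a).source := (P.e a).map_target (P.target hz4)
    have hval : P.e a (p (γ • σ a z)) = z := by
      rw [hpy, (P.e a).right_inv (P.target hz4)]
    have he : ContinuousAt (fun y => P.e a (p y)) (γ • σ a z) := by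
      refine ContinuousAt.comp ?_ hcπ
      rw [hpy]
      exact (P.e a).continuousAt hsrc
    have hev1 : ∀ᶠ y in 𝓝 (γ • σ a z), p y ∈ (P.e a).source := by
      refine hcπ.eventually ?_
      rw [hpy]
      exact (P.e a).open_source.mem_nhds hsrc
    have hev2 : ∀ᶠ y in 𝓝 (γ • σ a z), P.e a (p y) ∈ ball (P.c a) (4 * P.r a) := by
      refine he.eventually ?_
      show ∀ᶠ y in 𝓝 (P.e a (p (γ • σ a z))), y ∈ ball (P.c a) (4 * P.r a)
      rw [hval]
      exact isOpen_ball.mem_nhds hz4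
    have hu : ContinuousAt (fun y => γ • σ a (P.e a (p y))) (γ • σ a z) := by
      refine (hG.cont γ).continuousAt.comp ?_
      refine ContinuousAt.comp (f := fun y => P.e a (p y)) ?_ he
      rw [hval]
      exact (hσ a).continuousAt (isOpen_ball.mem_nhds hz4)
    have h3 := lifts_eventuallyEq hG.cov hu continuousAt_id (by simp only [id, hval]) (by
      filter_upwards [hev1, hev2] with y h1 h2
      have h5 : p (γ • σ a (P.e a (p y))) = p (σ a (P.e a (p y))) :=
        ((hG.orb _ _).2 ⟨_, rfl⟩).symm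
      rw [h5, hπ a _ h2, (P.e a).left_inv h1]
      rfl)
    filter_upwards [h3, hev2] with y h1 h4
    exact ⟨h4, h1⟩

theorem exists_shs (n : ℕ) (X : Type) [TopologicalSpace X] [T2Space X] [CompactSpace X]
    [ConnectedSpace X] [ChartedSpace (Cm n) X] [IsManifold 𝓘(ℂ, Cm n) ω X]
    (w : Chart n X → Cm n → Matrix (Fin n) (Fin n) ℂ) (hw : IsKahler w)
    (E Γ : Type) [TopologicalSpace E] [ConnectedSpace E] [Group Γ] [MulAction Γ E] (p : E → X)
    (hG : IsGalois Γ p) : ∃ (C : Coc n Γ) (_ : PU C) (_ : KM C), Nonempty (Shs p C) := by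
  obtain ⟨C, P, K, S, -⟩ := exists_shsK n X w hw E Γ p hG
  exact ⟨C, P, K, ⟨S⟩⟩

section
variable {n : ℕ} {X : Type} [TopologicalSpace X] [ChartedSpace (Cm n) X]
  {E Γ : Type} [TopologicalSpace E] [Group Γ] [MulAction Γ E] {p : E → X} {C : Coc n Γ}
  (S : Shs p C) (H : Subgroup Γ) [hH : H.FiniteIndex]

/-- the data of the covering `E → E / H` -/
def sb (C : Coc n Γ) (H : Subgroup Γ) [H.FiniteIndex] : Coc n H :=
  sub C H (MonoidHom.id H) Function.surjective_id

/-- the metric -/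
def KMsb {C : Coc n Γ} (K : KM C) (H : Subgroup Γ) [H.FiniteIndex] : KM (sb C H) :=
  KMsub H (MonoidHom.id H) Function.surjective_id K

/-- the partition of unity -/
def PUsb {C : Coc n Γ} (P : PU C) (H : Subgroup Γ) [H.FiniteIndex] : PU (sb C H) :=
  PUsub H (MonoidHom.id H) Function.surjective_id P

variable {α : Type*}

/-- a function on the covering space as a family on the pieces -/
def fam (U : E → α) (s : H) (a : (sb C H).I) (z : Cm n) : α :=
  U (((s : Γ) * rp H a.2) • S.σ a.1 z)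

theorem fam_compat (U : E → α) (s : H) (a b : (sb C H).I) (z : Cm n) (hz : z ∈ (sb C H).O a b) :
    fam S H U s a z = fam S H U (s * (sb C H).κ a b z) b ((sb C H).T a b z) := by
  have hz1 : z ∈ C.O a.1 b.1 := hz.1
  show U (((s : Γ) * rp H a.2) • S.σ a.1 z) =
    U ((((s * hp H (rp H a.2 * C.κ a.1 b.1 z) : H) : Γ) * rp H b.2) • S.σ b.1 (C.T a.1 b.1 z))
  rw [← hz.2, Subgroup.coe_mul, mul_assoc, hp_mul_rp]
  rw [← S.glue a.1 b.1 z hz1, smul_smul, mul_assoc]

theorem fam_equi (U : E → α) (Φ : H → α → α) (hU : ∀ (g : H) y, U ((g : Γ) • y) = Φ g (U y))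
    (g s : H) (a : (sb C H).I) (z : Cm n) :
    fam S H U (g * s) a z = Φ g (fam S H U s a z) := by
  show U ((((g * s : H) : Γ) * rp H a.2) • S.σ a.1 z) = _
  rw [Subgroup.coe_mul, mul_assoc, mul_smul, hU]
  rfl

/-- a family on the pieces is a function on the covering space -/
theorem exists_toE [Nonempty α] (u : H → (sb C H).I → Cm n → α)
    (hu : ∀ s a b, ∀ z ∈ (sb C H).O a b,
      u s a z = u (s * (sb C H).κ a b z) b ((sb C H).T a b z)) :
    ∃ U : E → α, ∀ (γ : Γ) (a : C.I), ∀ z ∈ C.Ω a, U (γ • S.σ a z) = u (hp H γ) (a, cl H γ) z := by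
  choose g b y hy hgy using S.cover
  refine ⟨fun x => u (hp H (g x)) (b x, cl H (g x)) (y x), fun γ a z hz => ?_⟩
  set x := γ • S.σ a z with hx
  have hyΩ : y x ∈ C.Ω (b x) := ball_subset_ball (by linarith [C.r_pos (b x)]) (hy x)
  obtain ⟨h1, h2, h3⟩ := S.rel γ (g x) a (b x) z (y x) hz hyΩ (by rw [hgy x])
  have h4 := hu (hp H γ) (a, cl H γ) (b x, cl H (g x)) z ⟨h1, by rw [h3]; exact (cl_mul' H γ _).symm⟩
  have h5 : hp H γ * (sb C H).κ (a, cl H γ) (b x, cl H (g x)) z = hp H (g x) := by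
    rw [h3, hp_mul' H γ]
    rfl
  have h6 : (sb C H).T (a, cl H γ) (b x, cl H (g x)) z = y x := h2
  rw [h5, h6] at h4
  exact h4.symm

variable {S H} in
/-- local form -/
theorem toE_near {u : H → (sb C H).I → Cm n → α} {U : E → α}
    (hU : ∀ (γ : Γ) (a : C.I), ∀ z ∈ C.Ω a, U (γ • S.σ a z) = u (hp H γ) (a, cl H γ) z)
    (γ : Γ) (a : C.I) (z : Cm n) (hz : z ∈ C.Ω a) :
    ∀ᶠ y in 𝓝 (γ • S.σ a z), U y = u (hp H γ) (a, cl H γ) (S.e a (p y)) := by
  filter_upwards [S.near γ a z hz] with y hy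
  rw [← hU γ a _ hy.1, hy.2]

variable {S H} in
/-- equivariance -/
theorem toE_equi {u : H → (sb C H).I → Cm n → α} {U : E → α}
    (hU : ∀ (γ : Γ) (a : C.I), ∀ z ∈ C.Ω a, U (γ • S.σ a z) = u (hp H γ) (a, cl H γ) z)
    (Φ : H → α → α)
    (hu : ∀ g s a, ∀ z ∈ (sb C H).Ω a, u (g * s) a z = Φ g (u s a z)) (g : H) (y : E) :
    U ((g : Γ) • y) = Φ g (U y) := by
  obtain ⟨γ, a, z, hz, rfl⟩ := S.cover y
  have hzΩ : z ∈ C.Ω a := ball_subset_ball (by linarith [C.r_pos a]) hz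
  rw [smul_smul, hU _ a z hzΩ, hU _ a z hzΩ, hp_mul, cl_mul]
  exact hu g _ (a, cl H γ) z hzΩ

/-- the value of `fam` -/
theorem fam_hp (U : E → α) (γ : Γ) (a : C.I) (z : Cm n) :
    fam S H U (hp H γ) (a, cl H γ) z = U (γ • S.σ a z) := by
  show U (((hp H γ : Γ) * rp H (cl H γ)) • S.σ a z) = _
  rw [hp_mul_rp]

omit hH in
theorem p_sheet (hG : IsGalois Γ p) (γ : Γ) (a : C.I) (z : Cm n) (hz : z ∈ C.Ω a) :
    At (S.e a) (p (γ • S.σ a z)) ∧ S.e a (p (γ • S.σ a z)) = z := by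
  have h := S.src a z hz
  rw [show p (γ • S.σ a z) = p (S.σ a z) from ((hG.orb _ _).2 ⟨γ, rfl⟩).symm]
  exact h

/-- functions given locally in the charts: `fam` is eventually equal to the local form -/
theorem fam_local (hG : IsGalois Γ p) {U : E → α} {s : H} {a : (sb C H).I} {z : Cm n}
    (hz : z ∈ (sb C H).Ω a) {g : Cm n → α}
    (hg : ∀ᶠ y' in 𝓝 (((s : Γ) * rp H a.2) • S.σ a.1 z), U y' = g (S.e a.1 (p y'))) :
    fam S H U s a =ᶠ[𝓝 z] g := by
  have hz' : z ∈ C.Ω a.1 := hz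
  have hc : ContinuousAt (fun z' => ((s : Γ) * rp H a.2) • S.σ a.1 z') z :=
    ContinuousAt.comp (g := fun y => ((s : Γ) * rp H a.2) • y) (hG.cont _).continuousAt
      ((S.cont a.1).continuousAt (isOpen_ball.mem_nhds hz'))
  filter_upwards [hc.eventually hg, isOpen_ball.mem_nhds hz'] with z' h4 hz''
  show U (((s : Γ) * rp H a.2) • S.σ a.1 z') = g z'
  rw [h4, (p_sheet S hG _ a.1 z' hz'').2]

/-- a pluriharmonic function on the covering space gives a pluriharmonic family -/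
theorem fam_phb (hG : IsGalois Γ p) {w : Chart n X → Cm n → Matrix (Fin n) (Fin n) ℂ} {B : ℝ}
    {U : E → ℝ} (hU : IsPHB p w U B) (s : H) (a : (sb C H).I) (z : Cm n)
    (hz : z ∈ (sb C H).Ω a) :
    ContDiffAt ℝ ∞ (fam S H U s a) z ∧ cHess (fam S H U s a) z = 0 := by
  have hz' : z ∈ C.Ω a.1 := hz
  obtain ⟨h1, h2⟩ := p_sheet S hG ((s : Γ) * rp H a.2) a.1 z hz'
  obtain ⟨g, h3, h4, -⟩ := hU _ (S.e a.1) h1
  have h5 := fam_local S H hG hz h3
  rw [h2] at h4
  refine ⟨h4.self_of_nhds.1.congr_of_eventuallyEq h5, ?_⟩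
  rw [cHess_congr h5]
  exact h4.self_of_nhds.2

end

end Vale.Agent.P284.H35.A9
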