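import Vale.Agent.P284.H35.TwAlg
import Vale.Agent.P284.H10.Uni
import Vale.Agent.P272.K.Inv.Consts

/-!
# P284, theorem A, row AU (ii): the derivatives along the fibres tend to zero
-/

open scoped Manifold ContDiff Topology Pointwise ComplexConjugate ComplexOrder ENNReal Matrix
open Filter Set Metric MeasureTheory

noncomputable section

namespace Vale.Agent.P284.H35.A9

open Vale.Agent.P272.K Vale.Agent.P284.H248 Vale.Agent.P284.H894 Vale.Agent.P284.H894.V
  Vale.Agent.P284.H894.W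
open Vale.Agent.P284.H409.A Vale.Agent.P284.H913.Tube
open Vale.Agent.P284.H730.V hiding dd

variable {n N : ℕ}

theorem mem_I (v : Cm n) : (Complex.I • v : Cm n) = fun j => Complex.I * v j := rfl

/-- the holomorphic part of the differential -/
theorem two_dz (g : Cm n → ℂ) (z v : Cm n) :
    2 * ∑ j, dz j g z * v j = fderiv ℝ g z v - Complex.I * fderiv ℝ g z (Complex.I • v) := by
  rw [Vale.Agent.P272.K.fderiv_eq, Vale.Agent.P272.K.fderiv_eq, Finset.mul_sum, Finset.mul_sum,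
    ← Finset.sum_sub_distrib]
  refine Finset.sum_congr rfl fun j _ => ?_
  have h1 : cj ((Complex.I • v : Cm n) j) = -Complex.I * cj (v j) := by
    simp [cj]
  have h2 : (Complex.I • v : Cm n) j = Complex.I * v j := rfl
  rw [h1, h2]
  have h5 : Complex.I * Complex.I = -1 := Complex.I_mul_I
  linear_combination (dz j g z * v j - dzb j g z * cj (v j)) * h5

/-- the differential is bounded by the two Wirtinger parts -/
theorem norm_fderiv_le {h : Cm n → ℂ} {z : Cm n} (hh : DifferentiableAt ℝ h z) (v : Cm n) :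
    ‖fderiv ℝ h z v‖ ≤ ‖∑ j, dd h z j * v j‖ + ‖∑ j, dd (fun y => conj (h y)) z j * v j‖ := by
  rw [Vale.Agent.P272.K.fderiv_eq, Finset.sum_add_distrib]
  refine (norm_add_le _ _).trans (add_le_add le_rfl (le_of_eq ?_))
  have h1 : ∑ j, dzb j h z * cj (v j) = conj (∑ j, dd (fun y => conj (h y)) z j * v j) := by
    rw [map_sum]
    refine Finset.sum_congr rfl fun j _ => ?_
    have h2 : dd (fun y => conj (h y)) z j = conj (dzb j h z) := C2.dz_conj j hh
    rw [h2, map_mul, Complex.conj_conj]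
  rw [h1, RCLike.norm_conj]

theorem quad_le (M : Matrix (Fin n) (Fin n) ℂ) (v : Cm n) :
    (∑ j, ∑ k, M j k * v j * conj (v k)).re ≤ (∑ j, ∑ k, ‖M j k‖) * ‖v‖ ^ 2 := by
  refine (Complex.re_le_norm _).trans ?_
  refine (norm_sum_le _ _).trans ?_
  rw [Finset.sum_mul]
  refine Finset.sum_le_sum fun j _ => (norm_sum_le _ _).trans ?_
  rw [Finset.sum_mul]
  refine Finset.sum_le_sum fun k _ => ?_
  rw [norm_mul, norm_mul, RCLike.norm_conj, mul_assoc, sq]
  exact mul_le_mul_of_nonneg_left (mul_le_mul (norm_le_pi_norm v j) (norm_le_pi_norm v k)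
    (norm_nonneg _) (norm_nonneg _)) (norm_nonneg _)

theorem quad_nn {M : Matrix (Fin n) (Fin n) ℂ} (hM : M.PosDef) (v : Cm n) :
    0 ≤ (∑ j, ∑ k, M j k * v j * conj (v k)).re := by
  rw [form_eq]
  exact S_nonneg hM.posSemidef _

theorem root_le {x W A c : ℝ} (hc : 0 < c) {β : ℝ} (hβ : c ≤ β)
    (h : β * x ^ 2 ≤ W * A) : x ≤ √(W * A / c) := by
  refine Real.le_sqrt_of_sq_le ?_
  rw [le_div_iff₀ hc]
  nlinarith [mul_le_mul_of_nonneg_right hβ (sq_nonneg x)]

/-- `L²` small implies `L¹` small -/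
theorem l1_of_l2 {s : Set (Cm n)} (hs : MeasurableSet s) (hfin : volume s ≠ ⊤) {Q : ℕ → Cm n → ℝ}
    (hQc : ∀ j, ContinuousOn (Q j) s)
    (hQ : Tendsto (fun j => ∫⁻ z in s, ENNReal.ofReal (Q j z)) atTop (𝓝 0)) {C : ℝ} (hC : 0 ≤ C) :
    Tendsto (fun j => ∫⁻ z in s, s.indicator (fun z => ENNReal.ofReal (C * √(Q j z))) z) atTop
      (𝓝 0) := by
  have h1 : ∀ j, ∫⁻ z in s, s.indicator (fun z => ENNReal.ofReal (C * √(Q j z))) z ≤
      (ENNReal.ofReal (C ^ 2) * ∫⁻ z in s, ENNReal.ofReal (Q j z)) ^ (1 / 2 : ℝ) *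
        (volume s) ^ (1 / 2 : ℝ) := by
    intro j
    have hm : AEMeasurable (fun z => ENNReal.ofReal (C * √(Q j z))) (volume.restrict s) := by
      refine AEMeasurable.ennreal_ofReal ?_
      exact ((continuousOn_const.mul (hQc j).sqrt).aemeasurable hs)
    have h2 := ENNReal.lintegral_mul_le_Lp_mul_Lq (volume.restrict s) Real.HolderConjugate.two_two
      hm (aemeasurable_const (b := (1 : ℝ≥0∞)))
    have h3 : ∫⁻ z in s, s.indicator (fun z => ENNReal.ofReal (C * √(Q j z))) z =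
        ∫⁻ z in s, ((fun z : Cm n => ENNReal.ofReal (C * √(Q j z))) *
          fun _ : Cm n => (1 : ℝ≥0∞)) z := by
      refine setLIntegral_congr_fun hs fun z hz => ?_
      simp [indicator_of_mem hz]
    rw [h3]
    refine h2.trans ?_
    have h4 : ∫⁻ z in s, (1 : ℝ≥0∞) ^ (2 : ℝ) = volume s := by simp
    have h5 : ∫⁻ z in s, ENNReal.ofReal (C * √(Q j z)) ^ (2 : ℝ) ≤
        ENNReal.ofReal (C ^ 2) * ∫⁻ z in s, ENNReal.ofReal (Q j z) := by
      rw [← lintegral_const_mul' _ _ ENNReal.ofReal_ne_top]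
      refine lintegral_mono fun z => ?_
      rw [← ENNReal.ofReal_mul (sq_nonneg C), ENNReal.ofReal_rpow_of_nonneg (by positivity)
        (by norm_num)]
      rcases le_total 0 (Q j z) with h0 | h0
      · refine ENNReal.ofReal_le_ofReal (le_of_eq ?_)
        rw [show (2 : ℝ) = ((2 : ℕ) : ℝ) by norm_num, Real.rpow_natCast, mul_pow, Real.sq_sqrt h0]
      · rw [Real.sqrt_eq_zero_of_nonpos h0]
        simp
    rw [h4]
    exact mul_le_mul_left (ENNReal.rpow_le_rpow h5 (by norm_num)) _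
  refine tendsto_of_tendsto_of_tendsto_of_le_of_le tendsto_const_nhds ?_ (fun j => zero_le) h1
  have h2 : Tendsto (fun j => ENNReal.ofReal (C ^ 2) * ∫⁻ z in s, ENNReal.ofReal (Q j z)) atTop
      (𝓝 0) := by
    have := ENNReal.Tendsto.const_mul hQ (Or.inr (ENNReal.ofReal_ne_top (r := C ^ 2)))
    rwa [mul_zero] at this
  have h3 := (ENNReal.continuous_rpow_const (y := (1 / 2 : ℝ))).tendsto 0 |>.comp h2
  rw [ENNReal.zero_rpow_of_pos (by norm_num)] at h3
  have h4 := ENNReal.Tendsto.mul_const h3 (b := (volume s) ^ (1 / 2 : ℝ))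
    (Or.inr (ENNReal.rpow_ne_top_of_nonneg (by norm_num) hfin))
  rwa [zero_mul] at h4

theorem vdStmt : Vale.Agent.P284.H10.VdStmt := by
  intro n X _ _ _ w hw E _ p hp N F B hF lam hlam u y hreg hloc
  obtain ⟨e, O, ρ, ψe, h, hAt, hO, hyO, hρ, hOAt, hψ, hu, hψs, hhs, hlim⟩ := hloc
  obtain ⟨f, hf1, hf2, -⟩ := hF y e hAt
  have hsurj := hreg e f hAt hf1
  set z₀ := e (p y) with hz₀
  -- the local forms
  have hmap : Filter.map (fun y' => e (p y')) (𝓝 y) = 𝓝 z₀ := by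
    have h1 : Filter.map p (𝓝 y) = 𝓝 (p y) := hp.isLocalHomeomorph.map_nhds_eq y
    have h2 : Filter.map e (𝓝 (p y)) = 𝓝 (e (p y)) := e.map_nhds_eq hAt.2
    rw [show (fun y' => e (p y')) = e ∘ p from rfl, ← Filter.map_map, h1, h2]
  have hψf : ∀ᶠ z in 𝓝 z₀, ψe z = lam (f z) := by
    rw [← hmap, Filter.eventually_map]
    filter_upwards [hf1, hO.mem_nhds hyO] with y' h1 h2
    rw [← hψ y' h2, ← h1]
  have hlamc : Continuous lam := LinearMap.continuous_of_finiteDimensional lam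
  set lamC : Cm N →L[ℝ] ℝ := ⟨lam, hlamc⟩ with hlamC
  have hfd : ∀ z, DifferentiableAt ℂ f z → ψe =ᶠ[𝓝 z] (fun z => lam (f z)) → ∀ v,
      fderiv ℝ (fun y => (ψe y : ℂ)) z v = ((lam (fderiv ℂ f z v) : ℝ) : ℂ) := by
    intro z h1 h2 v
    have h3 : HasFDerivAt (fun z => lam (f z)) (lamC.comp (fderiv ℝ f z)) z :=
      lamC.hasFDerivAt.comp z (h1.restrictScalars ℝ).hasFDerivAt
    have h4 : HasFDerivAt (fun y => (ψe y : ℂ)) (Complex.ofRealCLM.comp
        (lamC.comp (fderiv ℝ f z))) z :=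
      Complex.ofRealCLM.hasFDerivAt.comp z (h3.congr_of_eventuallyEq h2)
    rw [h4.fderiv]
    have h5 : fderiv ℝ f z v = fderiv ℂ f z v := by
      rw [h1.fderiv_restrictScalars ℝ]
      rfl
    show ((lam (fderiv ℝ f z v) : ℝ) : ℂ) = _
    rw [h5]
  have hker : ∀ z, DifferentiableAt ℂ f z → ψe =ᶠ[𝓝 z] (fun z => lam (f z)) → ∀ v,
      fderiv ℂ f z v = 0 → ∑ j, dd (fun y => (ψe y : ℂ)) z j * v j = 0 := by
    intro z h1 h2 v hv
    have h3 := two_dz (fun y => (ψe y : ℂ)) z v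
    rw [hfd z h1 h2, hfd z h1 h2, map_smul, hv] at h3
    have h4 : ∑ j, dz j (fun y => (ψe y : ℂ)) z * v j = 0 := by simpa using h3
    exact h4
  -- `θ ≠ 0` at the centre
  have hθ : dd (fun y => (ψe y : ℂ)) z₀ ≠ 0 := by
    intro h0
    obtain ⟨η, hη⟩ : ∃ η, lam η ≠ 0 := by
      by_contra hcon
      push Not at hcon
      exact hlam (LinearMap.ext hcon)
    obtain ⟨v, hv⟩ := hsurj η
    have h1 := two_dz (fun y => (ψe y : ℂ)) z₀ v
    have h2 : ∀ j, dz j (fun y => (ψe y : ℂ)) z₀ = 0 := fun j => congrFun h0 j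
    rw [hfd z₀ hf2.self_of_nhds hψf, hfd z₀ hf2.self_of_nhds hψf, hv] at h1
    simp only [h2, zero_mul, Finset.sum_const_zero, mul_zero] at h1
    have h3 := congrArg Complex.re h1
    simp only [Complex.zero_re, Complex.sub_re, Complex.ofReal_re, Complex.mul_re, Complex.I_re,
      zero_mul, Complex.I_im, Complex.ofReal_im, mul_zero, sub_zero] at h3
    exact hη h3.symm
  have htgt : z₀ ∈ e.target := e.map_source hAt.2
  have hpos : ∀ z ∈ e.target, (w e z).PosDef := fun z hz => hw.posDef_target hAt.1 hz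
  have hmc : ∀ z ∈ e.target, C2.MC ∞ (w e) z := fun z hz i j => hw.smooth_target hAt.1 hz i j
  have hβ0 : 0 < (S (w e z₀)⁻¹ (dd (fun y => (ψe y : ℂ)) z₀) (dd (fun y => (ψe y : ℂ)) z₀)).re := by
    rw [S_eq]
    exact (Complex.lt_def.1 ((hpos z₀ htgt).inv.dotProduct_mulVec_pos hθ)).1
  set c := (S (w e z₀)⁻¹ (dd (fun y => (ψe y : ℂ)) z₀) (dd (fun y => (ψe y : ℂ)) z₀)).re / 2 with hc
  have hc0 : 0 < c := half_pos hβ0
  have hβc : ∀ᶠ z in 𝓝 z₀,
      c < (S (w e z)⁻¹ (dd (fun y => (ψe y : ℂ)) z) (dd (fun y => (ψe y : ℂ)) z)).re := by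
    have h1 : ContinuousAt (fun z => (S (w e z)⁻¹ (dd (fun y => (ψe y : ℂ)) z)
        (dd (fun y => (ψe y : ℂ)) z)).re) z₀ := by
      have h2 := dd_cont (C2.contDiffAt_ofReal (hψs z₀ (mem_ball_self hρ)))
      exact Complex.continuous_re.continuousAt.comp
        (S_cont (hmc z₀ htgt) (hpos z₀ htgt).det_pos.ne' h2 h2)
    exact h1.eventually (lt_mem_nhds (by linarith))
  set L : Cm n → ℝ := fun z => ∑ j, ∑ k, ‖w e z j k‖ with hL
  have hLc : ContinuousAt L z₀ := by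
    refine tendsto_finsetSum _ fun j _ => tendsto_finsetSum _ fun k _ => ?_
    exact (hmc z₀ htgt j k).continuousAt.norm
  have hLb : ∀ᶠ z in 𝓝 z₀, L z < L z₀ + 1 := hLc.eventually (gt_mem_nhds (by linarith))
  have hL0 : ∀ z, 0 ≤ L z := fun z =>
    Finset.sum_nonneg fun j _ => Finset.sum_nonneg fun k _ => norm_nonneg _
  -- the ball
  have hev : ∀ᶠ z in 𝓝 z₀, DifferentiableAt ℂ f z ∧ ψe =ᶠ[𝓝 z] (fun z => lam (f z)) ∧
      c < (S (w e z)⁻¹ (dd (fun y => (ψe y : ℂ)) z) (dd (fun y => (ψe y : ℂ)) z)).re ∧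
      L z < L z₀ + 1 ∧ z ∈ e.target ∧ z ∈ ball z₀ ρ := by
    filter_upwards [hf2, hψf.eventually_nhds, hβc, hLb, e.open_target.mem_nhds htgt,
      isOpen_ball.mem_nhds (mem_ball_self hρ)] with z h1 h2 h3 h4 h5 h6
    exact ⟨h1, h2, h3, h4, h5, h6⟩
  obtain ⟨r, hr, hball⟩ := Metric.eventually_nhds_iff_ball.1 hev
  obtain ⟨O', hO's, hO', hyO'⟩ := _root_.mem_nhds_iff.1 (Filter.inter_mem hf1 (hO.mem_nhds hyO))
  set Q : ℕ → Cm n → ℝ := fun j z => W1 (w e) ψe (h j) z + W2 (w e) ψe (h j) z with hQ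
  have hQc : ∀ j, ContinuousOn (Q j) (ball z₀ r) := fun j z hz => by
    obtain ⟨-, -, -, -, h5, h6⟩ := hball z hz
    exact (W_cont (hmc z h5) (hpos z h5).det_pos.ne' (hψs z h6) (hhs j z h6)).continuousWithinAt
  have hQ0 : ∀ j, ∀ z ∈ ball z₀ r, 0 ≤ Q j z := fun j z hz => by
    obtain ⟨-, -, -, -, h5, -⟩ := hball z hz
    exact add_nonneg (W1_nonneg (hpos z h5)) (W2_nonneg (hpos z h5))
  set C : ℝ := 2 * √((L z₀ + 1) / c) with hC
  have hC0 : 0 ≤ C := by positivity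
  refine ⟨e, hAt, O', f, h, r, fun j => (ball z₀ r).indicator fun z =>
    ENNReal.ofReal (C * √(Q j z)), hO', hyO', hr, fun y' hy' => (hO's hy').1,
    fun j y' hy' => hu j y' (hO's hy').2, fun z hz => (hball z hz).1, hsurj,
    fun j z hz => (hhs j z (hball z hz).2.2.2.2.2).of_le (by simp), fun j => ?_, ?_, ?_⟩
  · have h1 : ContinuousOn (fun z => ENNReal.ofReal (C * √(Q j z))) (ball z₀ r) :=
      ENNReal.continuous_ofReal.comp_continuousOn (continuousOn_const.mul (hQc j).sqrt)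
    classical
    have h2 := ContinuousOn.measurable_piecewise (g := fun _ => (0 : ℝ≥0∞)) h1 continuousOn_const
      measurableSet_ball
    have h3 := piecewise_eq_indicator (s := ball z₀ r)
      (f := fun z => ENNReal.ofReal (C * √(Q j z)))
    show Measurable ((ball z₀ r).indicator fun z => ENNReal.ofReal (C * √(Q j z)))
    rw [← h3]
    exact h2
  · intro j z hz v hv
    obtain ⟨h1, h2, h3, h4, h5, h6⟩ := hball z hz
    have hw' := hpos z h5
    have hθv := hker z h1 h2 v hv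
    have hA : (∑ j, ∑ k, w e z j k * v j * conj (v k)).re ≤ (L z₀ + 1) * ‖v‖ ^ 2 :=
      (quad_le _ v).trans (mul_le_mul_of_nonneg_right h4.le (sq_nonneg _))
    have hβ := h3
    set β := (S (w e z)⁻¹ (dd (fun y => (ψe y : ℂ)) z) (dd (fun y => (ψe y : ℂ)) z)).re with hβd
    have hβ0 : 0 < β := hc0.trans hβ
    have hWs : Q j z = W1 (w e) ψe (h j) z + W2 (w e) ψe (h j) z := rfl
    have hW1 : 0 ≤ W1 (w e) ψe (h j) z := W1_nonneg hw'
    have hW2 : 0 ≤ W2 (w e) ψe (h j) z := W2_nonneg hw'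
    have f1 := fibre_le hw' (p := dd (h j) z) hθv hβ0
    have f2 := fibre_le hw' (p := dd (fun y => conj (h j y)) z) hθv hβ0
    have g1 : ‖∑ j', dd (h j) z j' * v j'‖ ≤ √(Q j z * ((L z₀ + 1) * ‖v‖ ^ 2) / c) :=
      root_le hc0 hβ.le (f1.trans (mul_le_mul
        (by rw [hWs]; exact le_add_of_nonneg_right hW2) hA
        (quad_nn hw' v) (hQ0 j z hz)))
    have g2 : ‖∑ j', dd (fun y => conj (h j y)) z j' * v j'‖ ≤
        √(Q j z * ((L z₀ + 1) * ‖v‖ ^ 2) / c) :=
      root_le hc0 hβ.le (f2.trans (mul_le_mul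
        (by rw [hWs]; exact le_add_of_nonneg_left hW1) hA
        (quad_nn hw' v) (hQ0 j z hz)))
    have g3 : √(Q j z * ((L z₀ + 1) * ‖v‖ ^ 2) / c) = √((L z₀ + 1) / c) * √(Q j z) * ‖v‖ := by
      rw [show Q j z * ((L z₀ + 1) * ‖v‖ ^ 2) / c = ((L z₀ + 1) / c) * Q j z * ‖v‖ ^ 2 by ring,
        Real.sqrt_mul (mul_nonneg (by have := hL0 z₀; positivity) (hQ0 j z hz)),
        Real.sqrt_mul (by have := hL0 z₀; positivity), Real.sqrt_sq (norm_nonneg v)]
    have g4 : ‖fderiv ℝ (h j) z v‖ ≤ C * √(Q j z) * ‖v‖ := by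
      refine (norm_fderiv_le ((hhs j z h6).differentiableAt (by simp)) v).trans ?_
      refine (add_le_add g1 g2).trans (le_of_eq ?_)
      rw [g3, hC]
      ring
    show _ ≤ (ball z₀ r).indicator (fun z => ENNReal.ofReal (C * √(Q j z))) z * ‖v‖ₑ
    rw [indicator_of_mem (show z ∈ ball z₀ r from hz), ← ofReal_norm, ← ofReal_norm,
      ← ENNReal.ofReal_mul (by positivity)]
    exact ENNReal.ofReal_le_ofReal g4
  · refine l1_of_l2 measurableSet_ball measure_ball_lt_top.ne hQc ?_ hC0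
    refine tendsto_of_tendsto_of_tendsto_of_le_of_le tendsto_const_nhds hlim (fun j => zero_le)
      fun j => ?_
    exact lintegral_mono_set fun z hz => (hball z hz).2.2.2.2.2

end Vale.Agent.P284.H35.A9
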