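import Vale.Agent.P284.H287.V14A
import Vale.Agent.P284.H35.V14B

/-!
# P284, theorem V, block V14 (helper287, helper35)
-/

namespace Vale.Agent.P284.H35.V

open Vale.Agent.P284.H894.V

theorem v14Stmt : V14Stmt := v14_of Vale.Agent.P284.H287.V.v14AStmt v14BStmt

end Vale.Agent.P284.H35.V
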