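import Vale.Agent.P284.H894.V.Spec

/-!
# P284, theorem V, block V14: intermediate statements (helper35)
-/

open scoped Manifold ContDiff Topology Pointwise ComplexConjugate ComplexOrder
open Filter Set Metric MeasureTheory

noncomputable section

namespace Vale.Agent.P284.H35.V

open Vale.Agent.P272.K Vale.Agent.P284.H248 Vale.Agent.P284.H894 Vale.Agent.P284.H894.G
open Vale.Agent.P284.H894.V

/-- `η` is a mollifier as in V11 (`V11Stmt` is `∀ n δ, 0 < δ → ∃ η B, MolP n δ η B`). -/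
def MolP (n : ℕ) (δ : ℝ) (η : Cm n → ℝ) (B : ℝ) : Prop :=
  0 < B ∧ ContDiff ℝ ∞ η ∧ (∀ t, 0 ≤ η t) ∧
    (∀ t, δ ≤ ‖t‖ → η t = 0) ∧ ∫ t, η t = 1 ∧
    ∀ (c : Cm n) (r R : ℝ), 0 < r → r + δ ≤ R → ∀ f : Cm n → ℝ,
      (∀ z ∈ closedBall c R, ContDiffAt ℝ ∞ f z) →
      (∀ z ∈ ball c r, ContDiffAt ℝ ∞ (mo η f) z) ∧
      ∫ z in ball c r, (f z - mo η f z) ^ 2 ≤ B * ∫ z in ball c R, D1 f z ∧
      ∫ z in ball c r, D1 (fun y => f y - mo η f y) z ≤ B * ∫ z in ball c R, D2 f z ∧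
      ∫ z in ball c r, (f z - mo η f z) ^ 2 ≤ B * ∫ z in ball c R, D2 f z ∧
      (∀ z ∈ ball c r, D2 (mo η f) z ≤ B * ∫ z in ball c R, D2 f z) ∧
      (∀ z ∈ ball c r, ‖fderiv ℝ (mo η f) z‖ ^ 2 ≤ B * ∫ z in ball c R, D1 f z) ∧
      (∀ z ∈ ball c r, ∀ z' ∈ ball c r, ‖fderiv ℝ (mo η f) z - fderiv ℝ (mo η f) z'‖ ^ 2 ≤
        B * ‖z - z'‖ ^ 2 * ∫ z in ball c R, D1 f z)

/-- A smooth function `u` on the covering, with energy at most `C₁` and `∫ |∂∂̄u|² ≤ ε` on every ball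
of radius `3 r`, whose mollified gradient has norm at least `1` at some point of a small ball. -/
structure App {n : ℕ} {Γ : Type} [Group Γ] (C : Coc n Γ) (η : Cm n → ℝ) (C₁ ε : ℝ)
    (u : Γ → C.I → Cm n → ℝ) : Prop where
  smooth : ∀ γ a, ∀ z ∈ C.Ω a, ContDiffAt ℝ ∞ (u γ a) z
  compat : ∀ γ a b, ∀ z ∈ C.O a b, u γ a z = u (γ * C.κ a b z) b (C.T a b z)
  d1 : ∀ γ a, ∫ z in C.V a, D1 (u γ a) z ≤ C₁
  d2 : ∀ γ a, ∫ z in C.V a, D2 (u γ a) z ≤ ε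
  one : ∃ b, ∃ z ∈ C.W b, ∃ e : Cm n, ‖e‖ ≤ 1 ∧ 1 ≤ fderiv ℝ (mo η (u 1 b)) z e

/-- **V14A** (almost pluriharmonic functions of bounded gradient). `f` a test function with
`Int (Hh f f) < ε Int (Gr f f)`, `E = Int (Gr f f)`. V3.ge, VP.ell, V11.m2: for some `b` and `z₀ ∈ W b`
and `e ∈ {e_j, i e_j}`: `S := Σ_g |D_e (mo f g b)(z₀)|² ≥ c₁ E`; `v(g) := D_e (mo f g⁻¹ b)(z₀) / S`
(finite support), `u γ a z := Σ_g v(g) f (g⁻¹ γ) a z`. Then `D_e (mo (u 1 b))(z₀) = 1` and by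
Cauchy-Schwarz `∫_{V a} D1 (u γ a) ≤ S⁻¹ Σ_γ ∫_{V a} D1 (f γ a) ≤ C / c₁` (VP.ell, V3.le), the same for `D2`. -/
def V14AStmt : Prop :=
  VPStmt → V3Stmt → V5Concl →
  ∀ (n : ℕ) (Γ : Type) [Group Γ] (C : Coc n Γ) (P : PU C) (K : KM C),
    (∀ ε : ℝ, 0 < ε → ∃ f, IsTst C f ∧ Int P K (Hh K f f) < ε * Int P K (Gr K f f)) →
    ∀ (δ : ℝ) (η : Cm n → ℝ) (B : ℝ), 0 < δ → (∀ a, 4 * δ ≤ C.r a) → MolP n δ η B →
    ∃ C₁ : ℝ, ∀ ε : ℝ, 0 < ε → ∃ u, App C η C₁ ε u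

/-- **V14B**: the limit. -/
def V14BStmt : Prop :=
  V12Stmt →
  ∀ (n : ℕ) (Γ : Type) [Group Γ] (C : Coc n Γ) (δ : ℝ) (η : Cm n → ℝ) (B : ℝ), 0 < δ →
    (∀ a, 4 * δ ≤ C.r a) → MolP n δ η B → ∀ C₁ : ℝ, (∀ ε : ℝ, 0 < ε → ∃ u, App C η C₁ ε u) →
    ∃ u B', LimFam C u B'

theorem v14_of (hA : V14AStmt) (hB : V14BStmt) : V14Stmt := by
  intro hP h3 h5 h11 h12 n Γ _ C P K hex
  obtain ⟨a₀, -, ha₀⟩ := Finset.exists_min_image Finset.univ C.r ⟨Classical.arbitrary C.I, Finset.mem_univ _⟩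
  have hδ : 0 < C.r a₀ / 4 := by have := C.r_pos a₀; positivity
  have hδ' : ∀ a, 4 * (C.r a₀ / 4) ≤ C.r a := fun a => by
    have := ha₀ a (Finset.mem_univ a); linarith
  obtain ⟨η, B, h⟩ := h11 n _ hδ
  obtain ⟨C₁, hC₁⟩ := hA hP h3 h5 n Γ C P K hex _ η B hδ hδ' h
  exact hB h12 n Γ C _ η B hδ hδ' h C₁ hC₁

end Vale.Agent.P284.H35.V
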